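import Crest.Agent.R112.PlaneO1
import Crest.Agent.R112.Defs
import Mathlib
import Crest.Agent.R112.OneDim
import Crest.Agent.R112.Basic
import Crest.Agent.R112.Interface

-- ▼ part R112/AttPlane
section

/-!
Row 112 (S0147), module AttPlane: attached points in the plane, direction `e`.
-/

set_option autoImplicit false

namespace Crest.Agent.R112

open MeasureTheory Set Filter Topology
open scoped NNReal ENNReal

/-- attached in direction `e`, with travel at most `R` -/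
def AttR (R : ℝ) (e : ℂ) (f u : ℂ → ℝ) (z : ℂ) : Prop :=
  ∃ σ ∈ Icc (0 : ℝ) R, u z ≤ f (z + σ * e) ∧ ∀ t ∈ Icc (0 : ℝ) σ, u z ≤ u (z + t * e)

/-- attached in direction `e` -/
def AttP (e : ℂ) (f u : ℂ → ℝ) (z : ℂ) : Prop :=
  ∃ σ : ℝ, 0 ≤ σ ∧ u z ≤ f (z + σ * e) ∧ ∀ t ∈ Icc (0 : ℝ) σ, u z ≤ u (z + t * e)

theorem attP_of_attR {R : ℝ} {e : ℂ} {f u : ℂ → ℝ} {z : ℂ} (h : AttR R e f u z) : AttP e f u z := by
  obtain ⟨σ, h1, h2, h3⟩ := h
  exact ⟨σ, h1.1, h2, h3⟩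

theorem isClosed_attR (R : ℝ) (e : ℂ) {f u : ℂ → ℝ} (hf : Continuous f) (hu : Continuous u) :
    IsClosed {z | AttR R e f u z} := by
  have hcl : IsClosed {p : ℂ × Icc (0 : ℝ) R | u p.1 ≤ f (p.1 + (p.2 : ℝ) * e) ∧
      ∀ θ ∈ Icc (0 : ℝ) 1, u p.1 ≤ u (p.1 + ((θ * (p.2 : ℝ) : ℝ) : ℂ) * e)} := by
    have h1 : IsClosed {p : ℂ × Icc (0 : ℝ) R | u p.1 ≤ f (p.1 + (p.2 : ℝ) * e)} := by
      apply isClosed_le <;> fun_prop
    have h2 : IsClosed (⋂ θ ∈ Icc (0 : ℝ) 1, {p : ℂ × Icc (0 : ℝ) R |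
        u p.1 ≤ u (p.1 + ((θ * (p.2 : ℝ) : ℝ) : ℂ) * e)}) := by
      apply isClosed_biInter
      intro θ _
      apply isClosed_le <;> fun_prop
    convert h1.inter h2 using 1
    ext p
    simp
  have := isClosedMap_fst_of_compactSpace (X := ℂ) (Y := Icc (0 : ℝ) R) _ hcl
  convert this using 1
  ext z
  simp only [mem_image, mem_ofPred_eq, Prod.exists, exists_and_right, exists_eq_right]
  constructor
  · rintro ⟨σ, h1, h2, h3⟩
    refine ⟨⟨σ, h1⟩, h2, fun θ hθ => ?_⟩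
    exact h3 _ ⟨mul_nonneg hθ.1 h1.1, mul_le_of_le_one_left h1.1 hθ.2⟩
  · rintro ⟨⟨σ, h1⟩, h2, h3⟩
    refine ⟨σ, h1, h2, fun t ht => ?_⟩
    rcases eq_or_lt_of_le h1.1 with h0 | h0
    · have : t = 0 := le_antisymm (h0 ▸ ht.2) ht.1
      subst this
      simp
    · have := h3 (t / σ) ⟨div_nonneg ht.1 h1.1, div_le_one_of_le₀ ht.2 h1.1⟩
      rwa [div_mul_cancel₀ _ h0.ne'] at this

theorem measurableSet_attP (e : ℂ) {f u : ℂ → ℝ} (hf : Continuous f) (hu : Continuous u) :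
    MeasurableSet {z | AttP e f u z} := by
  have : {z | AttP e f u z} = ⋃ n : ℕ, {z | AttR n e f u z} := by
    ext z
    simp only [mem_ofPred_eq, mem_iUnion]
    constructor
    · rintro ⟨σ, h1, h2, h3⟩
      obtain ⟨n, hn⟩ := exists_nat_ge σ
      exact ⟨n, σ, ⟨h1, hn⟩, h2, h3⟩
    · rintro ⟨n, h⟩
      exact attP_of_attR h
  rw [this]
  exact MeasurableSet.iUnion fun n => (isClosed_attR n e hf hu).measurableSet

theorem fderiv_aff (f : ℂ → ℝ) (x0 : ℂ) {c : ℂ} (hc : c ≠ 0) (z v : ℂ) :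
    fderiv ℝ (fun z => f (x0 + c * z)) z v = fderiv ℝ f (x0 + c * z) (c * v) := by
  have h1 : (fun z => f (x0 + c * z)) = (fun w => f (x0 + w)) ∘
      (ContinuousLinearEquiv.restrictScalars ℝ
        (ContinuousLinearEquiv.unitsEquivAut ℂ (Units.mk0 c hc))) := by
    ext z
    simp [mul_comm]
  rw [h1, ContinuousLinearEquiv.comp_right_fderiv, fderiv_comp_add_left]
  simp [mul_comm]

theorem line_lipschitz (y : ℝ) : LipschitzWith 1 (fun s : ℝ => (⟨s, y⟩ : ℂ)) := by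
  refine LipschitzWith.of_dist_le_mul fun a b => ?_
  rw [Complex.dist_eq, Real.dist_eq]
  have : (⟨a, y⟩ : ℂ) - ⟨b, y⟩ = ((a - b : ℝ) : ℂ) := by
    apply Complex.ext <;> simp
  rw [this, Complex.norm_real]
  simp

theorem line_hasDerivAt (y s : ℝ) : HasDerivAt (fun s : ℝ => (⟨s, y⟩ : ℂ)) 1 s := by
  have h : (fun s : ℝ => (⟨s, y⟩ : ℂ)) = fun s : ℝ => (s : ℂ) + y * Complex.I := by
    ext s; apply Complex.ext <;> simp
  rw [h]
  exact (Complex.ofRealCLM.hasDerivAt (x := s)).add_const _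

theorem ofReal_fderiv_one_le (u : ℂ → ℝ) (s y : ℝ) :
    ENNReal.ofReal (fderiv ℝ u ⟨s, y⟩ 1) ≤ ENNReal.ofReal (deriv (fun s : ℝ => u ⟨s, y⟩) s) := by
  by_cases h : DifferentiableAt ℝ u ⟨s, y⟩
  · have : HasDerivAt (fun s : ℝ => u ⟨s, y⟩) (fderiv ℝ u ⟨s, y⟩ 1) s :=
      h.hasFDerivAt.comp_hasDerivAt s (line_hasDerivAt y s)
    rw [this.deriv]
  · rw [fderiv_zero_of_not_differentiableAt h]; simp

theorem ofReal_neg_fderiv_one_le (u : ℂ → ℝ) (s y : ℝ) :
    ENNReal.ofReal (-(fderiv ℝ u ⟨s, y⟩ 1)) ≤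
      ENNReal.ofReal (-(deriv (fun s : ℝ => u ⟨s, y⟩) s)) := by
  by_cases h : DifferentiableAt ℝ u ⟨s, y⟩
  · have : HasDerivAt (fun s : ℝ => u ⟨s, y⟩) (fderiv ℝ u ⟨s, y⟩ 1) s :=
      h.hasFDerivAt.comp_hasDerivAt s (line_hasDerivAt y s)
    rw [this.deriv]
  · rw [fderiv_zero_of_not_differentiableAt h]; simp

theorem enorm_deriv_line_le {f : ℂ → ℝ} (hf : Differentiable ℝ f) (s y : ℝ) :
    ‖deriv (fun s : ℝ => f ⟨s, y⟩) s‖ₑ ≤ ‖fderiv ℝ f ⟨s, y⟩‖ₑ := by
  have : HasDerivAt (fun s : ℝ => f ⟨s, y⟩) (fderiv ℝ f ⟨s, y⟩ 1) s :=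
    (hf _).hasFDerivAt.comp_hasDerivAt s (line_hasDerivAt y s)
  rw [this.deriv, ← ofReal_norm, ← ofReal_norm]
  apply ENNReal.ofReal_le_ofReal
  simpa using (fderiv ℝ f ⟨s, y⟩).le_opNorm 1

/-- O2 in the plane, direction `1` -/
theorem lint_attP_one {f u : ℂ → ℝ} (hN : Nice f) (hfu : ∀ x, f x ≤ u x) (hf0 : ∀ x, 0 ≤ f x)
    {K : ℝ≥0} (hf : LipschitzWith K f) (hu : LipschitzWith K u) :
    ∫⁻ z in {z | AttP 1 f u z}, ENNReal.ofReal (fderiv ℝ u z 1) ≤ ∫⁻ z, ‖fderiv ℝ f z‖ₑ := by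
  have hm := measurableSet_attP 1 hf.continuous hu.continuous
  rw [← lintegral_indicator hm]
  have hd : Differentiable ℝ f := hN.1.differentiable (by norm_num)
  rw [lint_slice, lint_slice]
  rotate_left
  · exact (measurable_fderiv ℝ f).enorm
  · exact ((measurable_fderiv_apply_const ℝ u 1).ennreal_ofReal).indicator hm
  apply lintegral_mono
  intro y
  obtain ⟨b, hb⟩ : ∃ b : ℝ, ∀ x : ℝ, b ≤ x → f ⟨x, y⟩ = 0 := by
    obtain ⟨R, hR⟩ := hN.2.isCompact.isBounded.subset_closedBall 0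
    refine ⟨R + 1, fun x hx => ?_⟩
    by_contra hne
    have h1 : (⟨x, y⟩ : ℂ) ∈ tsupport f := subset_tsupport f hne
    have h2 := hR h1
    rw [mem_closedBall_zero_iff] at h2
    have h3 : |x| ≤ ‖(⟨x, y⟩ : ℂ)‖ := Complex.abs_re_le_norm ⟨x, y⟩
    have h4 : x ≤ |x| := le_abs_self x
    linarith
  have hf' : LipschitzWith K (fun s : ℝ => f ⟨s, y⟩) := by
    simpa [Function.comp_def] using hf.comp (line_lipschitz y)
  have hu' : LipschitzWith K (fun s : ℝ => u ⟨s, y⟩) := by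
    simpa [Function.comp_def] using hu.comp (line_lipschitz y)
  have key := lintegral_attached_le (f := fun s : ℝ => f ⟨s, y⟩) (u := fun s : ℝ => u ⟨s, y⟩)
    (fun x => hfu _) (fun x => hf0 _) hf' hu' hb
  have hms : MeasurableSet {x : ℝ | att (fun s : ℝ => f ⟨s, y⟩) (fun s : ℝ => u ⟨s, y⟩) x =
      u ⟨x, y⟩} :=
    (isClosed_eq (att_lipschitz (f := fun s : ℝ => f ⟨s, y⟩) (u := fun s : ℝ => u ⟨s, y⟩)
      (fun x => hfu _) hf' hu').continuous hu'.continuous).measurableSet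
  calc ∫⁻ s : ℝ, ({z | AttP 1 f u z}.indicator (fun z => ENNReal.ofReal (fderiv ℝ u z 1)))
        ⟨s, y⟩
      ≤ ∫⁻ s : ℝ, ({x : ℝ | att (fun s : ℝ => f ⟨s, y⟩) (fun s : ℝ => u ⟨s, y⟩) x =
          u ⟨x, y⟩}.indicator (fun s => ENNReal.ofReal (deriv (fun s : ℝ => u ⟨s, y⟩) s))) s := by
        apply lintegral_mono
        intro s
        by_cases hs : AttP 1 f u ⟨s, y⟩
        · have hs' : att (fun s : ℝ => f ⟨s, y⟩) (fun s : ℝ => u ⟨s, y⟩) s = u ⟨s, y⟩ := by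
            apply att_eq_of_attached (f := fun s : ℝ => f ⟨s, y⟩) (u := fun s : ℝ => u ⟨s, y⟩)
              (fun x => hfu _)
            obtain ⟨σ, h1, h2, h3⟩ := hs
            have e1 : ∀ t : ℝ, (⟨s, y⟩ : ℂ) + (t : ℂ) * 1 = ⟨s + t, y⟩ := by
              intro t; apply Complex.ext <;> simp
            rw [e1] at h2
            refine ⟨s + σ, by linarith, h2, fun t ht => ?_⟩
            have := h3 (t - s) ⟨by linarith [ht.1], by linarith [ht.2]⟩
            rw [e1] at this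
            simpa using this
          show indicator _ _ (⟨s, y⟩ : ℂ) ≤ indicator _ _ s
          rw [indicator_of_mem (show (⟨s, y⟩ : ℂ) ∈ {z | AttP 1 f u z} from hs),
            indicator_of_mem (by exact hs')]
          exact ofReal_fderiv_one_le u s y
        · show indicator _ _ (⟨s, y⟩ : ℂ) ≤ indicator _ _ s
          rw [indicator_of_notMem (show (⟨s, y⟩ : ℂ) ∉ {z | AttP 1 f u z} from hs)]
          exact bot_le
    _ = ∫⁻ s in {x : ℝ | att (fun s : ℝ => f ⟨s, y⟩) (fun s : ℝ => u ⟨s, y⟩) x =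
          u ⟨x, y⟩}, ENNReal.ofReal (deriv (fun s : ℝ => u ⟨s, y⟩) s) :=
        lintegral_indicator hms _
    _ ≤ _ := key
    _ ≤ _ := lintegral_mono fun s => enorm_deriv_line_le hd s y

theorem nice_aff {f : ℂ → ℝ} (hN : Nice f) (x0 : ℂ) {c : ℂ} (hc : c ≠ 0) :
    Nice (fun z => f (x0 + c * z)) := by
  constructor
  · exact hN.1.comp (by fun_prop)
  · have : (fun z => f (x0 + c * z)) = f ∘ ((Homeomorph.mulLeft₀ c hc).trans
      (Homeomorph.addLeft x0)) := by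
      ext z; simp
    rw [this]
    exact hN.2.comp_homeomorph _

theorem norm_clm_rot {e : ℂ} (he : ‖e‖ = 1) (L M : ℂ →L[ℝ] ℝ) (h : ∀ v, M v = L (e * v)) :
    ‖M‖ = ‖L‖ := by
  apply le_antisymm
  · apply M.opNorm_le_bound (norm_nonneg _)
    intro v
    rw [h]
    calc ‖L (e * v)‖ ≤ ‖L‖ * ‖e * v‖ := L.le_opNorm _
      _ = ‖L‖ * ‖v‖ := by rw [norm_mul, he, one_mul]
  · apply L.opNorm_le_bound (norm_nonneg _)
    intro v
    have hc : e ≠ 0 := by rintro rfl; simp at he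
    have : L v = M (e⁻¹ * v) := by rw [h, ← mul_assoc, mul_inv_cancel₀ hc, one_mul]
    rw [this]
    calc ‖M (e⁻¹ * v)‖ ≤ ‖M‖ * ‖e⁻¹ * v‖ := M.le_opNorm _
      _ = ‖M‖ * ‖v‖ := by rw [norm_mul, norm_inv, he, inv_one, one_mul]

/-- O2 in the plane -/
theorem lint_attP {e : ℂ} (he : ‖e‖ = 1) {f u : ℂ → ℝ} (hN : Nice f) (hfu : ∀ x, f x ≤ u x)
    (hf0 : ∀ x, 0 ≤ f x) {K : ℝ≥0} (hf : LipschitzWith K f) (hu : LipschitzWith K u) :
    ∫⁻ z in {z | AttP e f u z}, ENNReal.ofReal (fderiv ℝ u z e) ≤ ∫⁻ z, ‖fderiv ℝ f z‖ₑ := by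
  have hc : e ≠ 0 := by rintro rfl; simp at he
  have hm := measurableSet_attP e hf.continuous hu.continuous
  have hlip : LipschitzWith 1 (fun z : ℂ => 0 + e * z) := by
    refine LipschitzWith.of_dist_le_mul fun a b => ?_
    rw [dist_add_left, dist_eq_norm, ← mul_sub, norm_mul, he, dist_eq_norm]
    simp
  have hf' : LipschitzWith K (fun z : ℂ => f (0 + e * z)) := by
    simpa [Function.comp_def] using hf.comp hlip
  have hu' : LipschitzWith K (fun z : ℂ => u (0 + e * z)) := by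
    simpa [Function.comp_def] using hu.comp hlip
  have key := lint_attP_one (f := fun z => f (0 + e * z)) (u := fun z => u (0 + e * z))
    (nice_aff hN 0 hc) (fun x => hfu _) (fun x => hf0 _) hf' hu'
  rw [← lintegral_indicator hm]
  have hm1 := measurableSet_attP 1 hf'.continuous hu'.continuous
  rw [← lintegral_indicator hm1] at key
  rw [← lint_rot he (indicator _ _), ← lint_rot he (fun z => ‖fderiv ℝ f z‖ₑ)]
  refine le_trans (le_of_eq ?_) (key.trans (le_of_eq ?_))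
  · congr 1
    ext z
    have hiff : AttP e f u (e * z) ↔ AttP 1 (fun z => f (0 + e * z)) (fun z => u (0 + e * z)) z := by
      unfold AttP
      have e1 : ∀ t : ℝ, e * z + (t : ℂ) * e = 0 + e * (z + (t : ℂ) * 1) := by intro t; ring
      simp only [e1, zero_add]
    simp only [indicator, mem_ofPred_eq]
    rw [fderiv_aff u 0 hc, zero_add, mul_one]
    by_cases hA : AttP e f u (e * z)
    · rw [if_pos hA, if_pos (hiff.mp hA)]
    · rw [if_neg hA, if_neg (fun h => hA (hiff.mpr h))]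
  · congr 1
    ext z
    rw [← ofReal_norm, ← ofReal_norm]
    congr 1
    apply norm_clm_rot he
    intro v
    rw [fderiv_aff f 0 hc, zero_add]

end Crest.Agent.R112
end

-- ▼ part R112/Detached
section

/-!
# Row 112 (S0147): one-dimensional lemma (O3), locally detached points
-/

open MeasureTheory Set Filter Topology
open scoped ENNReal NNReal

namespace Crest.Agent.R112

/-- if `w b ≤ w a` then the positive variation is at most the negative one -/
lemma lintegral_deriv_pos_le_neg {w : ℝ → ℝ} {K : ℝ≥0} (hw : LipschitzWith K w) {a b : ℝ}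
    (hab : a ≤ b) (h : w b ≤ w a) :
    ∫⁻ x in Icc a b, ENNReal.ofReal (deriv w x) ≤ ∫⁻ x in Icc a b, ENNReal.ofReal (-(deriv w x)) := by
  have hac : AbsolutelyContinuousOnInterval w a b :=
    hw.lipschitzOnWith.absolutelyContinuousOnInterval
  have hint := hac.intervalIntegrable_deriv
  have heq := hac.integral_deriv_eq_sub
  rw [intervalIntegral.integral_of_le hab] at heq
  have hint' : Integrable (deriv w) (volume.restrict (Ioc a b)) := by
    rw [intervalIntegrable_iff_integrableOn_Ioc_of_le hab] at hint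
    exact hint
  rw [integral_eq_lintegral_pos_part_sub_lintegral_neg_part hint'] at heq
  rw [← Measure.restrict_congr_set (Ioc_ae_eq_Icc (μ := volume) (a := a) (b := b))]
  have h1 : ∫⁻ x in Ioc a b, ENNReal.ofReal (deriv w x) ≠ ∞ := by
    exact hint'.lintegral_lt_top.ne
  have h2 : ∫⁻ x in Ioc a b, ENNReal.ofReal (-(deriv w x)) ≠ ∞ := by
    exact hint'.neg.lintegral_lt_top.ne
  rw [← ENNReal.toReal_le_toReal h1 h2]
  linarith

/-- running minimum of `U` over `[x,s]`, `x ≤ s`. -/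
noncomputable def rmin (U : ℝ → ℝ) (s x : ℝ) : ℝ :=
  sInf ((fun θ => U (x + θ * (s - x))) '' Icc 0 1)

lemma rmin_bdd {U : ℝ → ℝ} (hU : Continuous U) (s x : ℝ) :
    BddBelow ((fun θ => U (x + θ * (s - x))) '' Icc (0 : ℝ) 1) := by
  refine (isCompact_Icc.image ?_).bddBelow
  fun_prop

lemma rmin_le {U : ℝ → ℝ} (hU : Continuous U) {s x y : ℝ} (h1 : x ≤ y) (h2 : y ≤ s) :
    rmin U s x ≤ U y := by
  rcases eq_or_lt_of_le (h1.trans h2) with h | h
  · have hy : y = x := le_antisymm (by rw [h]; exact h2) h1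
    refine csInf_le (rmin_bdd hU s x) ⟨0, ⟨le_rfl, zero_le_one⟩, ?_⟩
    simp [hy]
  · refine csInf_le (rmin_bdd hU s x) ⟨(y - x) / (s - x), ⟨?_, ?_⟩, ?_⟩
    · exact div_nonneg (by linarith) (by linarith)
    · rw [div_le_one (by linarith)]; linarith
    · have h3 : (y - x) / (s - x) * (s - x) = y - x := by
        rw [div_mul_cancel₀]; exact (sub_pos.2 h).ne'
      simp only [h3]
      congr 1; ring

lemma exists_rmin {U : ℝ → ℝ} (hU : Continuous U) {s x : ℝ} (h : x ≤ s) :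
    ∃ y, x ≤ y ∧ y ≤ s ∧ rmin U s x = U y := by
  have hc : ContinuousOn (fun θ => U (x + θ * (s - x))) (Icc (0 : ℝ) 1) := by
    apply Continuous.continuousOn; fun_prop
  obtain ⟨θ, hθ, h1⟩ := isCompact_Icc.exists_sInf_image_eq (nonempty_Icc.2 zero_le_one) hc
  refine ⟨x + θ * (s - x), ?_, ?_, h1⟩
  · have := mul_nonneg hθ.1 (sub_nonneg.2 h); linarith
  · have := mul_le_mul_of_nonneg_right hθ.2 (sub_nonneg.2 h); linarith

lemma rmin_lipschitz {U : ℝ → ℝ} {K : ℝ≥0} (hU : LipschitzWith K U) (s : ℝ) :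
    LipschitzWith K (rmin U s) := by
  have hc := hU.continuous
  have key : ∀ x y, rmin U s x ≤ rmin U s y + K * |x - y| := by
    intro x y
    have hne : ((fun θ => U (y + θ * (s - y))) '' Icc (0 : ℝ) 1).Nonempty :=
      (nonempty_Icc.2 zero_le_one).image _
    rw [← sub_le_iff_le_add]
    refine le_csInf hne ?_
    rintro _ ⟨θ, hθ, rfl⟩
    have h1 : rmin U s x ≤ U (x + θ * (s - x)) := csInf_le (rmin_bdd hc s x) ⟨θ, hθ, rfl⟩
    have h2 := hU.dist_le_mul (x + θ * (s - x)) (y + θ * (s - y))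
    rw [Real.dist_eq, Real.dist_eq] at h2
    have h3 : x + θ * (s - x) - (y + θ * (s - y)) = (1 - θ) * (x - y) := by ring
    rw [h3, abs_mul] at h2
    have h4 : |1 - θ| ≤ 1 := by
      rw [abs_le]; constructor <;> linarith [hθ.1, hθ.2]
    have h5 : |1 - θ| * |x - y| ≤ 1 * |x - y| :=
      mul_le_mul_of_nonneg_right h4 (abs_nonneg _)
    have h6 := le_abs_self (U (x + θ * (s - x)) - U (y + θ * (s - y)))
    have h7 : (K : ℝ) * (|1 - θ| * |x - y|) ≤ K * |x - y| := by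
      apply mul_le_mul_of_nonneg_left _ K.2
      linarith
    simp only
    linarith
  refine LipschitzWith.of_dist_le_mul (fun x y => ?_)
  rw [Real.dist_eq, Real.dist_eq, abs_le]
  constructor
  · have := key y x
    rw [abs_sub_comm] at this
    linarith
  · have := key x y
    linarith

lemma rmin_mono {U : ℝ → ℝ} (hU : Continuous U) {s x y : ℝ} (hxy : x ≤ y) (hy : y ≤ s) :
    rmin U s x ≤ rmin U s y := by
  obtain ⟨z, h1, h2, h3⟩ := exists_rmin hU hy
  rw [h3]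
  exact rmin_le hU (hxy.trans h1) h2

lemma rmin_deriv_eq_zero {U : ℝ → ℝ} (hU : Continuous U) {s x : ℝ} (hx : x < s)
    (h : rmin U s x < U x) : HasDerivAt (rmin U s) 0 x := by
  obtain ⟨y, h1, h2, h3⟩ := exists_rmin hU hx.le
  have hxy : x < y := by
    rcases eq_or_lt_of_le h1 with h4 | h4
    · rw [← h4] at h3; linarith
    · exact h4
  have hev : ∀ᶠ z in 𝓝 x, rmin U s z = rmin U s x := by
    have hopen : ∀ᶠ z in 𝓝 x, rmin U s x < U z := hU.continuousAt.eventually (lt_mem_nhds h)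
    rw [Metric.eventually_nhds_iff] at hopen
    obtain ⟨ε, hε, h5⟩ := hopen
    have h6 : ∀ᶠ z in 𝓝 x, z < y := gt_mem_nhds hxy
    filter_upwards [h6, Metric.ball_mem_nhds x hε] with z hz1 hz2
    apply le_antisymm
    · rw [h3]; exact rmin_le hU hz1.le h2
    · rcases le_total x z with h7 | h7
      · exact rmin_mono hU h7 (hz1.le.trans h2)
      · obtain ⟨v, hv1, hv2, hv3⟩ := exists_rmin hU (hz1.le.trans h2)
        rw [hv3]
        rcases le_total x v with h8 | h8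
        · exact rmin_le hU h8 hv2
        · refine (h5 ?_).le
          rw [Metric.mem_ball, Real.dist_eq, abs_lt] at hz2
          rw [Real.dist_eq, abs_lt]
          constructor <;> linarith [hz2.1, hz2.2]
  exact (hasDerivAt_const x (rmin U s x)).congr_of_eventuallyEq hev

/-- **(O3)** locally detached points. -/
theorem locally_detached {U f : ℝ → ℝ} {K : ℝ≥0} (hU : LipschitzWith K U) {a b s c T : ℝ}
    (hab : a ≤ b) (hbs : b ≤ s) (hsc : s ≤ c) (hT : s - a ≤ T) :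
    ∫⁻ x in {x | x ∈ Icc a b ∧ ¬ ∃ σ ∈ Icc 0 T, U x ≤ f (x + σ) ∧
        ∀ t ∈ Icc 0 σ, U x ≤ U (x + t)}, ENNReal.ofReal (deriv U x)
      ≤ (∫⁻ x in Icc a c, ENNReal.ofReal (-(deriv U x))) + ENNReal.ofReal (U b - f s) := by
  have hUc := hU.continuous
  set m := rmin U s with hm
  have hmL : LipschitzWith K m := rmin_lipschitz hU s
  have hmc := hmL.continuous
  set w : ℝ → ℝ := fun x => U x - m x with hw
  have hwL : LipschitzWith (K + K) w := hU.sub hmL
  have hwnn : ∀ x ≤ s, 0 ≤ w x := fun x hx => by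
    have := rmin_le hUc (le_refl x) hx
    simp only [hw, hm]; linarith
  have hws : w s = 0 := by
    obtain ⟨y, h1, h2, h3⟩ := exists_rmin hUc (le_refl s)
    have : y = s := le_antisymm h2 h1
    simp only [hw, hm, h3, this, sub_self]
  -- a.e. differentiability
  have hUd := hU.ae_differentiableAt_real
  have hmd := hmL.ae_differentiableAt_real
  have hns : ∀ᵐ x : ℝ, x ≠ s := by
    rw [ae_iff]; simp
  -- the pieces
  set E : Set ℝ := Icc a b ∩ {x | DifferentiableAt ℝ m x} ∩ {x | f s < m x} with hE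
  have hEm : MeasurableSet E := by
    refine (measurableSet_Icc.inter (measurableSet_of_differentiableAt ℝ m)).inter ?_
    exact measurableSet_lt measurable_const hmc.measurable
  set N' : Set ℝ := Icc a b ∩ ({x | m x < U x} ∪ {x | f s < m x}) with hN'
  have hN'm : MeasurableSet N' :=
    measurableSet_Icc.inter ((measurableSet_lt hmc.measurable hUc.measurable).union
      (measurableSet_lt measurable_const hmc.measurable))
  have hsub : {x | x ∈ Icc a b ∧ ¬ ∃ σ ∈ Icc 0 T, U x ≤ f (x + σ) ∧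
        ∀ t ∈ Icc 0 σ, U x ≤ U (x + t)} ⊆ N' := by
    rintro x ⟨hxab, hxN⟩
    refine ⟨hxab, ?_⟩
    have hxs : x ≤ s := hxab.2.trans hbs
    rcases eq_or_lt_of_le (rmin_le hUc (le_refl x) hxs) with h4 | h4
    · right
      by_contra hcon
      apply hxN
      refine ⟨s - x, ⟨by linarith, by linarith [hxab.1]⟩, ?_, ?_⟩
      · have h5 : x + (s - x) = s := by ring
        rw [h5, ← h4]
        exact not_lt.1 hcon
      · intro t ht
        rw [← h4]
        exact rmin_le hUc (by linarith [ht.1]) (by linarith [ht.2])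
    · left
      exact h4
  have hpt : ∀ᵐ x : ℝ, N'.indicator (fun x => ENNReal.ofReal (deriv U x)) x ≤
        (Icc a s).indicator (fun x => ENNReal.ofReal (deriv w x)) x +
        E.indicator (fun x => ENNReal.ofReal (deriv m x)) x := by
    filter_upwards [hUd, hmd, hns] with x h1 h2 h3
    by_cases hx : x ∈ N'
    swap
    · rw [indicator_of_notMem hx]; exact zero_le
    rw [indicator_of_mem hx]
    obtain ⟨hxab, hxN⟩ := hx
    have hxs : x ≤ s := hxab.2.trans hbs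
    have hxs' : x < s := lt_of_le_of_ne hxs h3
    rw [indicator_of_mem (show x ∈ Icc a s from ⟨hxab.1, hxs⟩)]
    have hdw : deriv w x = deriv U x - deriv m x := by
      simp only [hw]; exact deriv_fun_sub h1 h2
    rcases hxN with h4 | h4
    · have h5 : deriv m x = 0 := (rmin_deriv_eq_zero hUc hxs' h4).deriv
      rw [hdw, h5, sub_zero]
      exact le_self_add
    · have hxE : x ∈ E := ⟨⟨hxab, h2⟩, h4⟩
      rw [indicator_of_mem hxE]
      have h6 : deriv U x = deriv w x + deriv m x := by rw [hdw]; ring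
      rw [h6]
      exact ENNReal.ofReal_add_le
  have hwm : Measurable (fun x => ENNReal.ofReal (deriv w x)) :=
    (measurable_deriv w).ennreal_ofReal
  -- first piece
  have hfirst : ∫⁻ x in Icc a s, ENNReal.ofReal (deriv w x) ≤
      ∫⁻ x in Icc a c, ENNReal.ofReal (-(deriv U x)) := by
    have has : a ≤ s := hab.trans hbs
    refine (lintegral_deriv_pos_le_neg hwL has (by rw [hws]; exact hwnn a has)).trans ?_
    refine le_trans ?_ (lintegral_mono_set (Icc_subset_Icc_right hsc))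
    refine setLIntegral_mono_ae' measurableSet_Icc ?_
    filter_upwards [hUd, hmd, hns] with x h1 h2 h3 hx
    have hxs' : x < s := lt_of_le_of_ne hx.2 h3
    have hdw : deriv w x = deriv U x - deriv m x := by
      simp only [hw]; exact deriv_fun_sub h1 h2
    rcases eq_or_lt_of_le (rmin_le hUc (le_refl x) hx.2) with h4 | h4
    · -- local minimum of w
      have h5 : deriv w x = 0 := by
        apply IsLocalMin.deriv_eq_zero
        have h6 : ∀ᶠ z in 𝓝 x, z < s := gt_mem_nhds hxs'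
        filter_upwards [h6] with z hz
        have h7 : w x = 0 := by simp only [hw, hm, h4, sub_self]
        rw [h7]
        exact hwnn z hz.le
      rw [h5, neg_zero, ENNReal.ofReal_zero]
      exact zero_le
    · have h5 : deriv m x = 0 := (rmin_deriv_eq_zero hUc hxs' h4).deriv
      rw [hdw, h5, sub_zero]
  have hsecond : ∫⁻ x in E, ENNReal.ofReal (deriv m x) ≤ ENNReal.ofReal (U b - f s) := by
    refine lintegral_deriv_le hEm (fun x hx => hx.1.2) ?_ (fun x hx => ?_) (fun x hx => ?_)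
    · intro x hx y hy hxy
      exact rmin_mono hUc hxy (hy.1.1.2.trans hbs)
    · exact (show f s < m x from hx.2).le
    · exact rmin_le hUc hx.1.1.2 hbs
  refine (lintegral_mono_set hsub).trans ?_
  rw [← lintegral_indicator hN'm]
  calc _ ≤ ∫⁻ x, ((Icc a s).indicator (fun x => ENNReal.ofReal (deriv w x)) x +
        E.indicator (fun x => ENNReal.ofReal (deriv m x)) x) := lintegral_mono_ae hpt
    _ = (∫⁻ x in Icc a s, ENNReal.ofReal (deriv w x)) +
        ∫⁻ x in E, ENNReal.ofReal (deriv m x) := by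
        rw [lintegral_add_left (hwm.indicator measurableSet_Icc),
          lintegral_indicator measurableSet_Icc, lintegral_indicator hEm]
    _ ≤ _ := add_le_add hfirst hsecond

end Crest.Agent.R112
end

-- ▼ part R112/Local
section

/-!
Row 112 (S0147), module Local: locally detached points in the plane (unit scale, direction `1`).
-/

set_option autoImplicit false

namespace Crest.Agent.R112

open MeasureTheory Set Filter Topology
open scoped NNReal ENNReal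

/-- one horizontal line -/
theorem local_line {f : ℂ → ℝ} (hf : Nice f) (τ y : ℝ) {S : Set ℝ}
    (hS1 : S ⊆ Icc (-1) 1)
    (hS2 : ∀ x ∈ S, ¬ AttR 14 1 f (U f τ) ⟨x, y⟩) :
    (∫⁻ s in S, ENNReal.ofReal (deriv (fun s : ℝ => U f τ (⟨s, y⟩ : ℂ)) s)) +
      ∫⁻ s in Icc (-1 : ℝ) 1, ENNReal.ofReal (-(deriv (fun s : ℝ => U f τ (⟨s, y⟩ : ℂ)) s)) ≤
    2 * (∫⁻ s in Icc (-1 : ℝ) 15,
      ENNReal.ofReal (-(deriv (fun s : ℝ => U f τ (⟨s, y⟩ : ℂ)) s))) +
    ∫⁻ s in Icc (11 : ℝ) 12, ENNReal.ofReal (U f τ (⟨1, y⟩ : ℂ) - f (⟨s, y⟩ : ℂ)) := by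
  obtain ⟨K, hK⟩ := hf.lipschitz
  have hU : LipschitzWith K (fun s : ℝ => U f τ (⟨s, y⟩ : ℂ)) := by
    simpa [Function.comp_def] using (lipschitz_U hf hK τ).comp (line_lipschitz y)
  set P := ∫⁻ s in Icc (-1 : ℝ) 15,
      ENNReal.ofReal (-(deriv (fun s : ℝ => U f τ (⟨s, y⟩ : ℂ)) s)) with hP
  have h2 : ∫⁻ s in Icc (-1 : ℝ) 1,
      ENNReal.ofReal (-(deriv (fun s : ℝ => U f τ (⟨s, y⟩ : ℂ)) s)) ≤ P :=
    lintegral_mono_set (Icc_subset_Icc_right (by norm_num))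
  have h1 : ∀ s' ∈ Icc (11 : ℝ) 12,
      ∫⁻ s in S, ENNReal.ofReal (deriv (fun s : ℝ => U f τ (⟨s, y⟩ : ℂ)) s) ≤
        P + ENNReal.ofReal (U f τ (⟨1, y⟩ : ℂ) - f (⟨s', y⟩ : ℂ)) := by
    intro s' hs'
    have key := locally_detached (U := fun s : ℝ => U f τ (⟨s, y⟩ : ℂ))
      (f := fun s : ℝ => f (⟨s, y⟩ : ℂ)) hU (a := -1) (b := 1) (s := s') (c := 15) (T := 14)
      (by norm_num) (by linarith [hs'.1]) (by linarith [hs'.2]) (by linarith [hs'.2])
    refine le_trans (lintegral_mono_set ?_) key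
    intro x hx
    refine ⟨hS1 hx, ?_⟩
    rintro ⟨σ, h1, h2, h3⟩
    apply hS2 x hx
    have e1 : ∀ t : ℝ, (⟨x, y⟩ : ℂ) + (t : ℂ) * 1 = ⟨x + t, y⟩ := by
      intro t; apply Complex.ext <;> simp
    refine ⟨σ, h1, ?_, fun t ht => ?_⟩
    · rw [e1]; exact h2
    · rw [e1]; exact h3 t ht
  have h3 : ∫⁻ s in S, ENNReal.ofReal (deriv (fun s : ℝ => U f τ (⟨s, y⟩ : ℂ)) s) ≤
      P + ∫⁻ s in Icc (11 : ℝ) 12, ENNReal.ofReal (U f τ (⟨1, y⟩ : ℂ) - f (⟨s, y⟩ : ℂ)) := by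
    have hv : volume (Icc (11 : ℝ) 12) = 1 := by
      rw [Real.volume_Icc]; norm_num
    set X := ∫⁻ s in S, ENNReal.ofReal (deriv (fun s : ℝ => U f τ (⟨s, y⟩ : ℂ)) s) with hX
    calc X = ∫⁻ _s in Icc (11 : ℝ) 12, X := by
          rw [setLIntegral_const, hv, mul_one]
      _ ≤ ∫⁻ s in Icc (11 : ℝ) 12,
          (P + ENNReal.ofReal (U f τ (⟨1, y⟩ : ℂ) - f (⟨s, y⟩ : ℂ))) :=
          setLIntegral_mono' measurableSet_Icc h1
      _ = _ := by
          rw [lintegral_add_left measurable_const, setLIntegral_const, hv, mul_one]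
  calc _ ≤ (P + ∫⁻ s in Icc (11 : ℝ) 12,
        ENNReal.ofReal (U f τ (⟨1, y⟩ : ℂ) - f (⟨s, y⟩ : ℂ))) + P := add_le_add h3 h2
    _ = _ := by rw [two_mul]; ring

/-- locally detached points in the plane -/
theorem LOCAL {f : ℂ → ℝ} (hf : Nice f) (τ : ℝ) {S : Set ℂ} (hS : MeasurableSet S)
    (hS1 : S ⊆ Metric.ball 0 1) (hS2 : ∀ z ∈ S, ¬ AttR 14 1 f (U f τ) z) :
    (∫⁻ z in S, ENNReal.ofReal (fderiv ℝ (U f τ) z 1)) +
      ∫⁻ z in Metric.ball (0 : ℂ) 1, ENNReal.ofReal (-(fderiv ℝ (U f τ) z 1)) ≤ Q τ f := by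
  have hD : Measurable fun z => fderiv ℝ (U f τ) z 1 := measurable_fderiv_apply_const ℝ _ _
  have hB : MeasurableSet (Metric.ball (0 : ℂ) 1) := measurableSet_ball
  have hm1 : Measurable (S.indicator fun z => ENNReal.ofReal (fderiv ℝ (U f τ) z 1)) :=
    hD.ennreal_ofReal.indicator hS
  have hm2 : Measurable ((Metric.ball (0 : ℂ) 1).indicator
      fun z => ENNReal.ofReal (-(fderiv ℝ (U f τ) z 1))) :=
    hD.neg.ennreal_ofReal.indicator hB
  have hm3 : Measurable fun z : ℂ =>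
      S.indicator (fun z => ENNReal.ofReal (fderiv ℝ (U f τ) z 1)) z +
        (Metric.ball (0 : ℂ) 1).indicator
          (fun z => ENNReal.ofReal (-(fderiv ℝ (U f τ) z 1))) z := hm1.add hm2
  rw [← lintegral_indicator hS, ← lintegral_indicator hB, ← lintegral_add_left hm1,
    lint_slice hm3]
  unfold Q
  rw [← lintegral_indicator (μ := volume) (s := Icc (-1 : ℝ) 1) measurableSet_Icc]
  apply lintegral_mono
  intro y
  by_cases hy : y ∈ Icc (-1 : ℝ) 1
  · simp only [indicator_of_mem hy]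
    have hline : Measurable fun s : ℝ => (⟨s, y⟩ : ℂ) := (line_lipschitz y).continuous.measurable
    have hball : ∀ s : ℝ, (⟨s, y⟩ : ℂ) ∈ Metric.ball (0 : ℂ) 1 → s ∈ Icc (-1 : ℝ) 1 := by
      intro s hs
      rw [mem_ball_zero_iff] at hs
      have h3 : |s| ≤ ‖(⟨s, y⟩ : ℂ)‖ := Complex.abs_re_le_norm ⟨s, y⟩
      have := abs_le.mp (h3.trans hs.le)
      exact ⟨this.1, this.2⟩
    have key := local_line hf τ y (S := {s : ℝ | (⟨s, y⟩ : ℂ) ∈ S})
      (fun s hs => hball s (hS1 hs)) (fun s hs => hS2 _ hs)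
    refine le_trans ?_ key
    have hm4 : Measurable fun s : ℝ =>
        S.indicator (fun z => ENNReal.ofReal (fderiv ℝ (U f τ) z 1)) ⟨s, y⟩ := hm1.comp hline
    rw [lintegral_add_left hm4]
    apply add_le_add
    · have hSy : MeasurableSet {s : ℝ | (⟨s, y⟩ : ℂ) ∈ S} := hline hS
      rw [← lintegral_indicator hSy]
      apply lintegral_mono
      intro s
      by_cases hs : (⟨s, y⟩ : ℂ) ∈ S
      · simp only [indicator_of_mem hs]
        rw [indicator_of_mem (show s ∈ {s : ℝ | (⟨s, y⟩ : ℂ) ∈ S} from hs)]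
        exact ofReal_fderiv_one_le _ s y
      · simp only [indicator_of_notMem hs]
        exact bot_le
    · rw [← lintegral_indicator measurableSet_Icc]
      apply lintegral_mono
      intro s
      by_cases hs : (⟨s, y⟩ : ℂ) ∈ Metric.ball (0 : ℂ) 1
      · simp only [indicator_of_mem hs]
        rw [indicator_of_mem (hball s hs)]
        exact ofReal_neg_fderiv_one_le _ s y
      · simp only [indicator_of_notMem hs]
        exact bot_le
  · rw [indicator_of_notMem hy]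
    have hz : ∀ s : ℝ, (⟨s, y⟩ : ℂ) ∉ Metric.ball (0 : ℂ) 1 := by
      intro s hs
      apply hy
      rw [mem_ball_zero_iff] at hs
      have h3 : |y| ≤ ‖(⟨s, y⟩ : ℂ)‖ := Complex.abs_im_le_norm ⟨s, y⟩
      have := abs_le.mp (h3.trans hs.le)
      exact ⟨this.1, this.2⟩
    have : ∀ s : ℝ, (S.indicator (fun z => ENNReal.ofReal (fderiv ℝ (U f τ) z 1)) ⟨s, y⟩ +
        (Metric.ball (0 : ℂ) 1).indicator
          (fun z => ENNReal.ofReal (-(fderiv ℝ (U f τ) z 1))) ⟨s, y⟩) = 0 := by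
      intro s
      rw [indicator_of_notMem (fun h => hz s (hS1 h)), indicator_of_notMem (hz s), add_zero]
    simp only [this, lintegral_zero, le_refl]

end Crest.Agent.R112
end

-- ▼ part R112/Resc

/-!
Row 112 (S0147), module Resc: rescaling of LOCAL and of the chain, joint measurability of `Q`.
-/

set_option autoImplicit false

namespace Crest.Agent.R112

open MeasureTheory Set Filter Topology
open scoped NNReal ENNReal

/-- `b_e(L) = max(0, 0.9 |L| - L e)` -/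
noncomputable def be (e : ℂ) (L : ℂ →L[ℝ] ℝ) : ℝ := max 0 (9 / 10 * ‖L‖ - L e)

section
variable {f : ℂ → ℝ} {e x₀ : ℂ} {t : ℝ}

theorem ne_zero_of_norm_one (he : ‖e‖ = 1) : e ≠ 0 := by rintro rfl; simp at he

theorem te_ne (he : ‖e‖ = 1) (ht : 0 < t) : (t * e : ℂ) ≠ 0 :=
  mul_ne_zero (Complex.ofReal_ne_zero.mpr ht.ne') (ne_zero_of_norm_one he)

theorem norm_te (he : ‖e‖ = 1) (ht : 0 < t) : ‖(t * e : ℂ)‖ = t := by
  rw [norm_mul, he, mul_one, Complex.norm_real, Real.norm_eq_abs, abs_of_pos ht]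

theorem clm_te (L : ℂ →L[ℝ] ℝ) : L ((t : ℂ) * e) = t * L e := by
  rw [← smul_eq_mul, Complex.coe_smul, map_smul, smul_eq_mul]

/-- derivative of a rescaled function -/
theorem fderiv_te (h : ℂ → ℝ) (he : ‖e‖ = 1) (ht : 0 < t) (z : ℂ) :
    fderiv ℝ (fun z => h (x₀ + t * e * z)) z 1 = t * fderiv ℝ h (x₀ + t * e * z) e := by
  rw [fderiv_aff h x₀ (te_ne he ht), mul_one, clm_te]

theorem norm_fderiv_te (h : ℂ → ℝ) (he : ‖e‖ = 1) (ht : 0 < t) (z : ℂ) :
    ‖fderiv ℝ (fun z => h (x₀ + t * e * z)) z‖ = t * ‖fderiv ℝ h (x₀ + t * e * z)‖ := by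
  have h1 : ‖fderiv ℝ (fun z => h (x₀ + t * e * z)) z‖ =
      ‖t • fderiv ℝ h (x₀ + t * e * z)‖ := by
    apply norm_clm_rot he
    intro v
    rw [fderiv_aff h x₀ (te_ne he ht)]
    show _ = t • fderiv ℝ h (x₀ + t * e * z) (e * v)
    have h2 : (t : ℂ) * e * v = t * (e * v) := mul_assoc _ _ _
    rw [h2, clm_te, smul_eq_mul]
  rw [h1, norm_smul, Real.norm_eq_abs, abs_of_pos ht]

theorem bb_te (h : ℂ → ℝ) (he : ‖e‖ = 1) (ht : 0 < t) (z : ℂ) :
    bb (fderiv ℝ (fun z => h (x₀ + t * e * z)) z) = t * be e (fderiv ℝ h (x₀ + t * e * z)) := by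
  unfold bb be
  rw [fderiv_te h he ht, norm_fderiv_te h he ht, mul_max_of_nonneg _ _ ht.le, mul_zero]
  congr 1
  ring

theorem mem_ball_te (he : ‖e‖ = 1) (ht : 0 < t) (z : ℂ) (r : ℝ) :
    x₀ + t * e * z ∈ Metric.ball x₀ (t * r) ↔ z ∈ Metric.ball (0 : ℂ) r := by
  rw [Metric.mem_ball, Metric.mem_ball, dist_eq_norm, add_sub_cancel_left, norm_mul,
    norm_te he ht, dist_zero_right]
  exact mul_lt_mul_iff_right₀ ht

/-- change of variables on balls -/
theorem lint_ball_te (he : ‖e‖ = 1) (ht : 0 < t) (r : ℝ) (F : ℂ → ℝ≥0∞) :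
    ∫⁻ x in Metric.ball x₀ (t * r), F x =
      ENNReal.ofReal (t ^ 2) * ∫⁻ z in Metric.ball (0 : ℂ) r, F (x₀ + t * e * z) := by
  rw [← lintegral_indicator measurableSet_ball, ← lintegral_indicator measurableSet_ball,
    ← lint_aff x₀ (te_ne he ht), norm_te he ht]
  congr 2
  ext z
  by_cases hz : z ∈ Metric.ball (0 : ℂ) r
  · rw [indicator_of_mem hz, indicator_of_mem ((mem_ball_te he ht z r).mpr hz)]
  · rw [indicator_of_notMem hz, indicator_of_notMem (fun h => hz ((mem_ball_te he ht z r).mp h))]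

/-- LOCAL, rescaled and rotated -/
theorem LOCAL_te (hf : Nice f) (he : ‖e‖ = 1) (ht : 0 < t) (τ : ℝ) {N : Set ℂ}
    (hN : MeasurableSet N) (hN' : ∀ x ∈ N, ¬ AttR (14 * t) e f (U f (t * τ)) x) :
    ∫⁻ x in Metric.ball x₀ t,
      (N.indicator (fun x => ENNReal.ofReal (fderiv ℝ (U f (t * τ)) x e)) x +
        ENNReal.ofReal (-(fderiv ℝ (U f (t * τ)) x e))) ≤
      ENNReal.ofReal t * Q τ (fun z => f (x₀ + t * e * z)) := by
  set V := U f (t * τ) with hV
  set g : ℂ → ℝ := fun z => f (x₀ + t * e * z) with hg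
  have hgN : Nice g := nice_aff hf x₀ (te_ne he ht)
  have hUg : U g τ = fun z => V (x₀ + t * e * z) := by
    ext z; exact U_comp he τ z
  have hmeas : Measurable fun z : ℂ => x₀ + t * e * z := by fun_prop
  set S : Set ℂ := {z | z ∈ Metric.ball (0 : ℂ) 1 ∧ x₀ + t * e * z ∈ N} with hS
  have hSm : MeasurableSet S := measurableSet_ball.inter (hmeas hN)
  have key := LOCAL hgN τ hSm (fun z hz => hz.1) (by
    rintro z ⟨_, hz⟩ ⟨σ, h1, h2, h3⟩
    apply hN' _ hz
    have e1 : ∀ s : ℝ, x₀ + t * e * (z + (s : ℂ) * 1) = x₀ + t * e * z + ((t * s : ℝ) : ℂ) * e := by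
      intro s; push_cast; ring
    refine ⟨t * σ, ⟨mul_nonneg ht.le h1.1, by
      have := mul_le_mul_of_nonneg_left h1.2 ht.le; linarith⟩, ?_, ?_⟩
    · rw [hUg] at h2
      simp only [hg, e1] at h2
      exact h2
    · intro s hs
      have hs' : s / t ∈ Icc (0 : ℝ) σ := by
        refine ⟨div_nonneg hs.1 ht.le, ?_⟩
        rw [div_le_iff₀ ht, mul_comm]; exact hs.2
      have h4 := h3 _ hs'
      rw [hUg] at h4
      simp only [e1] at h4
      rwa [mul_div_cancel₀ s ht.ne'] at h4)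
  have hlhs : ∫⁻ x in Metric.ball x₀ t,
      (N.indicator (fun x => ENNReal.ofReal (fderiv ℝ V x e)) x +
        ENNReal.ofReal (-(fderiv ℝ V x e))) =
      ENNReal.ofReal t * ((∫⁻ z in S, ENNReal.ofReal (fderiv ℝ (U g τ) z 1)) +
      ∫⁻ z in Metric.ball (0 : ℂ) 1, ENNReal.ofReal (-(fderiv ℝ (U g τ) z 1))) := by
    have h1 := lint_ball_te (x₀ := x₀) he ht 1 (fun x =>
      (N.indicator (fun x => ENNReal.ofReal (fderiv ℝ V x e)) x +
        ENNReal.ofReal (-(fderiv ℝ V x e))))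
    rw [mul_one] at h1
    rw [h1, pow_two, ENNReal.ofReal_mul ht.le, mul_assoc]
    congr 1
    have hm1 : Measurable fun z => fderiv ℝ (U g τ) z 1 := measurable_fderiv_apply_const ℝ _ _
    have hm2 : Measurable (S.indicator fun z => ENNReal.ofReal (fderiv ℝ (U g τ) z 1)) :=
      hm1.ennreal_ofReal.indicator hSm
    have h2 : ∫⁻ z in S, ENNReal.ofReal (fderiv ℝ (U g τ) z 1) =
        ∫⁻ z in Metric.ball (0 : ℂ) 1, S.indicator
          (fun z => ENNReal.ofReal (fderiv ℝ (U g τ) z 1)) z := by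
      rw [← lintegral_indicator hSm, ← lintegral_indicator measurableSet_ball]
      congr 1
      ext z
      by_cases hz : z ∈ Metric.ball (0 : ℂ) 1
      · rw [indicator_of_mem hz]
      · rw [indicator_of_notMem hz, indicator_of_notMem (fun h => hz h.1)]
    rw [h2, ← lintegral_add_left hm2, ← lintegral_const_mul' _ _ ENNReal.ofReal_ne_top]
    apply setLIntegral_congr_fun measurableSet_ball
    intro z hz
    show _ * (_ + _) = _ + _
    rw [mul_add, hUg]
    congr 1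
    · by_cases hz' : x₀ + t * e * z ∈ N
      · rw [indicator_of_mem hz', indicator_of_mem (show z ∈ S from ⟨hz, hz'⟩),
          fderiv_te V he ht, ENNReal.ofReal_mul ht.le]
      · rw [indicator_of_notMem hz', indicator_of_notMem (fun h => hz' h.2), mul_zero]
    · rw [fderiv_te V he ht, ← mul_neg, ENNReal.ofReal_mul ht.le]
  rw [hlhs]
  gcongr

/-- the chain of a rescaled function -/
theorem chain_te {F : ℕ → ℂ → ℝ} (h0 : F 0 = f)
    (hs : ∀ j, F (j + 1) = A (F j) ((4 : ℝ) ^ ((j : ℤ) - 6))) (he : ‖e‖ = 1) (k j : ℕ) :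
    chain (fun z => f (x₀ + ((4 : ℝ) ^ k : ℝ) * e * z)) (k + 1) j =
      fun z => F j (x₀ + ((4 : ℝ) ^ k : ℝ) * e * z) := by
  induction j with
  | zero => rw [h0]; rfl
  | succ j ih =>
    show A (chain (fun z => f (x₀ + ((4 : ℝ) ^ k : ℝ) * e * z)) (k + 1) j) _ = _
    rw [ih, hs]
    ext z
    rw [A_comp he]
    congr 1
    rw [← zpow_natCast, ← zpow_add₀ (by norm_num : (4 : ℝ) ≠ 0)]
    congr 1
    push_cast
    ring

theorem bb_chain_te {F : ℕ → ℂ → ℝ} (h0 : F 0 = f)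
    (hs : ∀ j, F (j + 1) = A (F j) ((4 : ℝ) ^ ((j : ℤ) - 6))) (he : ‖e‖ = 1) (k j : ℕ) :
    ENNReal.ofReal ((4 : ℝ) ^ k) * ∫⁻ z in Metric.ball (0 : ℂ) 40, ENNReal.ofReal (bb (fderiv ℝ
      (chain (fun z => f (x₀ + ((4 : ℝ) ^ k : ℝ) * e * z)) (k + 1) j) z)) =
    ∫⁻ x in Metric.ball x₀ ((4 : ℝ) ^ k * 40), ENNReal.ofReal (be e (fderiv ℝ (F j) x)) := by
  have ht : (0 : ℝ) < 4 ^ k := by positivity
  rw [chain_te h0 hs he, lint_ball_te he ht, pow_two, ENNReal.ofReal_mul ht.le, mul_assoc]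
  congr 1
  rw [← lintegral_const_mul' _ _ ENNReal.ofReal_ne_top]
  congr 1
  ext z
  rw [bb_te _ he ht, ENNReal.ofReal_mul ht.le]

end

/-- joint measurability of `Q` -/
theorem measurable_Q {f : ℂ → ℝ} (hf : Nice f) {e : ℂ} (he : ‖e‖ = 1) {t : ℝ} :
    Measurable (fun p : ℝ × ℂ => Q p.1 (fun z => f (p.2 + t * e * z))) := by
  have hU := continuous_U hf
  have hfc := hf.continuous
  have hmk : Continuous fun p : ℝ × ℝ => (⟨p.1, p.2⟩ : ℂ) := by
    have : (fun p : ℝ × ℝ => (⟨p.1, p.2⟩ : ℂ)) = fun p => (p.1 : ℂ) + p.2 * Complex.I := by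
      ext p; apply Complex.ext <;> simp
    rw [this]; fun_prop
  have h1 : Continuous (Function.uncurry fun (q : (ℝ × ℂ) × ℝ) (s : ℝ) =>
      U f (t * q.1.1) (q.1.2 + t * e * (⟨s, q.2⟩ : ℂ))) := by
    show Continuous fun p : ((ℝ × ℂ) × ℝ) × ℝ =>
      U f (t * p.1.1.1) (p.1.1.2 + t * e * (⟨p.2, p.1.2⟩ : ℂ))
    have h2 : Continuous fun p : ((ℝ × ℂ) × ℝ) × ℝ =>
        ((t * p.1.1.1, p.1.1.2 + t * e * (⟨p.2, p.1.2⟩ : ℂ)) : ℝ × ℂ) := by
      have h3 : Continuous fun p : ((ℝ × ℂ) × ℝ) × ℝ => (⟨p.2, p.1.2⟩ : ℂ) :=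
        hmk.comp (by fun_prop : Continuous fun p : ((ℝ × ℂ) × ℝ) × ℝ => (p.2, p.1.2))
      fun_prop
    exact hU.comp h2
  have hd : Measurable fun p : ((ℝ × ℂ) × ℝ) × ℝ => deriv (fun s : ℝ =>
      U f (t * p.1.1.1) (p.1.1.2 + t * e * (⟨s, p.1.2⟩ : ℂ))) p.2 :=
    measurable_deriv_with_param h1
  have hd2 : Measurable fun p : ((ℝ × ℂ) × ℝ) × ℝ => ENNReal.ofReal
      (U f (t * p.1.1.1) (p.1.1.2 + t * e * (⟨1, p.1.2⟩ : ℂ)) -
        f (p.1.1.2 + t * e * (⟨p.2, p.1.2⟩ : ℂ))) := by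
    apply Measurable.ennreal_ofReal
    apply Continuous.measurable
    apply Continuous.sub
    · have h3 : Continuous fun p : ((ℝ × ℂ) × ℝ) × ℝ => (⟨1, p.1.2⟩ : ℂ) :=
        hmk.comp (by fun_prop : Continuous fun p : ((ℝ × ℂ) × ℝ) × ℝ => ((1 : ℝ), p.1.2))
      have h2 : Continuous fun p : ((ℝ × ℂ) × ℝ) × ℝ =>
        ((t * p.1.1.1, p.1.1.2 + t * e * (⟨1, p.1.2⟩ : ℂ)) : ℝ × ℂ) := by fun_prop
      exact hU.comp h2
    · have h3 : Continuous fun p : ((ℝ × ℂ) × ℝ) × ℝ => (⟨p.2, p.1.2⟩ : ℂ) :=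
        hmk.comp (by fun_prop : Continuous fun p : ((ℝ × ℂ) × ℝ) × ℝ => (p.2, p.1.2))
      fun_prop
  have hQ : (fun p : ℝ × ℂ => Q p.1 (fun z => f (p.2 + t * e * z))) = fun p : ℝ × ℂ =>
      ∫⁻ y in Icc (-1 : ℝ) 1, (2 * (∫⁻ s in Icc (-1 : ℝ) 15, ENNReal.ofReal (-(deriv (fun s : ℝ =>
      U f (t * p.1) (p.2 + t * e * (⟨s, y⟩ : ℂ))) s))) + ∫⁻ s in Icc (11 : ℝ) 12, ENNReal.ofReal
      (U f (t * p.1) (p.2 + t * e * (⟨1, y⟩ : ℂ)) - f (p.2 + t * e * (⟨s, y⟩ : ℂ)))) := by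
    ext p
    unfold Q
    simp only [U_comp he]
  rw [hQ]
  refine Measurable.lintegral_prod_right' (f := fun q : (ℝ × ℂ) × ℝ =>
    (2 * (∫⁻ s in Icc (-1 : ℝ) 15, ENNReal.ofReal (-(deriv (fun s : ℝ =>
      U f (t * q.1.1) (q.1.2 + t * e * (⟨s, q.2⟩ : ℂ))) s))) + ∫⁻ s in Icc (11 : ℝ) 12,
      ENNReal.ofReal (U f (t * q.1.1) (q.1.2 + t * e * (⟨1, q.2⟩ : ℂ)) -
        f (q.1.2 + t * e * (⟨s, q.2⟩ : ℂ))))) ?_
  apply Measurable.add
  · apply Measurable.const_mul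
    exact Measurable.lintegral_prod_right' (f := fun p : ((ℝ × ℂ) × ℝ) × ℝ =>
      ENNReal.ofReal (-(deriv (fun s : ℝ =>
      U f (t * p.1.1.1) (p.1.1.2 + t * e * (⟨s, p.1.2⟩ : ℂ))) p.2))) hd.neg.ennreal_ofReal
  · exact Measurable.lintegral_prod_right' (f := fun p : ((ℝ × ℂ) × ℝ) × ℝ =>
      ENNReal.ofReal (U f (t * p.1.1.1) (p.1.1.2 + t * e * (⟨1, p.1.2⟩ : ℂ)) -
        f (p.1.1.2 + t * e * (⟨p.2, p.1.2⟩ : ℂ)))) hd2

end Crest.Agent.R112
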