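import Crest.Agent.R112.UnitPk
import Crest.Agent.R112.UnitL1
import Crest.Agent.R112.UT
import Crest.Agent.R112.Resc

-- ▼ part R112/UnitL2
section

/-! R112, section 3, L2: comparison of `U f (1,y)` and `f (s,y)`, `s ∈ [11,12]`. -/

set_option autoImplicit false

namespace Crest.Agent.R112

open MeasureTheory Metric Set Filter Topology

/-- drop along a segment -/
theorem pt_drop {g : ℂ → ℝ} (hg : Nice g) {t c : ℝ} {z ξ : ℂ} (ht : 0 ≤ t) (hc : 0 ≤ c)
    (hc' : c ≤ 9 / 10) (hξ : ‖ξ‖ ≤ 1) :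
    g z - g (z + t * (1 + c * ξ)) ≤
      ∫ u in (0 : ℝ)..1, t * bb (fderiv ℝ g (z + u * (t * (1 + c * ξ)))) := by
  set h : ℂ := t * (1 + c * ξ) with hh
  have hcf := hg.continuous_fderiv
  have hbc : Continuous fun u : ℝ => bb (fderiv ℝ g (z + u * h)) :=
    hg.continuous_bb_fderiv.comp (by fun_prop)
  have hder : ∀ u ∈ uIcc (0 : ℝ) 1, HasDerivAt (fun u : ℝ => -g (z + u * h))
      (-(fderiv ℝ g (z + u * h) h)) u := by
    intro u _
    have a1 : HasDerivAt (fun u : ℝ => z + (u : ℂ) * h) h u := by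
      have a0 : HasDerivAt (fun t : ℝ => (t : ℂ)) 1 u := Complex.ofRealCLM.hasDerivAt
      have := (a0.mul_const h).const_add z
      rw [one_mul] at this
      exact this
    exact ((hg.differentiable _).hasFDerivAt.comp_hasDerivAt u a1).neg
  have hc1 : Continuous fun u : ℝ => -(fderiv ℝ g (z + u * h) h) := by fun_prop
  have h1 := intervalIntegral.integral_eq_sub_of_hasDerivAt hder (hc1.intervalIntegrable _ _)
  simp only [Complex.ofReal_one, one_mul, Complex.ofReal_zero, zero_mul, add_zero] at h1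
  have h2 : ∫ u in (0 : ℝ)..1, -(fderiv ℝ g (z + u * h) h) ≤
      ∫ u in (0 : ℝ)..1, t * bb (fderiv ℝ g (z + u * h)) := by
    apply intervalIntegral.integral_mono_on zero_le_one (hc1.intervalIntegrable _ _)
      ((continuous_const.mul hbc).intervalIntegrable _ _)
    intro u _
    have h3 := mul_le_mul_of_nonneg_left
      (neg_apply_le' (fderiv ℝ g (z + u * h)) hξ hc hc') ht
    have h4 : fderiv ℝ g (z + u * h) h = t * fderiv ℝ g (z + u * h) (1 + c * ξ) := by
      rw [← apply_real_mul, ← hh]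
    rw [h4]
    show _ ≤ t * bb (fderiv ℝ g (z + u * h))
    linarith
  linarith

/-- the measure used in averaging: disc × [0,1] -/
noncomputable def avm : Measure (ℂ × ℝ) :=
  ((volume : Measure ℂ).restrict (ball 0 1)).prod ((volume : Measure ℝ).restrict (Icc 0 1))

instance : IsFiniteMeasure ((volume : Measure ℂ).restrict (ball (0 : ℂ) 1)) :=
  ⟨by rw [Measure.restrict_apply_univ]; exact measure_ball_lt_top⟩

instance : IsFiniteMeasure avm := by unfold avm; infer_instance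

theorem avm_univ : avm univ = ENNReal.ofReal Real.pi := by
  unfold avm
  rw [← univ_prod_univ, Measure.prod_prod, Measure.restrict_apply_univ,
    Measure.restrict_apply_univ, volume_unitBall, Real.volume_Icc]
  norm_num

/-- `A g s z - g (z + 2 s)` is bounded by an average of `bb`. -/
theorem avg_drop {g : ℂ → ℝ} (hg : Nice g) {s : ℝ} (hs : 0 ≤ s) (z : ℂ) :
    ENNReal.ofReal (A g s z - g (z + (2 * s : ℝ))) ≤
    ∫⁻ p : ℂ × ℝ, ENNReal.ofReal (2 * s / Real.pi *
      bb (fderiv ℝ g (z + (s * p.1 + p.2 * ((2 * s : ℝ) * (1 + ((1 / 2 : ℝ) : ℂ) * (-p.1))))))) ∂avm := by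
  obtain ⟨K, hK0, hK⟩ := hg.exists_bound_fderiv
  have hcf := hg.continuous_fderiv
  have hc := hg.continuous
  have hpi := Real.pi_pos
  have hbc : Continuous fun p : ℂ × ℝ => 2 * s / Real.pi *
      bb (fderiv ℝ g (z + (s * p.1 + p.2 * ((2 * s : ℝ) * (1 + ((1 / 2 : ℝ) : ℂ) * (-p.1)))))) :=
    continuous_const.mul (hg.continuous_bb_fderiv.comp (by fun_prop))
  have hbd : ∀ p : ℂ × ℝ, ‖2 * s / Real.pi *
      bb (fderiv ℝ g (z + (s * p.1 + p.2 * ((2 * s : ℝ) * (1 + ((1 / 2 : ℝ) : ℂ) * (-p.1))))))‖ ≤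
      2 * s / Real.pi * (2 * K) := by
    intro p
    rw [Real.norm_eq_abs, abs_of_nonneg (mul_nonneg (by positivity) (bb_nonneg _))]
    apply mul_le_mul_of_nonneg_left _ (by positivity)
    exact le_trans (bb_le _) (by linarith [hK (z + (s * p.1 + p.2 * ((2 * s : ℝ) *
      (1 + ((1 / 2 : ℝ) : ℂ) * (-p.1)))))])
  have hint : Integrable (fun p : ℂ × ℝ => 2 * s / Real.pi *
      bb (fderiv ℝ g (z + (s * p.1 + p.2 * ((2 * s : ℝ) * (1 + ((1 / 2 : ℝ) : ℂ) * (-p.1)))))))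
      avm := Integrable.of_bound hbc.aestronglyMeasurable _ (Eventually.of_forall hbd)
  rw [← ofReal_integral_eq_lintegral_ofReal hint (Eventually.of_forall fun p =>
    mul_nonneg (by positivity) (bb_nonneg _))]
  apply ENNReal.ofReal_le_ofReal
  have hint' := hint
  unfold avm at hint' ⊢
  rw [integral_prod _ hint']
  have h1 : A g s z - g (z + (2 * s : ℝ)) =
      ∫ θ in ball (0 : ℂ) 1, (1 / Real.pi) * (g (z + s * θ) - g (z + (2 * s : ℝ))) := by
    rw [integral_const_mul, integral_sub (integrableOn_disc (by fun_prop))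
      (integrableOn_disc (by fun_prop)), mul_sub, disc_const]
    rfl
  rw [h1]
  apply setIntegral_mono_on (integrableOn_disc (by fun_prop)) hint'.integral_prod_left
    measurableSet_ball
  intro θ hθ
  have h2 := pt_drop hg (t := 2 * s) (c := 1 / 2) (z := z + s * θ) (ξ := -θ) (by linarith)
    (by norm_num) (by norm_num) (by rw [norm_neg]; exact (mem_ball_zero_iff.mp hθ).le)
  have h3 : z + s * θ + ((2 * s : ℝ) : ℂ) * (1 + ((1 / 2 : ℝ) : ℂ) * (-θ)) =
      z + (2 * s : ℝ) := by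
    push_cast
    ring
  rw [h3, intervalIntegral.integral_of_le zero_le_one, ← integral_Icc_eq_integral_Ioc] at h2
  have h4 := mul_le_mul_of_nonneg_left h2 (show 0 ≤ 1 / Real.pi by positivity)
  refine le_trans h4 (le_of_eq ?_)
  rw [← integral_const_mul]
  apply integral_congr_ae
  refine Eventually.of_forall fun u => ?_
  simp only
  rw [← mul_assoc]
  congr 1
  · ring
  · rw [add_assoc]

/-- translation in the plane -/
theorem lint_plane_shift_le (F : ℂ → ENNReal) {R B : Set ℂ} {v : ℂ}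
    (h : ∀ z ∈ R, z + v ∈ B) : ∫⁻ z in R, F (z + v) ≤ ∫⁻ z in B, F z := by
  have h1 := (measurePreserving_add_right (volume : Measure ℂ) v).setLIntegral_comp_preimage_emb
    (measurableEmbedding_addRight v) F B
  rw [← h1]
  exact lintegral_mono_set h

/-- iterated integrals over rectangles -/
theorem lint_rect {F : ℂ → ENNReal} (hF : Measurable F) (a b c d : ℝ) :
    ∫⁻ y in Icc c d, ∫⁻ x in Icc a b, F ⟨x, y⟩ =
    ∫⁻ z in (Complex.measurableEquivRealProd ⁻¹' (Icc a b ×ˢ Icc c d)), F z := by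
  have h1 := Complex.volume_preserving_equiv_real_prod.setLIntegral_comp_preimage_emb
    Complex.measurableEquivRealProd.measurableEmbedding
    (fun p : ℝ × ℝ => F ⟨p.1, p.2⟩) (Icc a b ×ˢ Icc c d)
  have h2 : ∀ z : ℂ, F ⟨(Complex.measurableEquivRealProd z).1,
    (Complex.measurableEquivRealProd z).2⟩ = F z := fun z => rfl
  simp only [h2] at h1
  rw [h1]
  have h3 : (volume : Measure (ℝ × ℝ)).restrict (Icc a b ×ˢ Icc c d) =
      ((volume : Measure ℝ).restrict (Icc a b)).prod ((volume : Measure ℝ).restrict (Icc c d)) := by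
    rw [Measure.prod_restrict]
    rfl
  rw [h3, lintegral_prod_symm]
  exact (hF.comp Complex.measurableEquivRealProd.symm.measurable).aemeasurable

/-- the integrated one step drop -/
theorem step_drop {g : ℂ → ℝ} (hg : Nice g) {s S : ℝ} (hs : 0 ≤ s) (hs' : s ≤ 1) (hS : 0 ≤ S)
    (hS' : S ≤ 1) :
    ∫⁻ y in Icc (-1 : ℝ) 1, ∫⁻ x in Icc (11 : ℝ) 12,
      ENNReal.ofReal (A g s (⟨x, y⟩ - ((S + 2 * s : ℝ) : ℂ)) - g (⟨x, y⟩ - (S : ℂ))) ≤
    ENNReal.ofReal (2 * s * BB g) := by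
  have hcf := hg.continuous_fderiv
  have hc := hg.continuous
  have hcA := continuous_A_right hg s
  have hpi := Real.pi_pos
  rw [lint_rect (F := fun z : ℂ => ENNReal.ofReal (A g s (z - ((S + 2 * s : ℝ) : ℂ)) -
    g (z - (S : ℂ)))) (by
      apply Measurable.ennreal_ofReal
      apply Continuous.measurable
      fun_prop)]
  set R : Set ℂ := Complex.measurableEquivRealProd ⁻¹' (Icc (11 : ℝ) 12 ×ˢ Icc (-1 : ℝ) 1) with hR
  have hRm : MeasurableSet R :=
    Complex.measurableEquivRealProd.measurable (measurableSet_Icc.prod measurableSet_Icc)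
  have hRn : ∀ z ∈ R, ‖z‖ ≤ 13 := by
    intro z hz
    have h1 : z.re ∈ Icc (11 : ℝ) 12 ∧ z.im ∈ Icc (-1 : ℝ) 1 := hz
    have h2 := norm_mk_le (s := z.re) (y := z.im) (a := 12) (b := 1)
      (abs_le.mpr ⟨by linarith [h1.1.1], h1.1.2⟩) (abs_le.mpr ⟨by linarith [h1.2.1], h1.2.2⟩)
    linarith
  have hLB : ∫⁻ z in ball (0 : ℂ) 40, ENNReal.ofReal (bb (fderiv ℝ g z)) =
      ENNReal.ofReal (BB g) := by
    unfold BB
    rw [ofReal_integral_eq_lintegral_ofReal hg.integrable_bb.integrableOn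
      (Eventually.of_forall fun _ => bb_nonneg _)]
  have hwn : ∀ p : ℂ × ℝ, p ∈ ball (0 : ℂ) 1 ×ˢ Icc (0 : ℝ) 1 →
      ‖-((S + 2 * s : ℝ) : ℂ) + (s * p.1 + p.2 * ((2 * s : ℝ) * (1 + ((1 / 2 : ℝ) : ℂ) * (-p.1))))‖
      ≤ 8 := by
    rintro ⟨θ, u⟩ ⟨hθ, hu⟩
    simp only at hθ hu ⊢
    have hθ1 := (mem_ball_zero_iff.mp hθ).le
    have h1 : ‖((S + 2 * s : ℝ) : ℂ)‖ ≤ 3 := by
      rw [Complex.norm_real, Real.norm_eq_abs, abs_of_nonneg (by positivity)]; linarith
    have h2 : ‖(s : ℂ) * θ‖ ≤ 1 := by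
      rw [norm_mul, Complex.norm_real, Real.norm_eq_abs, abs_of_nonneg hs]
      nlinarith [norm_nonneg θ]
    have h3 : ‖(1 : ℂ) + ((1 / 2 : ℝ) : ℂ) * (-θ)‖ ≤ 2 := by
      refine le_trans (norm_add_le _ _) ?_
      rw [norm_one, norm_mul, Complex.norm_real, norm_neg, Real.norm_eq_abs,
        abs_of_nonneg (by norm_num)]
      linarith
    have h4 : ‖(u : ℂ) * ((2 * s : ℝ) * (1 + ((1 / 2 : ℝ) : ℂ) * (-θ)))‖ ≤ 4 := by
      rw [norm_mul, norm_mul, Complex.norm_real, Complex.norm_real, Real.norm_eq_abs,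
        Real.norm_eq_abs, abs_of_nonneg hu.1, abs_of_nonneg (by positivity)]
      calc u * (2 * s * ‖(1 : ℂ) + ((1 / 2 : ℝ) : ℂ) * (-θ)‖) ≤ 1 * (2 * 1 * 2) := by
            apply mul_le_mul hu.2 _ (by positivity) zero_le_one
            apply mul_le_mul (by linarith) h3 (norm_nonneg _) (by norm_num)
        _ = 4 := by norm_num
    calc _ ≤ ‖-((S + 2 * s : ℝ) : ℂ)‖ + ‖(s : ℂ) * θ +
          (u : ℂ) * ((2 * s : ℝ) * (1 + ((1 / 2 : ℝ) : ℂ) * (-θ)))‖ := norm_add_le _ _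
      _ ≤ ‖-((S + 2 * s : ℝ) : ℂ)‖ + (‖(s : ℂ) * θ‖ +
          ‖(u : ℂ) * ((2 * s : ℝ) * (1 + ((1 / 2 : ℝ) : ℂ) * (-θ)))‖) := by
          gcongr; exact norm_add_le _ _
      _ ≤ 8 := by rw [norm_neg]; linarith
  calc ∫⁻ z in R, ENNReal.ofReal (A g s (z - ((S + 2 * s : ℝ) : ℂ)) - g (z - (S : ℂ)))
      ≤ ∫⁻ z in R, ∫⁻ p : ℂ × ℝ, ENNReal.ofReal (2 * s / Real.pi *
      bb (fderiv ℝ g (z + (-((S + 2 * s : ℝ) : ℂ) +
        (s * p.1 + p.2 * ((2 * s : ℝ) * (1 + ((1 / 2 : ℝ) : ℂ) * (-p.1)))))))) ∂avm := by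
        apply lintegral_mono
        intro z
        have h1 := avg_drop hg hs (z - ((S + 2 * s : ℝ) : ℂ))
        have h2 : z - ((S + 2 * s : ℝ) : ℂ) + ((2 * s : ℝ) : ℂ) = z - (S : ℂ) := by
          push_cast; ring
        rw [h2] at h1
        refine le_trans h1 (le_of_eq ?_)
        congr 1
        funext p
        congr 4
        ring
    _ = ∫⁻ p : ℂ × ℝ, (∫⁻ z in R, ENNReal.ofReal (2 * s / Real.pi *
      bb (fderiv ℝ g (z + (-((S + 2 * s : ℝ) : ℂ) +
        (s * p.1 + p.2 * ((2 * s : ℝ) * (1 + ((1 / 2 : ℝ) : ℂ) * (-p.1))))))))) ∂avm := by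
        apply lintegral_lintegral_swap
        apply Measurable.aemeasurable
        apply Measurable.ennreal_ofReal
        apply Continuous.measurable
        exact continuous_const.mul (hg.continuous_bb_fderiv.comp (by fun_prop))
    _ ≤ ∫⁻ p : ℂ × ℝ, ENNReal.ofReal (2 * s / Real.pi) * ENNReal.ofReal (BB g) ∂avm := by
        apply lintegral_mono_ae
        have hae : ∀ᵐ p ∂avm, p ∈ ball (0 : ℂ) 1 ×ˢ Icc (0 : ℝ) 1 := by
          unfold avm
          rw [Measure.prod_restrict]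
          exact ae_restrict_mem (measurableSet_ball.prod measurableSet_Icc)
        filter_upwards [hae] with p hp
        rw [← hLB]
        simp only [ENNReal.ofReal_mul (show 0 ≤ 2 * s / Real.pi by positivity)]
        rw [lintegral_const_mul' _ _ ENNReal.ofReal_ne_top]
        refine mul_le_mul' le_rfl ?_
        apply lint_plane_shift_le (fun z => ENNReal.ofReal (bb (fderiv ℝ g z)))
        intro z hz
        rw [mem_ball_zero_iff]
        have h1 := hwn p hp
        have h2 := hRn z hz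
        exact lt_of_le_of_lt (norm_add_le _ _) (by linarith)
    _ = _ := by
        rw [lintegral_const, avm_univ, ← ENNReal.ofReal_mul (by positivity),
          ← ENNReal.ofReal_mul (mul_nonneg (by positivity) (BB_nonneg g))]
        congr 1
        field_simp

/-- sup bound for `bb` of the last chain function -/
theorem bb_last {f : ℂ → ℝ} (hf : Nice f) {N : ℕ} (hN : 1 ≤ N) {z : ℂ} (hz : ‖z‖ ≤ 39) :
    bb (fderiv ℝ (chain f N N) z) ≤ 4 ^ 13 * WW f N := by
  obtain ⟨M, rfl⟩ : ∃ M, N = M + 1 := ⟨N - 1, by omega⟩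
  have hW := WW_nonneg f (M + 1)
  have hpi := Real.pi_gt_three
  have h1 := bb_fderiv_A_le (nice_chain hf (M + 1) M) (stp (M + 1) M) z
  rw [chain_succ f (by omega : M < M + 1)]
  have e : stp (M + 1) M = (1 / 4) ^ 6 := by
    unfold stp
    congr 1
    omega
  have hsp := stp_pos (M + 1) M
  have h2 := disc_bb_le (nice_chain hf (M + 1) M) hsp (x := z) (by
    intro w hw
    rw [mem_ball, dist_eq_norm] at hw
    rw [mem_ball_zero_iff]
    have : w = (w - z) + z := by ring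
    rw [this]
    refine lt_of_le_of_lt (norm_add_le _ _) ?_
    rw [e] at hw
    norm_num at hw
    linarith)
  have h3 := BB_chain_le f (N := M + 1) (j := M) (by omega)
  have e2 : M + 1 - M = 1 := by omega
  rw [e2, pow_one] at h3
  refine le_trans h1 (le_trans h2 ?_)
  have h4 : 1 / (Real.pi * stp (M + 1) M ^ 2) ≤ 4 ^ 12 / 3 := by
    rw [e, div_le_div_iff₀ (by positivity) (by norm_num)]
    norm_num
    nlinarith
  calc _ ≤ (4 ^ 12 / 3 : ℝ) * (4 / 3 * WW f (M + 1)) :=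
        mul_le_mul h4 h3 (BB_nonneg _) (by norm_num)
    _ ≤ _ := by nlinarith

/-- the far comparison for the last chain function -/
theorem far_cmp {f : ℂ → ℝ} (hf : Nice f) {N : ℕ} (hN : 1 ≤ N) {τ : ℝ}
    (hτ : τ ∈ Icc (1 : ℝ) 2) {x y s : ℝ} (hx : x ∈ Icc (1 : ℝ) (1 + 1 / 100))
    (hy : y ∈ Icc (-1 : ℝ) 1) (hs : s ∈ Icc (10 : ℝ) 12) (hxs : x + 9 ≤ s) :
    U (chain f N N) τ ⟨x, y⟩ - chain f N N ⟨s, y⟩ ≤ 11 * (4 ^ 13 * WW f N) := by
  have hW := WW_nonneg f N
  set g := chain f N N with hg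
  have hng : Nice g := nice_chain hf N N
  rw [sub_le_iff_le_add]
  apply U_le
  intro u hu
  apply A_le_of_le hng.continuous
  intro ξ hξ
  have hξ1 := (mem_ball_zero_iff.mp hξ).le
  set r : ℝ := τ * u with hr
  have hr1 : 0 ≤ r := mul_nonneg (by linarith [hτ.1]) (by linarith [hu.1])
  have hr8 : r ≤ 8 := by nlinarith [hτ.1, hτ.2, hu.1, hu.2]
  set σ : ℝ := s - x with hσ
  have hσ9 : 9 ≤ σ := by rw [hσ]; linarith
  have hσ11 : σ ≤ 11 := by rw [hσ]; linarith [hs.2, hx.1]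
  have hσ0 : σ ≠ 0 := by linarith
  have h1 := pt_drop hng (t := σ) (c := r / σ) (z := ⟨x, y⟩ + r * ξ) (ξ := -ξ) (by linarith)
    (by positivity) (by rw [div_le_iff₀ (by linarith)]; linarith) (by rwa [norm_neg])
  have e1 : (σ : ℂ) * (1 + ((r / σ : ℝ) : ℂ) * (-ξ)) = σ - r * ξ := by
    have : (σ : ℂ) ≠ 0 := by exact_mod_cast hσ0
    push_cast
    field_simp
    ring
  rw [e1] at h1
  have e2 : (⟨x, y⟩ : ℂ) + r * ξ + (σ - r * ξ) = ⟨s, y⟩ := by
    have : (⟨x, y⟩ : ℂ) + r * ξ + (σ - r * ξ) = ⟨x, y⟩ + (σ : ℂ) := by ring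
    rw [this, mk_add_real, hσ]
    congr 1
    ring
  rw [e2] at h1
  have h2 : ∫ u in (0 : ℝ)..1, σ * bb (fderiv ℝ g (⟨x, y⟩ + r * ξ + u * (σ - r * ξ))) ≤
      ∫ u in (0 : ℝ)..1, 11 * (4 ^ 13 * WW f N) := by
    have hbc : Continuous fun u : ℝ => σ * bb (fderiv ℝ g (⟨x, y⟩ + r * ξ + u * (σ - r * ξ))) :=
      continuous_const.mul (hng.continuous_bb_fderiv.comp (by fun_prop))
    apply intervalIntegral.integral_mono_on zero_le_one (hbc.intervalIntegrable _ _)
      (continuous_const.intervalIntegrable _ _)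
    intro u hu
    have h3 : ‖(⟨x, y⟩ : ℂ) + r * ξ + u * (σ - r * ξ)‖ ≤ 39 := by
      have a1 : ‖(⟨x, y⟩ : ℂ)‖ ≤ 2 + 1 := norm_mk_le
        (abs_le.mpr ⟨by linarith [hx.1], by linarith [hx.2]⟩) (abs_le.mpr ⟨hy.1, hy.2⟩)
      have a2 : ‖(r : ℂ) * ξ‖ ≤ 8 := by
        rw [norm_mul, Complex.norm_real, Real.norm_eq_abs, abs_of_nonneg hr1]
        nlinarith [norm_nonneg ξ]
      have a3 : ‖(u : ℂ) * (σ - r * ξ)‖ ≤ 19 := by
        rw [norm_mul, Complex.norm_real, Real.norm_eq_abs, abs_of_nonneg hu.1]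
        have a4 : ‖(σ : ℂ) - r * ξ‖ ≤ 19 := by
          refine le_trans (norm_sub_le _ _) ?_
          rw [Complex.norm_real, Real.norm_eq_abs, abs_of_nonneg (by linarith)]
          linarith
        nlinarith [norm_nonneg ((σ : ℂ) - r * ξ), hu.1, hu.2]
      have a5 := norm_add_le ((⟨x, y⟩ : ℂ) + r * ξ) (u * (σ - r * ξ))
      have a6 := norm_add_le (⟨x, y⟩ : ℂ) (r * ξ)
      linarith
    have h4 := bb_last hf hN h3
    exact mul_le_mul hσ11 h4 (bb_nonneg _) (by norm_num)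
  rw [intervalIntegral.integral_const, sub_zero, one_smul] at h2
  linarith

theorem lint_const_rect (c : ENNReal) :
    ∫⁻ _y in Icc (-1 : ℝ) 1, ∫⁻ _x in Icc (11 : ℝ) 12, c = c * 2 := by
  rw [setLIntegral_const, Real.volume_Icc, setLIntegral_const, Real.volume_Icc]
  norm_num

/-- sum of the shifted steps -/
theorem chain_drop {f : ℂ → ℝ} (hf : Nice f) (N : ℕ) : ∀ j, j ≤ N →
    ∫⁻ y in Icc (-1 : ℝ) 1, ∫⁻ x in Icc (11 : ℝ) 12,
      ENNReal.ofReal (chain f N j (⟨x, y⟩ - (shf N j : ℂ)) - f ⟨x, y⟩) ≤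
    ENNReal.ofReal (prr f N j)
  | 0, _ => by
    have : ∀ z : ℂ, chain f N 0 (z - (shf N 0 : ℂ)) - f z = 0 := by
      intro z
      show f (z - ((0 : ℝ) : ℂ)) - f z = 0
      simp
    simp [this]
  | (j + 1), hj => by
    have ih := chain_drop hf N j (by omega)
    have hng := nice_chain hf N j
    have hs := (stp_pos N j).le
    have hs' := stp_le (N := N) (j := j) (by omega)
    have hS := shf_nonneg N j
    have hS' := shf_le' (N := N) (j := j) (by omega)
    have h1 := step_drop hng hs (by linarith) hS (by linarith)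
    have hc1 := (nice_chain hf N j).continuous
    have hc2 := hf.continuous
    have hc3 := continuous_A_right hng (stp N j)
    rw [chain_succ f (by omega : j < N)]
    have e : shf N (j + 1) = shf N j + 2 * stp N j := rfl
    rw [e]
    calc ∫⁻ y in Icc (-1 : ℝ) 1, ∫⁻ x in Icc (11 : ℝ) 12, ENNReal.ofReal
          (A (chain f N j) (stp N j) (⟨x, y⟩ - ((shf N j + 2 * stp N j : ℝ) : ℂ)) - f ⟨x, y⟩)
        ≤ ∫⁻ y in Icc (-1 : ℝ) 1, ∫⁻ x in Icc (11 : ℝ) 12, (ENNReal.ofReal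
          (A (chain f N j) (stp N j) (⟨x, y⟩ - ((shf N j + 2 * stp N j : ℝ) : ℂ)) -
            chain f N j (⟨x, y⟩ - (shf N j : ℂ))) +
          ENNReal.ofReal (chain f N j (⟨x, y⟩ - (shf N j : ℂ)) - f ⟨x, y⟩)) := by
          apply lintegral_mono
          intro y
          apply lintegral_mono
          intro x
          refine le_trans (ENNReal.ofReal_le_ofReal (le_of_eq ?_)) ENNReal.ofReal_add_le
          ring
      _ = (∫⁻ y in Icc (-1 : ℝ) 1, ∫⁻ x in Icc (11 : ℝ) 12, ENNReal.ofReal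
          (A (chain f N j) (stp N j) (⟨x, y⟩ - ((shf N j + 2 * stp N j : ℝ) : ℂ)) -
            chain f N j (⟨x, y⟩ - (shf N j : ℂ)))) +
          ∫⁻ y in Icc (-1 : ℝ) 1, ∫⁻ x in Icc (11 : ℝ) 12,
          ENNReal.ofReal (chain f N j (⟨x, y⟩ - (shf N j : ℂ)) - f ⟨x, y⟩) := by
          have hcc : Continuous (fun p : ℝ × ℝ => (A (chain f N j) (stp N j)
            ((⟨p.2, p.1⟩ : ℂ) - ((shf N j + 2 * stp N j : ℝ) : ℂ)) -
            chain f N j ((⟨p.2, p.1⟩ : ℂ) - (shf N j : ℂ)))) := by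
            have hm : Continuous fun p : ℝ × ℝ => (⟨p.2, p.1⟩ : ℂ) :=
              continuous_cmk continuous_snd continuous_fst
            fun_prop
          have m1 : Measurable (fun p : ℝ × ℝ => ENNReal.ofReal (A (chain f N j) (stp N j)
            ((⟨p.2, p.1⟩ : ℂ) - ((shf N j + 2 * stp N j : ℝ) : ℂ)) -
            chain f N j ((⟨p.2, p.1⟩ : ℂ) - (shf N j : ℂ)))) := hcc.measurable.ennreal_ofReal
          rw [← lintegral_add_left m1.lintegral_prod_right']
          congr 1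
          funext y
          exact lintegral_add_left (m1.comp measurable_prodMk_left) _
      _ ≤ ENNReal.ofReal (2 * stp N j * BB (chain f N j)) + ENNReal.ofReal (prr f N j) :=
          add_le_add h1 ih
      _ = _ := by
          rw [← ENNReal.ofReal_add (mul_nonneg (by positivity) (BB_nonneg _)) (prr_nonneg f N j),
            add_comm]
          rfl

theorem UNIT_L2 {f : ℂ → ℝ} (hf : Nice f) {N : ℕ} (hN : 1 ≤ N) {τ : ℝ}
    (hτ : τ ∈ Icc (1 : ℝ) 2) :
    ∫⁻ y in Icc (-1 : ℝ) 1, ∫⁻ s in Icc (11 : ℝ) 12,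
      ENNReal.ofReal (U f τ (⟨1, y⟩ : ℂ) - f (⟨s, y⟩ : ℂ)) ≤
    ENNReal.ofReal (4 ^ 16 * WW f N) := by
  have hW := WW_nonneg f N
  have hS := shf_nonneg N N
  have hS' := shf_le' (N := N) (j := N) le_rfl
  have hP := prr_le f N N le_rfl
  rw [Nat.sub_self, pow_zero, mul_one] at hP
  have hP0 := prr_nonneg f N N
  have h1 := chain_drop hf N N le_rfl
  calc ∫⁻ y in Icc (-1 : ℝ) 1, ∫⁻ s in Icc (11 : ℝ) 12,
      ENNReal.ofReal (U f τ (⟨1, y⟩ : ℂ) - f (⟨s, y⟩ : ℂ))
      ≤ ∫⁻ y in Icc (-1 : ℝ) 1, ∫⁻ s in Icc (11 : ℝ) 12,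
      (ENNReal.ofReal (12 * (4 ^ 13 * WW f N)) +
        ENNReal.ofReal (chain f N N (⟨s, y⟩ - (shf N N : ℂ)) - f ⟨s, y⟩)) := by
        apply setLIntegral_mono' measurableSet_Icc
        intro y hy
        apply setLIntegral_mono' measurableSet_Icc
        intro s hs
        refine le_trans (ENNReal.ofReal_le_ofReal ?_) ENNReal.ofReal_add_le
        have a1 := cmp_chain1 hf (N := N) hτ (y := ⟨1, y⟩)
          (le_trans (norm_mk_le (a := 16) (b := 1) (abs_le.mpr ⟨by norm_num, by norm_num⟩)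
            (abs_le.mpr ⟨hy.1, hy.2⟩)) (by norm_num)) N le_rfl
        rw [mk_add_real] at a1
        have e1 : (⟨s, y⟩ : ℂ) - (shf N N : ℂ) = ⟨s - shf N N, y⟩ := by
          apply Complex.ext <;> simp
        rw [e1]
        have a2 := far_cmp hf hN hτ (x := 1 + shf N N) (y := y) (s := s - shf N N)
          ⟨by linarith, by linarith⟩ hy ⟨by linarith [hs.1], by linarith [hs.2]⟩
          (by linarith [hs.1])
        norm_num at hP
        nlinarith
    _ = ENNReal.ofReal (12 * (4 ^ 13 * WW f N)) * 2 + ∫⁻ y in Icc (-1 : ℝ) 1,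
        ∫⁻ s in Icc (11 : ℝ) 12,
        ENNReal.ofReal (chain f N N (⟨s, y⟩ - (shf N N : ℂ)) - f ⟨s, y⟩) := by
        simp only [lintegral_add_left measurable_const]
        rw [lint_const_rect]
    _ ≤ ENNReal.ofReal (24 * (4 ^ 13 * WW f N)) + ENNReal.ofReal (WW f N) := by
        refine add_le_add (le_of_eq ?_) (le_trans h1 (ENNReal.ofReal_le_ofReal ?_))
        · have : (2 : ENNReal) = ENNReal.ofReal 2 := by norm_num
          rw [this, ← ENNReal.ofReal_mul (by positivity)]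
          congr 1
          ring
        · norm_num at hP
          linarith
    _ ≤ _ := by
        rw [← ENNReal.ofReal_add (by positivity) (by positivity)]
        apply ENNReal.ofReal_le_ofReal
        nlinarith

end Crest.Agent.R112
end

-- ▼ part R112/Unit
section

/-! R112, section 3: the unit scale theorem (conditional on the K_b proposition `KbProp`). -/

set_option autoImplicit false

namespace Crest.Agent.R112

open MeasureTheory Metric Set Filter Topology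

theorem lint_bb_eq {g : ℂ → ℝ} (hg : Nice g) :
    ∫⁻ z in ball (0 : ℂ) 40, ENNReal.ofReal (bb (fderiv ℝ g z)) = ENNReal.ofReal (BB g) := by
  unfold BB
  rw [ofReal_integral_eq_lintegral_ofReal hg.integrable_bb.integrableOn
    (Eventually.of_forall fun _ => bb_nonneg _)]

theorem WW_ofReal {f : ℂ → ℝ} (hf : Nice f) (N : ℕ) :
    ENNReal.ofReal (WW f N) = ∑ j ∈ Finset.range (N + 1), (3 / 4 : ENNReal) ^ (N - j) *
      ∫⁻ z in ball (0 : ℂ) 40, ENNReal.ofReal (bb (fderiv ℝ (chain f N j) z)) := by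
  unfold WW
  rw [ENNReal.ofReal_sum_of_nonneg fun j _ => mul_nonneg (by positivity) (BB_nonneg _)]
  apply Finset.sum_congr rfl
  intro j _
  rw [ENNReal.ofReal_mul (by positivity), lint_bb_eq (nice_chain hf N j),
    ENNReal.ofReal_pow (by norm_num), ENNReal.ofReal_div_of_pos (by norm_num)]
  norm_num

/-- The unit scale theorem, given `K_b`. -/
theorem UNIT_of_Kb {C : ℝ} (hC : 0 ≤ C) (hK : KbProp C) : ∃ C : NNReal, ∀ f : ℂ → ℝ, Nice f →
    ∀ N : ℕ, 1 ≤ N → ∫⁻ τ in Icc (1 : ℝ) 2, Q τ f ≤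
      C * ∑ j ∈ Finset.range (N + 1), (3 / 4 : ENNReal) ^ (N - j) *
      ∫⁻ z in ball (0 : ℂ) 40, ENNReal.ofReal (bb (fderiv ℝ (chain f N j) z)) := by
  refine ⟨Real.toNNReal (2 * (18 * C + 300) + 4 ^ 16), ?_⟩
  intro f hf N hN
  have hW := WW_nonneg f N
  rw [← WW_ofReal hf N]
  have h1 := UNIT_L1 hC hK hf N
  have hmeas : ∀ τ : ℝ, Measurable fun y : ℝ => ∫⁻ s in Icc (11 : ℝ) 12,
      ENNReal.ofReal (U f τ (⟨1, y⟩ : ℂ) - f (⟨s, y⟩ : ℂ)) := by
    intro τ
    have hc : Continuous fun p : ℝ × ℝ => U f τ (⟨1, p.1⟩ : ℂ) - f (⟨p.2, p.1⟩ : ℂ) :=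
      ((continuous_U_right hf τ).comp (continuous_cmk continuous_const continuous_fst)).sub
        (hf.continuous.comp (continuous_cmk continuous_snd continuous_fst))
    exact (hc.measurable.ennreal_ofReal).lintegral_prod_right'
  calc ∫⁻ τ in Icc (1 : ℝ) 2, Q τ f
      ≤ ∫⁻ τ in Icc (1 : ℝ) 2, (2 * (∫⁻ y in Icc (-1 : ℝ) 1, ∫⁻ s in Icc (-1 : ℝ) 15,
        ENNReal.ofReal (-(deriv (fun s : ℝ => U f τ (⟨s, y⟩ : ℂ)) s))) +
          ENNReal.ofReal (4 ^ 16 * WW f N)) := by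
        apply setLIntegral_mono' measurableSet_Icc
        intro τ hτ
        unfold Q
        rw [lintegral_add_right _ (hmeas τ), lintegral_const_mul' _ _ (by norm_num)]
        exact add_le_add le_rfl (UNIT_L2 hf hN hτ)
    _ = 2 * (∫⁻ τ in Icc (1 : ℝ) 2, ∫⁻ y in Icc (-1 : ℝ) 1, ∫⁻ s in Icc (-1 : ℝ) 15,
        ENNReal.ofReal (-(deriv (fun s : ℝ => U f τ (⟨s, y⟩ : ℂ)) s))) +
          ENNReal.ofReal (4 ^ 16 * WW f N) := by
        rw [lintegral_add_right _ measurable_const, lintegral_const_mul' _ _ (by norm_num),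
          setLIntegral_const, Real.volume_Icc]
        norm_num
    _ ≤ 2 * ENNReal.ofReal ((18 * C + 300) * WW f N) + ENNReal.ofReal (4 ^ 16 * WW f N) :=
        add_le_add (mul_le_mul' le_rfl h1) le_rfl
    _ = _ := by
        have : (2 : ENNReal) = ENNReal.ofReal 2 := by norm_num
        rw [this, ← ENNReal.ofReal_mul (by positivity), ← ENNReal.ofReal_add (by positivity)
          (by positivity)]
        show _ = ENNReal.ofReal (2 * (18 * C + 300) + 4 ^ 16) * _
        rw [← ENNReal.ofReal_mul (by positivity)]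
        congr 1
        ring

end Crest.Agent.R112
end

-- ▼ part R112/Core2

/-!
# R112 (S0147), module Core2: from the truncated maximal function of nonnegative `C¹` functions
(scales `≥ τ`, `τ ∈ [1,2]`) to the line variation of the full maximal function of `C¹` functions.
-/

set_option autoImplicit false

namespace Crest.Agent.R112

open MeasureTheory Set Metric Filter Topology
open scoped ENNReal NNReal

/-! ### variation of Lipschitz functions -/

theorem enorm_sub_le_lintegral {h : ℝ → ℝ} {K : ℝ≥0} (hh : LipschitzWith K h) {a b : ℝ}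
    (hab : a ≤ b) : ‖h b - h a‖ₑ ≤ ∫⁻ s in Ioc a b, ‖deriv h s‖ₑ := by
  have h1 : ∫ s in a..b, deriv h s = h b - h a :=
    ((hh.lipschitzOnWith (s := uIcc a b)).absolutelyContinuousOnInterval).integral_deriv_eq_sub
  rw [← h1, intervalIntegral.integral_of_le hab]
  exact enorm_integral_le_lintegral_enorm _

theorem eVariationOn_le_lintegral {h : ℝ → ℝ} {K : ℝ≥0} (hh : LipschitzWith K h) :
    eVariationOn h univ ≤ ∫⁻ s, ‖deriv h s‖ₑ := by
  unfold eVariationOn
  apply iSup_le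
  rintro ⟨n, u, hu, -⟩
  have key : ∀ n : ℕ, ∑ i ∈ Finset.range n, edist (h (u (i + 1))) (h (u i)) ≤
      ∫⁻ s in Ioc (u 0) (u n), ‖deriv h s‖ₑ := by
    intro n
    induction n with
    | zero => simp
    | succ n ih =>
      rw [Finset.sum_range_succ]
      have h0 : u 0 ≤ u n := hu (Nat.zero_le n)
      have h1 : u n ≤ u (n + 1) := hu (Nat.le_succ n)
      have hun : Ioc (u 0) (u (n + 1)) = Ioc (u 0) (u n) ∪ Ioc (u n) (u (n + 1)) :=
        (Ioc_union_Ioc_eq_Ioc h0 h1).symm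
      rw [hun, lintegral_union measurableSet_Ioc (Ioc_disjoint_Ioc_of_le le_rfl)]
      apply add_le_add ih
      rw [edist_eq_enorm_sub]
      exact enorm_sub_le_lintegral hh h1
  exact (key n).trans (setLIntegral_le_lintegral _ _)

/-- the line integral of the derivative -/
noncomputable def lineW (u : ℂ → ℝ) (y : ℝ) : ℝ≥0∞ := ∫⁻ s, ‖deriv (fun s : ℝ => u ⟨s, y⟩) s‖ₑ

theorem continuous_mk : Continuous (fun p : ℝ × ℝ => (⟨p.2, p.1⟩ : ℂ)) := by
  have : (fun p : ℝ × ℝ => (⟨p.2, p.1⟩ : ℂ)) = fun p : ℝ × ℝ => (p.2 : ℂ) + p.1 * Complex.I := by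
    ext p; apply Complex.ext <;> simp
  rw [this]
  fun_prop

theorem measurable_line_deriv {u : ℂ → ℝ} (hu : Continuous u) :
    Measurable (fun p : ℝ × ℝ => deriv (fun s : ℝ => u ⟨s, p.1⟩) p.2) := by
  have h : Continuous (Function.uncurry fun (y s : ℝ) => u ⟨s, y⟩) := hu.comp continuous_mk
  exact measurable_deriv_with_param h

theorem measurable_lineW {u : ℂ → ℝ} (hu : Continuous u) : Measurable (lineW u) :=
  (measurable_line_deriv hu).enorm.lintegral_prod_right'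

theorem eVariationOn_le_lineW {u : ℂ → ℝ} {K : ℝ≥0} (hu : LipschitzWith K u) (y : ℝ) :
    eVariationOn (fun s : ℝ => u ⟨s, y⟩) univ ≤ lineW u y :=
  eVariationOn_le_lintegral (hu.comp (line_lipschitz y))

theorem lintegral_lineW_le {u : ℂ → ℝ} {K : ℝ≥0} (hu : LipschitzWith K u) :
    ∫⁻ y, lineW u y ≤ ∫⁻ z, ‖fderiv ℝ u z‖ₑ := by
  set F : ℂ → ℝ≥0∞ := fun z => ‖deriv (fun s : ℝ => u ⟨s, z.im⟩) z.re‖ₑ with hF
  have hFm : Measurable F := by
    have h1 : Measurable (fun z : ℂ => ((z.im, z.re) : ℝ × ℝ)) :=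
      Complex.measurable_im.prodMk Complex.measurable_re
    exact ((measurable_line_deriv hu.continuous).comp h1).enorm
  have h1 : ∫⁻ z, F z = ∫⁻ y, lineW u y := by
    rw [lint_slice hFm]
    rfl
  rw [← h1]
  apply lintegral_mono_ae
  filter_upwards [hu.ae_differentiableAt] with z hz
  have h2 : HasDerivAt (fun s : ℝ => u ⟨s, z.im⟩) (fderiv ℝ u ⟨z.re, z.im⟩ 1) z.re :=
    HasFDerivAt.comp_hasDerivAt z.re (f := fun s : ℝ => (⟨s, z.im⟩ : ℂ)) hz.hasFDerivAt
      (line_hasDerivAt z.im z.re)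
  rw [hF]
  simp only
  rw [h2.deriv, ← ofReal_norm, ← ofReal_norm]
  apply ENNReal.ofReal_le_ofReal
  simpa using (fderiv ℝ u z).le_opNorm 1

/-! ### scaling -/

theorem Nice.scale {f : ℂ → ℝ} (hf : Nice f) {c : ℝ} (hc : 0 < c) : Nice (fun z => f (c * z)) := by
  have := nice_aff hf 0 (c := (c : ℂ)) (Complex.ofReal_ne_zero.mpr hc.ne')
  simpa using this

theorem A_scale (f : ℂ → ℝ) (c r : ℝ) (z : ℂ) :
    A (fun z => f (c * z)) r z = A f (c * r) (c * z) := by
  have := A_comp (f := f) (e := 1) (x₀ := 0) (by simp) (t := c) r z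
  simpa using this

theorem uT_scale {f : ℂ → ℝ} (hf : Nice f) {c : ℝ} (hc : 0 < c) (τ : ℝ) (z : ℂ) :
    uT (fun z => f (c * z)) τ z = uT f (c * τ) (c * z) := by
  apply le_antisymm
  · apply uT_le
    · exact le_uT f _ _
    · intro r hr
      rw [A_scale]
      exact A_le_uT hf (mul_le_mul_of_nonneg_left hr hc.le) _
  · apply uT_le
    · exact le_uT (fun z => f (c * z)) τ z
    · intro r hr
      have h1 : r = c * (r / c) := by field_simp
      rw [h1, ← A_scale]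
      apply A_le_uT (hf.scale hc)
      rw [le_div_iff₀ hc]
      linarith

theorem lintegral_fderiv_scale (u : ℂ → ℝ) {c : ℝ} (hc : 0 < c) :
    ENNReal.ofReal c * ∫⁻ z, ‖fderiv ℝ (fun z => u (c * z)) z‖ₑ = ∫⁻ z, ‖fderiv ℝ u z‖ₑ := by
  have h0 : ∀ z, ‖fderiv ℝ (fun z => u (c * z)) z‖ₑ =
      ENNReal.ofReal c * ‖fderiv ℝ u (c * z)‖ₑ := by
    intro z
    have := norm_fderiv_te (x₀ := 0) u (e := 1) (by simp) hc z
    simp only [mul_one, zero_add] at this
    rw [← ofReal_norm, ← ofReal_norm, ← ENNReal.ofReal_mul hc.le, this]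
  simp_rw [h0]
  have hcne : (c : ℂ) ≠ 0 := Complex.ofReal_ne_zero.mpr hc.ne'
  have h2 := lint_aff 0 hcne (fun z => ‖fderiv ℝ u z‖ₑ)
  simp only [zero_add] at h2
  rw [lintegral_const_mul' _ _ ENNReal.ofReal_ne_top, ← mul_assoc, ← ENNReal.ofReal_mul hc.le, ← h2]
  congr 2
  rw [Complex.norm_real, Real.norm_eq_abs, abs_of_pos hc]
  ring

/-- the core estimate for nonnegative `C¹` functions -/
def Core1 (C : ℝ≥0) : Prop := ∀ f : ℂ → ℝ, Nice f → (∀ z, 0 ≤ f z) → ∃ τ ∈ Icc (1 : ℝ) 2,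
  ∫⁻ z, ‖fderiv ℝ (uT f τ) z‖ₑ ≤ C * ∫⁻ z, ‖fderiv ℝ f z‖ₑ

theorem Core1.scale {C : ℝ≥0} (h : Core1 C) {f : ℂ → ℝ} (hf : Nice f) (h0 : ∀ z, 0 ≤ f z) {ε : ℝ}
    (hε : 0 < ε) : ∃ τ ∈ Icc ε (2 * ε),
      ∫⁻ z, ‖fderiv ℝ (uT f τ) z‖ₑ ≤ C * ∫⁻ z, ‖fderiv ℝ f z‖ₑ := by
  obtain ⟨τ, hτ, h1⟩ := h (fun z => f (ε * z)) (hf.scale hε) (fun z => h0 _)
  refine ⟨ε * τ, ⟨by nlinarith [hτ.1], by nlinarith [hτ.2]⟩, ?_⟩
  have h2 : uT (fun z => f (ε * z)) τ = fun z => uT f (ε * τ) (ε * z) := by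
    ext z
    exact uT_scale hf hε τ z
  rw [h2] at h1
  rw [← lintegral_fderiv_scale (uT f (ε * τ)) hε, ← lintegral_fderiv_scale f hε]
  calc ENNReal.ofReal ε * ∫⁻ z, ‖fderiv ℝ (fun z => uT f (ε * τ) (ε * z)) z‖ₑ
      ≤ ENNReal.ofReal ε * (C * ∫⁻ z, ‖fderiv ℝ (fun z => f (ε * z)) z‖ₑ) := by gcongr
    _ = C * (ENNReal.ofReal ε * ∫⁻ z, ‖fderiv ℝ (fun z => f (ε * z)) z‖ₑ) := by ring

/-! ### the smooth absolute value -/

/-- `√(t²+δ²) - δ` -/
noncomputable def sabs (δ t : ℝ) : ℝ := Real.sqrt (t ^ 2 + δ ^ 2) - δ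

theorem sabs_nonneg {δ : ℝ} (hδ : 0 < δ) (t : ℝ) : 0 ≤ sabs δ t := by
  unfold sabs
  have : δ ≤ Real.sqrt (t ^ 2 + δ ^ 2) := Real.le_sqrt_of_sq_le (by nlinarith [sq_nonneg t])
  linarith

theorem sabs_le {δ : ℝ} (_hδ : 0 < δ) (t : ℝ) : sabs δ t ≤ |t| := by
  unfold sabs
  have : Real.sqrt (t ^ 2 + δ ^ 2) ≤ |t| + δ := by
    apply Real.sqrt_le_iff.mpr
    constructor
    · positivity
    · nlinarith [abs_nonneg t, sq_abs t]
  linarith

theorem le_sabs {δ : ℝ} (_hδ : 0 < δ) (t : ℝ) : |t| - δ ≤ sabs δ t := by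
  unfold sabs
  have : |t| ≤ Real.sqrt (t ^ 2 + δ ^ 2) := by
    apply Real.le_sqrt_of_sq_le
    rw [sq_abs]
    nlinarith [sq_nonneg δ]
  linarith

theorem hasDerivAt_sabs {δ : ℝ} (hδ : 0 < δ) (t : ℝ) :
    HasDerivAt (sabs δ) (t / Real.sqrt (t ^ 2 + δ ^ 2)) t := by
  have hpos : 0 < t ^ 2 + δ ^ 2 := by positivity
  have h1 : HasDerivAt (fun t : ℝ => t ^ 2 + δ ^ 2) (2 * t) t := by
    have := (hasDerivAt_pow 2 t).add_const (δ ^ 2)
    simpa using this
  have h2 := (h1.sqrt hpos.ne').sub_const δ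
  have h3 : 2 * t / (2 * Real.sqrt (t ^ 2 + δ ^ 2)) = t / Real.sqrt (t ^ 2 + δ ^ 2) := by
    rw [mul_div_mul_left _ _ (by norm_num)]
  rw [h3] at h2
  exact h2

theorem abs_deriv_sabs_le {δ : ℝ} (hδ : 0 < δ) (t : ℝ) :
    |t / Real.sqrt (t ^ 2 + δ ^ 2)| ≤ 1 := by
  have hpos : 0 < Real.sqrt (t ^ 2 + δ ^ 2) := Real.sqrt_pos.mpr (by positivity)
  rw [abs_div, abs_of_pos hpos, div_le_one hpos]
  apply Real.le_sqrt_of_sq_le
  rw [sq_abs]
  nlinarith [sq_nonneg δ]

theorem nice_sabs {f : ℂ → ℝ} (hf : Nice f) {δ : ℝ} (hδ : 0 < δ) : Nice (fun z => sabs δ (f z)) := by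
  constructor
  · have h1 : ContDiff ℝ 1 (fun z => f z ^ 2 + δ ^ 2) := (hf.1.pow 2).add contDiff_const
    exact (h1.sqrt (fun z => by positivity)).sub contDiff_const
  · apply hf.2.comp_left (g := sabs δ)
    unfold sabs
    rw [zero_pow (by norm_num), zero_add, Real.sqrt_sq hδ.le, sub_self]

theorem enorm_fderiv_sabs_le {f : ℂ → ℝ} (hf : Nice f) {δ : ℝ} (hδ : 0 < δ) (z : ℂ) :
    ‖fderiv ℝ (fun z => sabs δ (f z)) z‖ₑ ≤ ‖fderiv ℝ f z‖ₑ := by
  have h1 := (hasDerivAt_sabs hδ (f z)).comp_hasFDerivAt z (hf.differentiable z).hasFDerivAt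
  have h2 : fderiv ℝ (fun z => sabs δ (f z)) z =
      (f z / Real.sqrt (f z ^ 2 + δ ^ 2)) • fderiv ℝ f z := h1.fderiv
  rw [h2, ← ofReal_norm, ← ofReal_norm]
  apply ENNReal.ofReal_le_ofReal
  rw [norm_smul, Real.norm_eq_abs]
  have := mul_le_mul_of_nonneg_right (abs_deriv_sabs_le hδ (f z)) (norm_nonneg (fderiv ℝ f z))
  linarith

/-! ### the limit -/

theorem continuous_abs_comp {f : ℂ → ℝ} (hf : Nice f) : Continuous (fun w => |f w|) :=
  hf.continuous.abs

theorem bddAbove_Mz {f : ℂ → ℝ} (hf : Nice f) (z : ℂ) :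
    BddAbove ((fun r : ℝ => A (fun w => |f w|) r z) '' Ici 0) := by
  obtain ⟨K, hK0, hK⟩ := hf.exists_bound
  refine ⟨K, ?_⟩
  rintro _ ⟨r, _, rfl⟩
  apply A_le_of_le (continuous_abs_comp hf)
  intro ξ _
  exact hK _

theorem tendsto_uT {f : ℂ → ℝ} (hf : Nice f) (z : ℂ) (δ τ : ℕ → ℝ) (hδ : ∀ n, 0 < δ n)
    (hτ : ∀ n, 0 < τ n) (hδ' : Tendsto δ atTop (𝓝 0)) (hτ' : Tendsto τ atTop (𝓝 0)) :
    Tendsto (fun n => uT (fun w => sabs (δ n) (f w)) (τ n) z) atTop
      (𝓝 (sSup ((fun r : ℝ => A (fun w => |f w|) r z) '' Ici 0))) := by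
  set M : ℝ := sSup ((fun r : ℝ => A (fun w => |f w|) r z) '' Ici 0) with hM
  have hAM : ∀ r, 0 ≤ r → A (fun w => |f w|) r z ≤ M := fun r hr =>
    le_csSup (bddAbove_Mz hf z) ⟨r, hr, rfl⟩
  have hcs : ∀ n, Continuous (fun w => sabs (δ n) (f w)) := fun n =>
    (nice_sabs hf (hδ n)).continuous
  -- comparison of averages
  have hA1 : ∀ n r, A (fun w => sabs (δ n) (f w)) r z ≤ A (fun w => |f w|) r z := by
    intro n r
    unfold A
    apply mul_le_mul_of_nonneg_left _ (by positivity)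
    apply setIntegral_mono
    · exact integrableOn_disc ((hcs n).comp (by fun_prop))
    · exact integrableOn_disc ((continuous_abs_comp hf).comp (by fun_prop))
    · intro ξ
      exact sabs_le (hδ n) _
  have hA2 : ∀ n r, A (fun w => |f w|) r z - δ n ≤ A (fun w => sabs (δ n) (f w)) r z := by
    intro n r
    have hc1 : Continuous (fun ξ : ℂ => |f (z + r * ξ)|) :=
      (hf.continuous.comp (by fun_prop : Continuous fun ξ : ℂ => z + r * ξ)).abs
    have h1 : A (fun w => |f w|) r z - δ n =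
        (1 / Real.pi) * ∫ ξ in ball (0 : ℂ) 1, (|f (z + r * ξ)| - δ n) := by
      rw [integral_sub (integrableOn_disc hc1) (integrableOn_disc continuous_const), mul_sub,
        disc_const]
      rfl
    rw [h1]
    unfold A
    apply mul_le_mul_of_nonneg_left _ (by positivity)
    apply setIntegral_mono
    · exact integrableOn_disc (hc1.sub continuous_const)
    · exact integrableOn_disc ((hcs n).comp (by fun_prop))
    · intro ξ
      exact le_sabs (hδ n) _
  have hup : ∀ n, uT (fun w => sabs (δ n) (f w)) (τ n) z ≤ M := by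
    intro n
    apply uT_le
    · have h1 := hAM 0 le_rfl
      rw [A_zero] at h1
      exact (sabs_le (hδ n) _).trans h1
    · intro r hr
      exact (hA1 n r).trans (hAM r ((hτ n).le.trans hr))
  rw [tendsto_order]
  constructor
  · intro a ha
    obtain ⟨_, ⟨r, hr, rfl⟩, har⟩ := exists_lt_of_lt_csSup
      ((nonempty_Ici (a := (0 : ℝ))).image _) ha
    simp only at har
    have hr' : (0 : ℝ) ≤ r := hr
    have hlim : ∀ᶠ n in atTop, δ n < A (fun w => |f w|) r z - a :=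
      hδ'.eventually (gt_mem_nhds (sub_pos.mpr har))
    rcases hr'.eq_or_lt with h0 | hpos
    · filter_upwards [hlim] with n hn
      rw [← h0, A_zero] at hn
      have h1 := le_uT (fun w => sabs (δ n) (f w)) (τ n) z
      have h2 := le_sabs (hδ n) (f z)
      linarith
    · filter_upwards [hlim, hτ'.eventually (gt_mem_nhds hpos)] with n hn hτn
      have h1 := A_le_uT (nice_sabs hf (hδ n)) hτn.le z
      have h2 := hA2 n r
      linarith
  · intro a ha
    exact Eventually.of_forall fun n => lt_of_le_of_lt (hup n) ha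

theorem core2_of_core1 {C : ℝ≥0} (h : Core1 C) {f : ℂ → ℝ} (hf : Nice f) :
    ∃ W : ℝ → ℝ≥0∞, Measurable W ∧
      (∀ y, eVariationOn (fun s : ℝ => sSup ((fun r : ℝ => A (fun w => |f w|) r ⟨s, y⟩) '' Ici 0))
        univ ≤ W y) ∧
      ∫⁻ y, W y ≤ C * ∫⁻ z, ‖fderiv ℝ f z‖ₑ := by
  set δ : ℕ → ℝ := fun n => 1 / ((n : ℝ) + 1) with hδdef
  have hδ : ∀ n, 0 < δ n := fun n => by rw [hδdef]; positivity
  have hδ' : Tendsto δ atTop (𝓝 0) := tendsto_one_div_add_atTop_nhds_zero_nat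
  choose τ hτ hτint using fun n => h.scale (nice_sabs hf (hδ n))
    (fun z => sabs_nonneg (hδ n) (f z)) (hδ n)
  have hτ0 : ∀ n, 0 < τ n := fun n => (hδ n).trans_le (hτ n).1
  have hτ' : Tendsto τ atTop (𝓝 0) := by
    have h2 : Tendsto (fun n => 2 * δ n) atTop (𝓝 0) := by simpa using hδ'.const_mul 2
    exact tendsto_of_tendsto_of_tendsto_of_le_of_le tendsto_const_nhds h2
      (fun n => (hτ0 n).le) (fun n => (hτ n).2)
  set u : ℕ → ℂ → ℝ := fun n => uT (fun w => sabs (δ n) (f w)) (τ n) with hu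
  have hulip : ∀ n, ∃ K : ℝ≥0, LipschitzWith K (u n) := by
    intro n
    obtain ⟨K, hK⟩ := (nice_sabs hf (hδ n)).lipschitz
    exact ⟨K, lipschitz_uT (nice_sabs hf (hδ n)) hK _⟩
  have hucont : ∀ n, Continuous (u n) := fun n => by
    obtain ⟨K, hK⟩ := hulip n
    exact hK.continuous
  refine ⟨fun y => liminf (fun n => lineW (u n) y) atTop, ?_, ?_, ?_⟩
  · exact Measurable.liminf fun n => measurable_lineW (hucont n)
  · intro y
    refine le_of_forall_lt fun v hv => ?_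
    obtain ⟨v', hv1, hv2⟩ := exists_between hv
    refine lt_of_lt_of_le hv1 ?_
    apply le_liminf_of_le
    · isBoundedDefault
    have := eVariationOn.lowerSemicontinuous_aux (F := fun n => fun s : ℝ => u n ⟨s, y⟩) (p := atTop)
      (fun s _ => tendsto_uT hf ⟨s, y⟩ δ τ hδ hτ0 hδ' hτ') hv2
    filter_upwards [this] with n hn
    obtain ⟨K, hK⟩ := hulip n
    exact hn.le.trans (eVariationOn_le_lineW hK y)
  · calc ∫⁻ y, liminf (fun n => lineW (u n) y) atTop
        ≤ liminf (fun n => ∫⁻ y, lineW (u n) y) atTop :=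
          lintegral_liminf_le fun n => measurable_lineW (hucont n)
      _ ≤ C * ∫⁻ z, ‖fderiv ℝ f z‖ₑ := by
          apply liminf_le_of_frequently_le'
          apply Frequently.of_forall
          intro n
          obtain ⟨K, hK⟩ := hulip n
          refine (lintegral_lineW_le hK).trans ((hτint n).trans ?_)
          gcongr with z
          exact enorm_fderiv_sabs_le hf (hδ n) z

end Crest.Agent.R112
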