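import Crest.Agent.R112.Resc
import Crest.Agent.R112.Vec
import Crest.Agent.R112.TeleS

-- ▼ part R112/Assembly
section

/-!
Row 112 (S0147), module Assembly: the abstract averaging argument of section 4.
-/

set_option autoImplicit false

namespace Crest.Agent.R112

open MeasureTheory Set Filter Topology
open scoped NNReal ENNReal

theorem ofReal_abs_eq (a : ℝ) : ENNReal.ofReal |a| = ENNReal.ofReal a + ENNReal.ofReal (-a) := by
  rcases le_total 0 a with h | h
  · rw [abs_of_nonneg h, ENNReal.ofReal_of_nonpos (by linarith : -a ≤ 0), add_zero]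
  · rw [abs_of_nonpos h, ENNReal.ofReal_of_nonpos h, zero_add]

theorem enorm_eq_ofReal_norm (L : ℂ →L[ℝ] ℝ) : ‖L‖ₑ = ENNReal.ofReal ‖L‖ := (ofReal_norm L).symm

section
variable (f u V : ℂ → ℝ) (e : ℂ)

/-- the set where `V` realises `u` and `u` is not attached in direction `e` -/
def NN : Set ℂ := {x | u x = V x ∧ ¬ AttP e f u x}

/-- detached weight -/
noncomputable def WdetW (x : ℂ) : ℝ≥0∞ :=
  (NN f u V e).indicator (fun x => ENNReal.ofReal (fderiv ℝ V x e)) x +
    ENNReal.ofReal (-(fderiv ℝ V x e))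

/-- attached weight -/
noncomputable def aa (x : ℂ) : ℝ≥0∞ :=
  {x | AttP e f u x}.indicator (fun x => ENNReal.ofReal (fderiv ℝ u x e)) x

variable {f u V}

theorem measurableSet_NN (hf : Continuous f) (hu : Continuous u) (hV : Continuous V) :
    MeasurableSet (NN f u V e) :=
  (isClosed_eq hu hV).measurableSet.inter (measurableSet_attP e hf hu).compl

theorem measurable_WdetW (hf : Continuous f) (hu : Continuous u) (hV : Continuous V) :
    Measurable (WdetW f u V e) := by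
  have h1 : Measurable fun x => fderiv ℝ V x e := measurable_fderiv_apply_const ℝ _ _
  exact (h1.ennreal_ofReal.indicator (measurableSet_NN e hf hu hV)).add h1.neg.ennreal_ofReal

theorem measurable_aa (hf : Continuous f) (hu : Continuous u) : Measurable (aa f u e) := by
  have h1 : Measurable fun x => fderiv ℝ u x e := measurable_fderiv_apply_const ℝ _ _
  exact h1.ennreal_ofReal.indicator (measurableSet_attP e hf hu)

theorem abs_le_aa_WdetW {x : ℂ} (h1 : u x = V x) (h2 : fderiv ℝ u x = fderiv ℝ V x) :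
    ENNReal.ofReal |fderiv ℝ u x e| ≤ aa f u e x + WdetW f u V e x := by
  rw [ofReal_abs_eq]
  unfold aa WdetW
  by_cases h : AttP e f u x
  · rw [indicator_of_mem (show x ∈ {x | AttP e f u x} from h)]
    apply add_le_add le_rfl
    rw [h2]
    exact le_add_self
  · rw [indicator_of_notMem (show x ∉ {x | AttP e f u x} from h),
      indicator_of_mem (show x ∈ NN f u V e from ⟨h1, h⟩), zero_add, h2]

end

/-- the abstract averaging argument -/
theorem assembly {f u : ℂ → ℝ} (hf : Nice f) {K : ℝ≥0} (hfK : LipschitzWith K f)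
    (huK : LipschitzWith K u) {V : ℕ → ℂ → ℝ} (hVK : ∀ k, LipschitzWith K (V k))
    (hfu : ∀ x, f x ≤ u x) (hf0 : ∀ x, 0 ≤ f x)
    (hex : ∀ x, f x < u x → ∃ k, u x = V k x)
    {E : ℕ → ℂ} (hE : ∀ n, ‖E n‖ = 1)
    {G : ℕ → ℕ → Set ℂ} (hG : ∀ k n, MeasurableSet (G k n))
    (hV5 : ∀ k x₀ (L : ℂ →L[ℝ] ℝ), ENNReal.ofReal ‖L‖ ≤
      3 * ∑ n ∈ Finset.range 16, (G k n).indicator (fun _ => ENNReal.ofReal |L (E n)|) x₀)
    {t : ℕ → ℝ} (ht : ∀ k, 0 < t k) {J : ℕ → ℕ → ℂ → ℝ≥0∞}
    (hloc : ∀ k n x₀, x₀ ∈ G k n →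
      ∫⁻ x in Metric.ball x₀ (t k), WdetW f u (V k) (E n) x ≤ J k n x₀) :
    ∫⁻ x, ‖fderiv ℝ u x‖ₑ ≤ 49 * (∫⁻ x, ‖fderiv ℝ f x‖ₑ) +
      ∑' k, (volume (Metric.ball (0 : ℂ) (t k)))⁻¹ *
        (3 * ∑ n ∈ Finset.range 16, ∫⁻ x₀ in G k n, J k n x₀) := by
  have hfc := hfK.continuous
  have huc := huK.continuous
  have hVc : ∀ k, Continuous (V k) := fun k => (hVK k).continuous
  set c : ℕ → ℝ≥0∞ := fun k => (volume (Metric.ball (0 : ℂ) (t k)))⁻¹ with hc
  -- the kernel
  set P : ℕ → ℕ → ℂ × ℂ → ℝ≥0∞ := fun k n p =>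
    {p : ℂ × ℂ | p.2 ∈ G k n ∧ dist p.1 p.2 < t k}.indicator (fun p => WdetW f u (V k) (E n) p.1) p
    with hP
  have hPset : ∀ k n, MeasurableSet {p : ℂ × ℂ | p.2 ∈ G k n ∧ dist p.1 p.2 < t k} := by
    intro k n
    have h1 : MeasurableSet {p : ℂ × ℂ | dist p.1 p.2 < t k} :=
      (isOpen_lt (by fun_prop) continuous_const).measurableSet
    exact (measurable_snd (hG k n)).inter h1
  have hPm : ∀ k n, Measurable (P k n) := fun k n =>
    ((measurable_WdetW (E n) hfc huc (hVc k)).comp measurable_fst).indicator (hPset k n)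
  have hPm' : ∀ k n, Measurable fun x => ∫⁻ x₀, P k n (x, x₀) := fun k n =>
    (hPm k n).lintegral_prod_right'
  -- pointwise
  have hpt : ∀ᵐ x, ‖fderiv ℝ u x‖ₑ ≤ ‖fderiv ℝ f x‖ₑ +
      3 * ∑ n ∈ Finset.range 16, aa f u (E n) x +
      ∑' k, c k * (3 * ∑ n ∈ Finset.range 16, ∫⁻ x₀, P k n (x, x₀)) := by
    have hall : ∀ᵐ x, ∀ k, u x = V k x → fderiv ℝ u x = fderiv ℝ (V k) x := by
      rw [ae_all_iff]
      intro k
      exact ae_fderiv_eq_of_eqOn huK (hVK k)
    filter_upwards [hall, ae_fderiv_eq_of_eqOn huK hfK] with x h1 h2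
    rcases (hfu x).eq_or_lt with h | h
    · rw [h2 h.symm, add_assoc]
      exact le_self_add
    · obtain ⟨k, hk⟩ := hex x h
      have hd := h1 k hk
      set L := fderiv ℝ u x with hL
      have hx0 : ∀ x₀ ∈ Metric.ball x (t k), ENNReal.ofReal ‖L‖ ≤
          3 * ∑ n ∈ Finset.range 16, aa f u (E n) x +
          3 * ∑ n ∈ Finset.range 16, P k n (x, x₀) := by
        intro x₀ hx₀
        refine (hV5 k x₀ L).trans ?_
        rw [← mul_add, ← Finset.sum_add_distrib]
        gcongr with n _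
        by_cases hg : x₀ ∈ G k n
        · rw [indicator_of_mem hg]
          refine (abs_le_aa_WdetW (f := f) (E n) hk hd).trans ?_
          have hmem : (x, x₀) ∈ {p : ℂ × ℂ | p.2 ∈ G k n ∧ dist p.1 p.2 < t k} := by
            refine ⟨hg, ?_⟩
            rw [dist_comm]; exact hx₀
          have : P k n (x, x₀) = WdetW f u (V k) (E n) x := by
            rw [hP]; exact indicator_of_mem hmem _
          rw [this]
        · rw [indicator_of_notMem hg]
          exact bot_le
      have hvol : volume (Metric.ball x (t k)) = volume (Metric.ball (0 : ℂ) (t k)) :=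
        Measure.addHaar_ball_center _ _ _
      have hvpos : volume (Metric.ball (0 : ℂ) (t k)) ≠ 0 :=
        (Metric.measure_ball_pos _ _ (ht k)).ne'
      have hvfin : volume (Metric.ball (0 : ℂ) (t k)) ≠ ⊤ := measure_ball_lt_top.ne
      have hkk : ENNReal.ofReal ‖L‖ ≤ 3 * ∑ n ∈ Finset.range 16, aa f u (E n) x +
          c k * (3 * ∑ n ∈ Finset.range 16, ∫⁻ x₀, P k n (x, x₀)) := by
        have hcv : c k * volume (Metric.ball x (t k)) = 1 := by
          rw [hvol]; exact ENNReal.inv_mul_cancel hvpos hvfin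
        calc ENNReal.ofReal ‖L‖ = c k * ∫⁻ _x₀ in Metric.ball x (t k), ENNReal.ofReal ‖L‖ := by
              rw [setLIntegral_const, mul_left_comm, hcv, mul_one]
          _ ≤ c k * ∫⁻ x₀ in Metric.ball x (t k),
              (3 * ∑ n ∈ Finset.range 16, aa f u (E n) x +
                3 * ∑ n ∈ Finset.range 16, P k n (x, x₀)) := by
              exact mul_le_mul_right (setLIntegral_mono' measurableSet_ball hx0) _
          _ = 3 * ∑ n ∈ Finset.range 16, aa f u (E n) x + c k *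
              ∫⁻ x₀ in Metric.ball x (t k), 3 * ∑ n ∈ Finset.range 16, P k n (x, x₀) := by
              rw [lintegral_add_left measurable_const, setLIntegral_const, mul_add, mul_left_comm,
                hcv, mul_one]
          _ ≤ 3 * ∑ n ∈ Finset.range 16, aa f u (E n) x + c k *
              ∫⁻ x₀, 3 * ∑ n ∈ Finset.range 16, P k n (x, x₀) := by
              gcongr
              exact Measure.restrict_le_self
          _ = _ := by
              have hsec : ∀ n, Measurable fun x₀ => P k n (x, x₀) := fun n =>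
                (hPm k n).comp measurable_prodMk_left
              rw [lintegral_const_mul _ (Finset.measurable_fun_sum _ fun n _ => hsec n),
                lintegral_finsetSum _ fun n _ => hsec n]
      rw [enorm_eq_ofReal_norm]
      refine hkk.trans ?_
      rw [add_assoc]
      refine le_trans ?_ le_add_self
      gcongr
      exact ENNReal.le_tsum k
  have hA : ∀ n, ∫⁻ x, aa f u (E n) x ≤ ∫⁻ x, ‖fderiv ℝ f x‖ₑ := by
    intro n
    have hm := measurableSet_attP (E n) hfc huc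
    have : ∫⁻ x, aa f u (E n) x =
        ∫⁻ x in {x | AttP (E n) f u x}, ENNReal.ofReal (fderiv ℝ u x (E n)) :=
      lintegral_indicator hm _
    rw [this]
    exact lint_attP (hE n) hf hfu hf0 hfK huK
  have hB : ∀ k n, ∫⁻ x, ∫⁻ x₀, P k n (x, x₀) ≤ ∫⁻ x₀ in G k n, J k n x₀ := by
    intro k n
    have hswap : ∫⁻ x, ∫⁻ x₀, P k n (x, x₀) = ∫⁻ x₀, ∫⁻ x, P k n (x, x₀) :=
      lintegral_lintegral_swap (hPm k n).aemeasurable
    rw [hswap, ← lintegral_indicator (hG k n)]
    apply lintegral_mono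
    intro x₀
    show ∫⁻ x, P k n (x, x₀) ≤ (G k n).indicator (J k n) x₀
    by_cases hg : x₀ ∈ G k n
    · rw [indicator_of_mem hg]
      refine le_trans (le_of_eq ?_) (hloc k n x₀ hg)
      rw [← lintegral_indicator measurableSet_ball]
      congr 1
      ext x
      by_cases hx : x ∈ Metric.ball x₀ (t k)
      · rw [indicator_of_mem hx]
        have hmem : (x, x₀) ∈ {p : ℂ × ℂ | p.2 ∈ G k n ∧ dist p.1 p.2 < t k} := ⟨hg, hx⟩
        rw [hP]; exact indicator_of_mem hmem _
      · rw [indicator_of_notMem hx]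
        have hmem : (x, x₀) ∉ {p : ℂ × ℂ | p.2 ∈ G k n ∧ dist p.1 p.2 < t k} :=
          fun h => hx h.2
        rw [hP]; exact indicator_of_notMem hmem _
    · have : ∀ x, P k n (x, x₀) = 0 := by
        intro x
        have hmem : (x, x₀) ∉ {p : ℂ × ℂ | p.2 ∈ G k n ∧ dist p.1 p.2 < t k} :=
          fun h => hg h.1
        rw [hP]; exact indicator_of_notMem hmem _
      simp only [this, lintegral_zero]
      exact bot_le
  -- integrate
  have hm1 : Measurable fun x => ‖fderiv ℝ f x‖ₑ := (measurable_fderiv ℝ f).enorm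
  have hm2 : Measurable fun x => 3 * ∑ n ∈ Finset.range 16, aa f u (E n) x :=
    (Finset.measurable_fun_sum _ fun n _ => measurable_aa (E n) hfc huc).const_mul _
  have hm12 : Measurable fun x => ‖fderiv ℝ f x‖ₑ +
      3 * ∑ n ∈ Finset.range 16, aa f u (E n) x := hm1.add hm2
  have hm3 : ∀ k, Measurable fun x => c k *
      (3 * ∑ n ∈ Finset.range 16, ∫⁻ x₀, P k n (x, x₀)) := fun k =>
    ((Finset.measurable_fun_sum _ fun n _ => hPm' k n).const_mul _).const_mul _
  calc ∫⁻ x, ‖fderiv ℝ u x‖ₑ ≤ ∫⁻ x, (‖fderiv ℝ f x‖ₑ +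
      3 * ∑ n ∈ Finset.range 16, aa f u (E n) x +
      ∑' k, c k * (3 * ∑ n ∈ Finset.range 16, ∫⁻ x₀, P k n (x, x₀))) := lintegral_mono_ae hpt
    _ = (∫⁻ x, ‖fderiv ℝ f x‖ₑ) + 3 * ∑ n ∈ Finset.range 16, (∫⁻ x, aa f u (E n) x) +
      ∑' k, c k * (3 * ∑ n ∈ Finset.range 16, ∫⁻ x, ∫⁻ x₀, P k n (x, x₀)) := by
        rw [lintegral_add_left hm12, lintegral_add_left hm1,
          lintegral_const_mul _ (Finset.measurable_fun_sum _ fun n _ =>
            measurable_aa (E n) hfc huc),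
          lintegral_finsetSum _ fun n _ => measurable_aa (E n) hfc huc,
          lintegral_tsum fun k => (hm3 k).aemeasurable]
        congr 2
        ext k
        rw [lintegral_const_mul _ ((Finset.measurable_fun_sum _ fun n _ =>
            hPm' k n).const_mul _), lintegral_const_mul _ (Finset.measurable_fun_sum _ fun n _ =>
            hPm' k n), lintegral_finsetSum _ fun n _ => hPm' k n]
    _ ≤ (∫⁻ x, ‖fderiv ℝ f x‖ₑ) + 3 * ∑ n ∈ Finset.range 16, (∫⁻ x, ‖fderiv ℝ f x‖ₑ) +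
      ∑' k, c k * (3 * ∑ n ∈ Finset.range 16, ∫⁻ x₀ in G k n, J k n x₀) := by
        refine add_le_add (add_le_add le_rfl ?_) (ENNReal.tsum_le_tsum fun k => ?_)
        · exact mul_le_mul_right (Finset.sum_le_sum fun n _ => hA n) 3
        · exact mul_le_mul_right (mul_le_mul_right (Finset.sum_le_sum fun n _ => hB k n) 3) _
    _ = _ := by
        congr 1
        rw [Finset.sum_const, Finset.card_range, nsmul_eq_mul, ← mul_assoc]
        nth_rewrite 1 [← one_mul (∫⁻ x, ‖fderiv ℝ f x‖ₑ)]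
        rw [← add_mul]
        congr 1
        norm_num

end Crest.Agent.R112
end

-- ▼ part R112/Tele
section

/-!
# R112: iterated disc averages, total variations `TT` and defects `DD`
-/

set_option autoImplicit false

open MeasureTheory Set Metric Filter Topology
open scoped ENNReal NNReal

namespace Crest.Agent.R112

/-- the radii `4^(j-6)` -/
noncomputable def rad (j : ℕ) : ℝ := (4 : ℝ) ^ ((j : ℤ) - 6)

theorem rad_pos (j : ℕ) : 0 < rad j := by unfold rad; positivity

theorem rad_succ (j : ℕ) : rad (j + 1) = 4 * rad j := by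
  unfold rad
  push_cast
  rw [show ((j : ℤ) + 1 - 6) = ((j : ℤ) - 6) + 1 by ring, zpow_add₀ (by norm_num), zpow_one,
    mul_comm]

theorem rad_add_nine (N : ℕ) : rad (N + 9) = (4 : ℝ) ^ (N + 3) := by
  unfold rad
  rw [show (((N + 9 : ℕ) : ℤ) - 6) = ((N + 3 : ℕ) : ℤ) by push_cast; ring, zpow_natCast]

/-- the global chain of disc averages of `f` -/
noncomputable def fch (f : ℂ → ℝ) : ℕ → ℂ → ℝ
  | 0 => f
  | j + 1 => A (fch f j) (rad j)

/-- iterated disc averages of `h` with radii `rad i, …, rad (i + n - 1)` -/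
noncomputable def iterA (h : ℂ → ℝ) (i : ℕ) : ℕ → ℂ → ℝ
  | 0 => h
  | n + 1 => A (iterA h i n) (rad (i + n))


theorem nice_fch {f : ℂ → ℝ} (hf : Nice f) (j : ℕ) : Nice (fch f j) := by
  induction j with
  | zero => exact hf
  | succ j ih => exact ih.A _

/-! ### disc averages of continuous compactly supported functions -/

/-- continuous and compactly supported -/
def Cc (h : ℂ → ℝ) : Prop := Continuous h ∧ HasCompactSupport h

theorem Cc.bound {h : ℂ → ℝ} (hh : Cc h) : ∃ K, ∀ x, ‖h x‖ ≤ K :=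
  hh.2.exists_bound_of_continuous hh.1

theorem Cc.integrable {h : ℂ → ℝ} (hh : Cc h) : Integrable h :=
  hh.1.integrable_of_hasCompactSupport hh.2

theorem Cc.A {h : ℂ → ℝ} (hh : Cc h) (r : ℝ) : Cc (A h r) := by
  constructor
  · unfold R112.A
    exact ((continuous_disc_avg hh.1 hh.bound).comp
      (Continuous.prodMk (continuous_const (y := r)) continuous_id)).const_smul (1 / Real.pi)
  · apply HasCompactSupport.intro (K := cthickening |r| (tsupport h)) hh.2.cthickening
    intro x hx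
    unfold R112.A
    rw [setIntegral_congr_fun (g := fun _ => (0 : ℝ)) measurableSet_ball]
    · simp
    · intro ξ hξ
      apply image_eq_zero_of_notMem_tsupport
      intro h
      apply hx
      apply mem_cthickening_of_dist_le x (x + r * ξ) _ _ h
      rw [dist_eq_norm]
      have hξ1 : ‖ξ‖ ≤ 1 := (mem_ball_zero_iff.mp hξ).le
      have : x - (x + r * ξ) = -(r * ξ) := by ring
      rw [this, norm_neg, norm_mul, Complex.norm_real, Real.norm_eq_abs]
      exact mul_le_of_le_one_right (abs_nonneg _) hξ1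

theorem Cc.iterA {h : ℂ → ℝ} (hh : Cc h) (i n : ℕ) : Cc (iterA h i n) := by
  induction n with
  | zero => exact hh
  | succ n ih => exact ih.A _

theorem Nice.cc {f : ℂ → ℝ} (hf : Nice f) : Cc f := ⟨hf.continuous, hf.2⟩

theorem Nice.cc_norm {f : ℂ → ℝ} (hf : Nice f) : Cc (fun z => ‖fderiv ℝ f z‖) :=
  ⟨hf.continuous_fderiv.norm, hf.hasCompactSupport_fderiv.norm⟩

theorem Nice.cc_apply {f : ℂ → ℝ} (hf : Nice f) (v : ℂ) : Cc (fun z => fderiv ℝ f z v) :=
  ⟨hf.continuous_fderiv.clm_apply continuous_const,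
    hf.hasCompactSupport_fderiv.comp_left (g := fun L : ℂ →L[ℝ] ℝ => L v) rfl⟩

theorem Nice.cc_bbe {f : ℂ → ℝ} (hf : Nice f) (e : ℂ) : Cc (fun z => bbe e (fderiv ℝ f z)) :=
  ⟨(continuous_bbe e).comp hf.continuous_fderiv,
    hf.hasCompactSupport_fderiv.comp_left (g := bbe e) (by simp [bbe])⟩

theorem Cc.const_mul {h : ℂ → ℝ} (hh : Cc h) (c : ℝ) : Cc (fun z => c * h z) :=
  ⟨hh.1.const_smul c, hh.2.comp_left (g := fun y => c * y) (mul_zero c)⟩

theorem Cc.sub {h k : ℂ → ℝ} (hh : Cc h) (hk : Cc k) : Cc (fun z => h z - k z) :=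
  ⟨hh.1.sub hk.1, hh.2.sub hk.2⟩

/-! ### algebra of `A` and `iterA` -/

theorem A_mono {h k : ℂ → ℝ} (hh : Continuous h) (hk : Continuous k) (hle : ∀ x, h x ≤ k x)
    (r : ℝ) (x : ℂ) : A h r x ≤ A k r x := by
  unfold A
  apply mul_le_mul_of_nonneg_left _ (by positivity)
  exact setIntegral_mono_on (integrableOn_disc (by fun_prop)) (integrableOn_disc (by fun_prop))
    measurableSet_ball fun ξ _ => hle _

theorem A_sub {h k : ℂ → ℝ} (hh : Continuous h) (hk : Continuous k) (r : ℝ) (x : ℂ) :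
    A (fun z => h z - k z) r x = A h r x - A k r x := by
  unfold A
  rw [integral_sub (integrableOn_disc (by fun_prop)) (integrableOn_disc (by fun_prop)), mul_sub]

theorem A_const_mul (h : ℂ → ℝ) (c : ℝ) (r : ℝ) (x : ℂ) :
    A (fun z => c * h z) r x = c * A h r x := by
  unfold A
  rw [integral_const_mul]
  ring

theorem iterA_mono {h k : ℂ → ℝ} (hh : Cc h) (hk : Cc k) (hle : ∀ x, h x ≤ k x) (i n : ℕ) :
    ∀ x, iterA h i n x ≤ iterA k i n x := by
  induction n with
  | zero => exact hle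
  | succ n ih => exact A_mono (hh.iterA i n).1 (hk.iterA i n).1 ih _

theorem iterA_nonneg {h : ℂ → ℝ} (hle : ∀ x, 0 ≤ h x) (i n : ℕ) : ∀ x, 0 ≤ iterA h i n x := by
  induction n with
  | zero => exact hle
  | succ n ih => exact A_nonneg ih _

theorem iterA_sub {h k : ℂ → ℝ} (hh : Cc h) (hk : Cc k) (i n : ℕ) :
    iterA (fun z => h z - k z) i n = fun x => iterA h i n x - iterA k i n x := by
  induction n with
  | zero => rfl
  | succ n ih =>
    rw [iterA, ih]
    funext x
    exact A_sub (hh.iterA i n).1 (hk.iterA i n).1 _ _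

theorem iterA_const_mul (h : ℂ → ℝ) (c : ℝ) (i n : ℕ) :
    iterA (fun z => c * h z) i n = fun x => c * iterA h i n x := by
  induction n with
  | zero => rfl
  | succ n ih =>
    rw [iterA, ih]
    funext x
    exact A_const_mul _ _ _ _

theorem iterA_fderiv {f : ℂ → ℝ} (hf : Nice f) (v : ℂ) (i n : ℕ) :
    iterA (fun z => fderiv ℝ (fch f i) z v) i n = fun x => fderiv ℝ (fch f (i + n)) x v := by
  induction n with
  | zero => rfl
  | succ n ih =>
    rw [iterA, ih, ← add_assoc, fch]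
    funext x
    rw [fderiv_A_apply (nice_fch hf (i + n))]
    rfl

/-! ### integrals -/

theorem integral_A {h : ℂ → ℝ} (hh : Cc h) (r : ℝ) : ∫ x, A h r x = ∫ x, h x := by
  unfold A
  rw [integral_const_mul]
  have hint : Integrable (Function.uncurry fun (x ξ : ℂ) => h (x + r * ξ))
      ((volume : Measure ℂ).prod (volume.restrict (ball (0 : ℂ) 1))) := by
    have hm : AEStronglyMeasurable (Function.uncurry fun (x ξ : ℂ) => h (x + r * ξ))
        ((volume : Measure ℂ).prod (volume.restrict (ball (0 : ℂ) 1))) := by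
      have h0 := hh.1
      exact (by fun_prop : Continuous (Function.uncurry fun (x ξ : ℂ) =>
        h (x + r * ξ))).aestronglyMeasurable
    rw [integrable_prod_iff' hm]
    constructor
    · exact Eventually.of_forall fun ξ => hh.integrable.comp_add_right (r * ξ)
    · have : (fun ξ : ℂ => ∫ x : ℂ, ‖Function.uncurry (fun (x ξ : ℂ) => h (x + r * ξ)) (x, ξ)‖) =
          fun _ => ∫ x : ℂ, ‖h x‖ := by
        funext ξ
        simp only [Function.uncurry]
        exact integral_add_right_eq_self (fun x => ‖h x‖) (r * ξ)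
      rw [this]
      exact integrableOn_disc continuous_const
  rw [integral_integral_swap hint]
  have : ∀ ξ : ℂ, ∫ x : ℂ, h (x + r * ξ) = ∫ x : ℂ, h x := fun ξ =>
    integral_add_right_eq_self h (r * ξ)
  simp only [this]
  exact disc_const _

theorem integral_iterA {h : ℂ → ℝ} (hh : Cc h) (i n : ℕ) :
    ∫ x, iterA h i n x = ∫ x, h x := by
  induction n with
  | zero => rfl
  | succ n ih =>
    rw [iterA, integral_A (hh.iterA i n), ih]

/-- one step of the kernel lower bound -/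
theorem ball_le_A {h : ℂ → ℝ} (hh : Continuous h) (h0 : ∀ x, 0 ≤ h x) {r : ℝ} (hr : 0 ≤ r)
    (s : ℝ) (x₀ : ℂ) : ∫ z in ball x₀ s, h z ≤ ∫ z in ball x₀ (s + r), A h r z := by
  unfold A
  rw [integral_const_mul]
  have hint : Integrable (Function.uncurry fun (x ξ : ℂ) => h (x + r * ξ))
      ((volume.restrict (ball x₀ (s + r))).prod (volume.restrict (ball (0 : ℂ) 1))) := by
    rw [Measure.prod_restrict]
    have hc : Continuous (Function.uncurry fun (x ξ : ℂ) => h (x + r * ξ)) := by fun_prop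
    exact (hc.continuousOn.integrableOn_compact ((isCompact_closedBall x₀ (s + r)).prod
      (isCompact_closedBall (0 : ℂ) 1))).mono_set
      (prod_mono ball_subset_closedBall ball_subset_closedBall)
  rw [integral_integral_swap hint, ← disc_const (∫ z in ball x₀ s, h z)]
  apply mul_le_mul_of_nonneg_left _ (by positivity)
  apply setIntegral_mono_on (integrableOn_disc continuous_const) _ measurableSet_ball
  · intro ξ hξ
    have h1 : ∫ x in ball x₀ (s + r), h (x + r * ξ) = ∫ z in ball (x₀ + r * ξ) (s + r), h z := by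
      have h3 : ball x₀ (s + r) = (fun z => z + r * ξ) ⁻¹' ball (x₀ + r * ξ) (s + r) := by
        ext z
        simp [mem_ball, dist_eq_norm]
      rw [h3]
      exact (measurePreserving_add_right volume (r * ξ)).setIntegral_preimage_emb
        (measurableEmbedding_addRight (r * ξ)) h _
    rw [h1]
    have hi : IntegrableOn h (ball (x₀ + r * ξ) (s + r)) :=
      (hh.continuousOn.integrableOn_compact (isCompact_closedBall _ _)).mono_set
        ball_subset_closedBall
    apply setIntegral_mono_set hi (Eventually.of_forall h0)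
    apply LE.le.eventuallyLE
    intro z hz
    rw [mem_ball] at hz ⊢
    have hξ1 : ‖(r : ℂ) * ξ‖ ≤ r := by
      rw [norm_mul, Complex.norm_real, Real.norm_eq_abs, abs_of_nonneg hr]
      exact mul_le_of_le_one_right hr (mem_ball_zero_iff.mp hξ).le
    calc dist z (x₀ + r * ξ) ≤ dist z x₀ + dist x₀ (x₀ + r * ξ) := dist_triangle _ _ _
      _ < s + r := by
        have : dist x₀ (x₀ + r * ξ) ≤ r := by
          rw [dist_eq_norm]
          have : x₀ - (x₀ + r * ξ) = -(r * ξ) := by ring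
          rw [this, norm_neg]
          exact hξ1
        linarith
  · exact hint.integral_prod_right

theorem sum_rad_le (i n : ℕ) : 3 * ∑ l ∈ Finset.range n, rad (i + l) ≤ rad (i + n) := by
  induction n with
  | zero => simpa using (rad_pos i).le
  | succ n ih =>
    rw [Finset.sum_range_succ, ← add_assoc, rad_succ]
    linarith

theorem ball_le_iterA {h : ℂ → ℝ} (hh : Cc h) (h0 : ∀ x, 0 ≤ h x) (i n : ℕ)
    (s : ℝ) (x₀ : ℂ) :
    ∫ z in ball x₀ s, h z ≤
      ∫ z in ball x₀ (s + ∑ l ∈ Finset.range n, rad (i + l)), iterA h i n z := by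
  induction n with
  | zero => simp [iterA]
  | succ n ih =>
    refine le_trans ih ?_
    rw [Finset.sum_range_succ, ← add_assoc]
    exact ball_le_A (hh.iterA i n).1 (iterA_nonneg h0 i n) (rad_pos _).le _ _

theorem iterA_lower {h : ℂ → ℝ} (hh : Cc h) (h0 : ∀ x, 0 ≤ h x) (i n : ℕ) {s : ℝ}
    (hs : 3 * s ≤ 2 * rad (i + n)) (x₀ : ℂ) :
    ∫ z in ball x₀ s, h z ≤ Real.pi * rad (i + n) ^ 2 * iterA h i (n + 1) x₀ := by
  refine le_trans (ball_le_iterA hh h0 i n s x₀) ?_
  rw [iterA, A_eq (rad_pos _)]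
  have hp := rad_pos (i + n)
  have hpi := Real.pi_pos
  rw [← mul_assoc, mul_one_div_cancel (by positivity), one_mul]
  have hi : IntegrableOn (iterA h i n) (ball x₀ (rad (i + n))) :=
    (hh.iterA i n).integrable.integrableOn
  apply setIntegral_mono_set hi (Eventually.of_forall (iterA_nonneg h0 i n))
  apply LE.le.eventuallyLE
  apply ball_subset_ball
  have := sum_rad_le i n
  linarith

/-- lower bound: the iterated disc averages with radii `rad j, …, rad (N+9) = 4^(N+3)` see the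
ball of radius `40·4^(N-1)` with density at least `1/(π (4^(N+3))^2)` -/
theorem chain_lower {h : ℂ → ℝ} (hh : Cc h) (h0 : ∀ x, 0 ≤ h x)
    {N j : ℕ} (hN : 1 ≤ N) (hj : j ≤ N) (x₀ : ℂ) :
    ∫ z in ball x₀ (40 * 4 ^ (N - 1)), h z ≤
      Real.pi * (4 ^ (N + 3)) ^ 2 * iterA h j (N + 10 - j) x₀ := by
  have h1 : N + 10 - j = (N + 9 - j) + 1 := by omega
  have h2 : j + (N + 9 - j) = N + 9 := by omega
  have h3 := iterA_lower hh h0 j (N + 9 - j) (s := 40 * 4 ^ (N - 1)) (by
    rw [h2, rad_add_nine]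
    have : (4 : ℝ) ^ (N + 3) = 4 ^ (N - 1) * 256 := by
      rw [show N + 3 = (N - 1) + 4 by omega, pow_add]
      norm_num
    rw [this]
    have : (0 : ℝ) < 4 ^ (N - 1) := by positivity
    linarith) x₀
  rw [h2, rad_add_nine] at h3
  rw [h1]
  exact h3

/-! ### total variations and defects -/

/-- total variation of the `j`-th average -/
noncomputable def TT (f : ℂ → ℝ) (j : ℕ) : ℝ := ∫ x, ‖fderiv ℝ (fch f j) x‖

/-- local defect -/
noncomputable def DD (f : ℂ → ℝ) (N j : ℕ) (x₀ : ℂ) : ℝ :=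
  iterA (fun z => ‖fderiv ℝ (fch f j) z‖) j (N + 10 - j) x₀ - ‖fderiv ℝ (fch f (N + 10)) x₀‖

theorem TT_nonneg (f : ℂ → ℝ) (j : ℕ) : 0 ≤ TT f j := integral_nonneg fun _ => norm_nonneg _

theorem TT_zero (f : ℂ → ℝ) : TT f 0 = ∫ x, ‖fderiv ℝ f x‖ := rfl

theorem exists_dual (L : ℂ →L[ℝ] ℝ) : ∃ φ : ℂ, ‖φ‖ = 1 ∧ L φ = ‖L‖ := by
  rcases eq_or_ne ‖L‖ 0 with h0 | h0
  · refine ⟨1, by simp, ?_⟩
    have : L = 0 := norm_eq_zero.mp h0
    rw [this]; simp
  · have hpos : 0 < ‖L‖ := lt_of_le_of_ne (norm_nonneg _) (Ne.symm h0)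
    have hn := clm_norm_sq L
    refine ⟨⟨L 1 / ‖L‖, L Complex.I / ‖L‖⟩, ?_, ?_⟩
    · rw [Complex.norm_eq_sqrt_sq_add_sq]
      simp only
      rw [div_pow, div_pow, ← add_div, ← hn, div_self (by positivity), Real.sqrt_one]
    · rw [clm_apply]
      simp only
      field_simp
      linarith

/-- Jensen for iterated averages of the gradient -/
theorem norm_fderiv_le_iterA {f : ℂ → ℝ} (hf : Nice f) (i n : ℕ) (x : ℂ) :
    ‖fderiv ℝ (fch f (i + n)) x‖ ≤ iterA (fun z => ‖fderiv ℝ (fch f i) z‖) i n x := by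
  obtain ⟨φ, hφ, h⟩ := exists_dual (fderiv ℝ (fch f (i + n)) x)
  rw [← h]
  have h1 := congrFun (iterA_fderiv hf φ i n) x
  rw [← h1]
  exact iterA_mono ((nice_fch hf i).cc_apply φ) ((nice_fch hf i).cc_norm)
    (fun z => (abs_le.mp (abs_apply_le _ hφ.le)).2) i n x

theorem TT_antitone {f : ℂ → ℝ} (hf : Nice f) : Antitone (TT f) := by
  apply antitone_nat_of_succ_le
  intro j
  have h1 := integral_iterA ((nice_fch hf j).cc_norm) j 1
  unfold TT
  rw [← h1]
  apply integral_mono ((nice_fch hf (j + 1)).cc_norm).integrable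
    (((nice_fch hf j).cc_norm).iterA j 1).integrable
  intro x
  exact norm_fderiv_le_iterA hf j 1 x

theorem DD_nonneg {f : ℂ → ℝ} (hf : Nice f) {N j : ℕ} (hj : j ≤ N + 10) (x₀ : ℂ) :
    0 ≤ DD f N j x₀ := by
  unfold DD
  have h := norm_fderiv_le_iterA hf j (N + 10 - j) x₀
  rw [show j + (N + 10 - j) = N + 10 by omega] at h
  linarith

theorem cc_DD {f : ℂ → ℝ} (hf : Nice f) (N j : ℕ) : Cc (DD f N j) :=
  (((nice_fch hf j).cc_norm).iterA j (N + 10 - j)).sub ((nice_fch hf (N + 10)).cc_norm)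

theorem continuous_DD {f : ℂ → ℝ} (hf : Nice f) (N j : ℕ) : Continuous (DD f N j) :=
  (cc_DD hf N j).1

theorem integrable_DD {f : ℂ → ℝ} (hf : Nice f) (N j : ℕ) : Integrable (DD f N j) :=
  (cc_DD hf N j).integrable

theorem integral_DD {f : ℂ → ℝ} (hf : Nice f) (N j : ℕ) :
    ∫ x₀, DD f N j x₀ = TT f j - TT f (N + 10) := by
  unfold DD
  rw [integral_sub (((nice_fch hf j).cc_norm).iterA j (N + 10 - j)).integrable
    ((nice_fch hf (N + 10)).cc_norm).integrable, integral_iterA ((nice_fch hf j).cc_norm)]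
  rfl

/-- the bad mass in a good direction is bounded by the defect -/
theorem bad_le_DD {f : ℂ → ℝ} (hf : Nice f) {N j : ℕ} (hN : 1 ≤ N) (hj : j ≤ N) {x₀ e : ℂ}
    (he : ‖e‖ = 1) (hgood : 23 / 25 * ‖fderiv ℝ (fch f (N + 10)) x₀‖ ≤
      fderiv ℝ (fch f (N + 10)) x₀ e) :
    ∫ z in ball x₀ (40 * 4 ^ (N - 1)), bbe e (fderiv ℝ (fch f j) z) ≤
      25 * Real.pi * (4 ^ (N + 3)) ^ 2 * DD f N j x₀ := by
  obtain ⟨φ, hφ, hG, hb⟩ := exists_dir he hgood
  refine le_trans (chain_lower ((nice_fch hf j).cc_bbe e) (fun _ => bbe_nonneg _ _) hN hj x₀) ?_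
  have hcc : Cc (fun z => 25 * (‖fderiv ℝ (fch f j) z‖ - fderiv ℝ (fch f j) z φ)) :=
    (((nice_fch hf j).cc_norm).sub ((nice_fch hf j).cc_apply φ)).const_mul 25
  have h1 := iterA_mono ((nice_fch hf j).cc_bbe e) hcc (fun z => hb _) j (N + 10 - j) x₀
  rw [iterA_const_mul, iterA_sub ((nice_fch hf j).cc_norm) ((nice_fch hf j).cc_apply φ),
    iterA_fderiv hf, show j + (N + 10 - j) = N + 10 by omega] at h1
  simp only at h1
  rw [hG] at h1
  have h2 : iterA (fun z => bbe e (fderiv ℝ (fch f j) z)) j (N + 10 - j) x₀ ≤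
      25 * DD f N j x₀ := h1
  have hpi := Real.pi_pos
  calc Real.pi * (4 ^ (N + 3)) ^ 2 * iterA (fun z => bbe e (fderiv ℝ (fch f j) z)) j
        (N + 10 - j) x₀ ≤ Real.pi * (4 ^ (N + 3)) ^ 2 * (25 * DD f N j x₀) := by gcongr
    _ = _ := by ring

end Crest.Agent.R112
private theorem rz_869b81dd3c : type_of% @_root_.Crest.Agent.R112.fch.eq_def := @_root_.Crest.Agent.R112.fch.eq_def -- L30
private theorem rz_37347631b3 : type_of% @_root_.Crest.Agent.R112.fch.eq_1 := @_root_.Crest.Agent.R112.fch.eq_1 -- L30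
private theorem rz_2bca1579a4 : type_of% @_root_.Crest.Agent.R112.iterA.eq_def := @_root_.Crest.Agent.R112.iterA.eq_def -- L35
private theorem rz_a1133d6b51 : type_of% @_root_.Crest.Agent.R112.iterA.eq_1 := @_root_.Crest.Agent.R112.iterA.eq_1 -- L35
end

-- ▼ part R112/Global

/-!
Row 112 (S0147), module Global: section 4, choice of `τ` (abstract in the truncated maximal
function and the 16 directions).
-/

set_option autoImplicit false

namespace Crest.Agent.R112

open MeasureTheory Set Filter Topology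
open scoped NNReal ENNReal

/-- good centres for the direction `e` at scale `4^k` -/
def GG (f : ℂ → ℝ) (e : ℂ) (k : ℕ) : Set ℂ :=
  {x₀ | 23 / 25 * ‖fderiv ℝ (fch f (k + 11)) x₀‖ ≤ fderiv ℝ (fch f (k + 11)) x₀ e}

theorem measurableSet_GG {f : ℂ → ℝ} (hf : Nice f) (e : ℂ) (k : ℕ) : MeasurableSet (GG f e k) := by
  have h := (nice_fch hf (k + 11)).continuous_fderiv
  apply IsClosed.measurableSet
  apply isClosed_le <;> fun_prop

/-- `4^k Q` at the centre `x₀`, direction `e` -/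
noncomputable def JJ (f : ℂ → ℝ) (e : ℂ) (k : ℕ) (τ : ℝ) (x₀ : ℂ) : ℝ≥0∞ :=
  ENNReal.ofReal ((4 : ℝ) ^ k) * Q τ (fun z => f (x₀ + ((4 : ℝ) ^ k : ℝ) * e * z))

theorem measurable_JJ {f : ℂ → ℝ} (hf : Nice f) {e : ℂ} (he : ‖e‖ = 1) (k : ℕ) :
    Measurable fun p : ℝ × ℂ => JJ f e k p.1 p.2 :=
  (measurable_Q hf he).const_mul _

/-- the statement of the unit scale theorem -/
def UnitBound (C : ℝ≥0) : Prop :=
  ∀ f, Nice f → ∀ N : ℕ, 1 ≤ N → ∫⁻ τ in Icc (1 : ℝ) 2, Q τ f ≤
    C * ∑ j ∈ Finset.range (N + 1), (3 / 4 : ENNReal) ^ (N - j) *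
      ∫⁻ z in Metric.ball (0 : ℂ) 40, ENNReal.ofReal (bb (fderiv ℝ (chain f N j) z))

/-- bound for one good centre -/
theorem lint_JJ_le {C : ℝ≥0} (hC : UnitBound C) {f : ℂ → ℝ} (hf : Nice f) {e : ℂ}
    (he : ‖e‖ = 1) (k : ℕ) {x₀ : ℂ} (hx₀ : x₀ ∈ GG f e k) :
    ∫⁻ τ in Icc (1 : ℝ) 2, JJ f e k τ x₀ ≤
      C * ∑ j ∈ Finset.range (k + 2), (3 / 4 : ENNReal) ^ (k + 1 - j) *
        ENNReal.ofReal (25 * Real.pi * (4 ^ (k + 4)) ^ 2 * DD f (k + 1) j x₀) := by
  have ht : (0 : ℝ) < 4 ^ k := by positivity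
  unfold JJ
  rw [lintegral_const_mul' _ _ ENNReal.ofReal_ne_top]
  have h1 := hC _ (nice_aff hf x₀ (te_ne he ht)) (k + 1) (by omega)
  calc ENNReal.ofReal ((4 : ℝ) ^ k) * ∫⁻ τ in Icc (1 : ℝ) 2,
        Q τ (fun z => f (x₀ + ((4 : ℝ) ^ k : ℝ) * e * z))
      ≤ ENNReal.ofReal ((4 : ℝ) ^ k) * (C * ∑ j ∈ Finset.range (k + 1 + 1),
        (3 / 4 : ENNReal) ^ (k + 1 - j) *
        ∫⁻ z in Metric.ball (0 : ℂ) 40, ENNReal.ofReal (bb (fderiv ℝ
          (chain (fun z => f (x₀ + ((4 : ℝ) ^ k : ℝ) * e * z)) (k + 1) j) z))) := by gcongr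
    _ = C * ∑ j ∈ Finset.range (k + 2), (3 / 4 : ENNReal) ^ (k + 1 - j) *
        (ENNReal.ofReal ((4 : ℝ) ^ k) *
        ∫⁻ z in Metric.ball (0 : ℂ) 40, ENNReal.ofReal (bb (fderiv ℝ
          (chain (fun z => f (x₀ + ((4 : ℝ) ^ k : ℝ) * e * z)) (k + 1) j) z))) := by
        rw [mul_left_comm, Finset.mul_sum]
        congr 1
        apply Finset.sum_congr rfl
        intro j _
        rw [mul_left_comm]
    _ ≤ _ := by
        refine mul_le_mul_right (Finset.sum_le_sum fun j hj => ?_) _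
        refine mul_le_mul_right ?_ _
        have hch := bb_chain_te (f := f) (x₀ := x₀) (F := fch f) rfl (fun j => rfl) he k j
        rw [hch]
        have hj' : j ≤ k + 1 := by have := Finset.mem_range.mp hj; omega
        have h2 := bad_le_DD hf (N := k + 1) (by omega) hj' he hx₀
        have h3 : ∫⁻ x in Metric.ball x₀ ((4 : ℝ) ^ k * 40),
            ENNReal.ofReal (be e (fderiv ℝ (fch f j) x)) =
            ENNReal.ofReal (∫ x in Metric.ball x₀ (40 * 4 ^ (k + 1 - 1)),
              bbe e (fderiv ℝ (fch f j) x)) := by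
          rw [ofReal_integral_eq_lintegral_ofReal]
          · rw [Nat.add_sub_cancel, mul_comm]; rfl
          · exact ((nice_fch hf j).cc_bbe e).integrable.integrableOn
          · exact Eventually.of_forall fun _ => bbe_nonneg _ _
        rw [h3]
        exact ENNReal.ofReal_le_ofReal h2

theorem vol_ball_pow (k : ℕ) : volume (Metric.ball (0 : ℂ) ((4 : ℝ) ^ k)) =
    ENNReal.ofReal (Real.pi * (4 ^ k) ^ 2) := by
  rw [Complex.volume_ball, ENNReal.ofReal_mul Real.pi_pos.le,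
    ENNReal.ofReal_pow (by positivity : (0 : ℝ) ≤ 4 ^ k), mul_comm, ← NNReal.coe_real_pi,
    ENNReal.ofReal_coe_nnreal]

/-- bound for one direction and one scale -/
theorem lint_lint_JJ_le {C : ℝ≥0} (hC : UnitBound C) {f : ℂ → ℝ} (hf : Nice f) {e : ℂ}
    (he : ‖e‖ = 1) (k : ℕ) :
    (volume (Metric.ball (0 : ℂ) ((4 : ℝ) ^ k)))⁻¹ *
      ∫⁻ x₀ in GG f e k, ∫⁻ τ in Icc (1 : ℝ) 2, JJ f e k τ x₀ ≤
      C * (ENNReal.ofReal (25 * 4 ^ 8) * ∑ j ∈ Finset.range (k + 2),
        (3 / 4 : ENNReal) ^ (k + 1 - j) * ENNReal.ofReal (TT f j - TT f (k + 11))) := by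
  have hpi := Real.pi_pos
  set R : ℝ := 25 * Real.pi * (4 ^ (k + 4)) ^ 2 with hR
  have hR0 : 0 ≤ R := by positivity
  have h1 : ∫⁻ x₀ in GG f e k, ∫⁻ τ in Icc (1 : ℝ) 2, JJ f e k τ x₀ ≤
      C * (ENNReal.ofReal R * ∑ j ∈ Finset.range (k + 2),
        (3 / 4 : ENNReal) ^ (k + 1 - j) * ENNReal.ofReal (TT f j - TT f (k + 11))) := by
    calc ∫⁻ x₀ in GG f e k, ∫⁻ τ in Icc (1 : ℝ) 2, JJ f e k τ x₀
        ≤ ∫⁻ x₀ in GG f e k, C * ∑ j ∈ Finset.range (k + 2), (3 / 4 : ENNReal) ^ (k + 1 - j) *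
          ENNReal.ofReal (R * DD f (k + 1) j x₀) :=
          setLIntegral_mono' (measurableSet_GG hf e k) fun x₀ hx₀ => lint_JJ_le hC hf he k hx₀
      _ ≤ ∫⁻ x₀, C * ∑ j ∈ Finset.range (k + 2), (3 / 4 : ENNReal) ^ (k + 1 - j) *
          ENNReal.ofReal (R * DD f (k + 1) j x₀) := setLIntegral_le_lintegral _ _
      _ = C * ∑ j ∈ Finset.range (k + 2), (3 / 4 : ENNReal) ^ (k + 1 - j) *
          ∫⁻ x₀, ENNReal.ofReal (R * DD f (k + 1) j x₀) := by
          have hm : ∀ j, Measurable fun x₀ => ENNReal.ofReal (R * DD f (k + 1) j x₀) := fun j =>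
            ((continuous_DD hf (k + 1) j).measurable.const_mul R).ennreal_ofReal
          rw [lintegral_const_mul _ (Finset.measurable_fun_sum _ fun j _ => (hm j).const_mul _),
            lintegral_finsetSum _ fun j _ => (hm j).const_mul _]
          congr 1
          apply Finset.sum_congr rfl
          intro j _
          rw [lintegral_const_mul _ (hm j)]
      _ = _ := by
          congr 1
          rw [Finset.mul_sum]
          apply Finset.sum_congr rfl
          intro j hj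
          have hj' : j ≤ k + 1 + 10 := by have := Finset.mem_range.mp hj; omega
          have h2 : ∫⁻ x₀, ENNReal.ofReal (R * DD f (k + 1) j x₀) =
              ENNReal.ofReal R * ENNReal.ofReal (TT f j - TT f (k + 11)) := by
            rw [← ENNReal.ofReal_mul hR0]
            have h3 := integral_DD hf (k + 1) j
            rw [show k + 1 + 10 = k + 11 by omega] at h3
            rw [← h3, ← integral_const_mul, ofReal_integral_eq_lintegral_ofReal]
            · exact (integrable_DD hf (k + 1) j).const_mul R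
            · exact Eventually.of_forall fun x => mul_nonneg hR0 (DD_nonneg hf hj' x)
          rw [h2]
          ring
  calc _ ≤ (volume (Metric.ball (0 : ℂ) ((4 : ℝ) ^ k)))⁻¹ * (C * (ENNReal.ofReal R *
        ∑ j ∈ Finset.range (k + 2),
        (3 / 4 : ENNReal) ^ (k + 1 - j) * ENNReal.ofReal (TT f j - TT f (k + 11)))) := by gcongr
    _ = C * (((volume (Metric.ball (0 : ℂ) ((4 : ℝ) ^ k)))⁻¹ * ENNReal.ofReal R) *
        ∑ j ∈ Finset.range (k + 2),
        (3 / 4 : ENNReal) ^ (k + 1 - j) * ENNReal.ofReal (TT f j - TT f (k + 11))) := by ring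
    _ = _ := by
        congr 2
        rw [vol_ball_pow, ← ENNReal.ofReal_inv_of_pos (by positivity),
          ← ENNReal.ofReal_mul (by positivity)]
        congr 1
        rw [hR]
        field_simp
        ring

/-- abstract form of CORE1 -/
theorem core1_abstract {C : ℝ≥0} (hC : UnitBound C) {f : ℂ → ℝ} (hf : Nice f)
    (hf0 : ∀ x, 0 ≤ f x) {K : ℝ≥0} (hfK : LipschitzWith K f) {E : ℕ → ℂ} (hE : ∀ n, ‖E n‖ = 1)
    (hV5 : ∀ G L : ℂ →L[ℝ] ℝ, ‖L‖ ≤
      3 * ∑ n ∈ Finset.range 16, (if 23 / 25 * ‖G‖ ≤ G (E n) then |L (E n)| else 0))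
    {u : ℝ → ℂ → ℝ} (huK : ∀ τ, LipschitzWith K (u τ)) (hfu : ∀ τ x, f x ≤ u τ x)
    (hU : ∀ τ ∈ Icc (1 : ℝ) 2, ∀ (k : ℕ) x, U f (4 ^ k * τ) x ≤ u τ x)
    (hex : ∀ τ ∈ Icc (1 : ℝ) 2, ∀ x, f x < u τ x → ∃ k : ℕ, u τ x = U f (4 ^ k * τ) x) :
    ∃ τ ∈ Icc (1 : ℝ) 2, ∫⁻ x, ‖fderiv ℝ (u τ) x‖ₑ ≤
      (49 + 48 * C * (25 * 4 ^ 8) * 100) * ∫⁻ x, ‖fderiv ℝ f x‖ₑ := by
  set S : ℝ → ℝ≥0∞ := fun τ => ∑' k, (volume (Metric.ball (0 : ℂ) ((4 : ℝ) ^ k)))⁻¹ *
    (3 * ∑ n ∈ Finset.range 16, ∫⁻ x₀ in GG f (E n) k, JJ f (E n) k τ x₀) with hS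
  have hmJ : ∀ k n, Measurable fun τ => ∫⁻ x₀ in GG f (E n) k, JJ f (E n) k τ x₀ := fun k n =>
    (measurable_JJ hf (hE n) k).lintegral_prod_right'
  have hmk : ∀ k, Measurable fun τ => (volume (Metric.ball (0 : ℂ) ((4 : ℝ) ^ k)))⁻¹ *
    (3 * ∑ n ∈ Finset.range 16, ∫⁻ x₀ in GG f (E n) k, JJ f (E n) k τ x₀) := fun k =>
    ((Finset.measurable_fun_sum _ fun n _ => hmJ k n).const_mul _).const_mul _
  have hSm : Measurable S := Measurable.tsum hmk
  -- assembly for each τ
  have hτ : ∀ τ ∈ Icc (1 : ℝ) 2, ∫⁻ x, ‖fderiv ℝ (u τ) x‖ₑ ≤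
      49 * (∫⁻ x, ‖fderiv ℝ f x‖ₑ) + S τ := by
    intro τ hτ
    have hV5' : ∀ (k : ℕ) (x₀ : ℂ) (L : ℂ →L[ℝ] ℝ), ENNReal.ofReal ‖L‖ ≤
        3 * ∑ n ∈ Finset.range 16,
          (GG f (E n) k).indicator (fun _ => ENNReal.ofReal |L (E n)|) x₀ := by
      intro k x₀ L
      refine (ENNReal.ofReal_le_ofReal (hV5 (fderiv ℝ (fch f (k + 11)) x₀) L)).trans ?_
      rw [ENNReal.ofReal_mul (by norm_num), ENNReal.ofReal_sum_of_nonneg]
      · apply mul_le_mul' (by simp)
        apply Finset.sum_le_sum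
        intro n _
        by_cases h : x₀ ∈ GG f (E n) k
        · have h' : 23 / 25 * ‖fderiv ℝ (fch f (k + 11)) x₀‖ ≤
            fderiv ℝ (fch f (k + 11)) x₀ (E n) := h
          rw [indicator_of_mem h, if_pos h']
        · have h' : ¬ (23 / 25 * ‖fderiv ℝ (fch f (k + 11)) x₀‖ ≤
            fderiv ℝ (fch f (k + 11)) x₀ (E n)) := h
          rw [indicator_of_notMem h, if_neg h']; simp
      · intro n _
        split_ifs
        · exact abs_nonneg _
        · exact le_rfl
    refine assembly hf hfK (huK τ) (V := fun k => U f (4 ^ k * τ))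
      (fun k => lipschitz_U hf hfK _) (hfu τ) hf0 (hex τ hτ) hE
      (G := fun k n => GG f (E n) k) (fun k n => measurableSet_GG hf (E n) k) hV5'
      (t := fun k => (4 : ℝ) ^ k) (fun k => by positivity)
      (J := fun k n x₀ => JJ f (E n) k τ x₀) ?_
    intro k n x₀ _
    have ht : (0 : ℝ) < 4 ^ k := by positivity
    refine LOCAL_te hf (hE n) ht τ (measurableSet_NN (E n) hf.continuous (huK τ).continuous
      (continuous_U_right hf _)) ?_
    rintro x ⟨hx1, hx2⟩ ⟨σ, h1, h2, h3⟩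
    apply hx2
    refine ⟨σ, h1.1, ?_, fun s hs => ?_⟩
    · rw [hx1]; exact h2
    · rw [hx1]; exact (h3 s hs).trans (hU τ hτ k _)
  -- the integral of `S`
  have hSint : ∫⁻ τ in Icc (1 : ℝ) 2, S τ ≤
      48 * C * (25 * 4 ^ 8) * 100 * ∫⁻ x, ‖fderiv ℝ f x‖ₑ := by
    rw [hS]
    rw [lintegral_tsum fun k => (hmk k).aemeasurable]
    have hk : ∀ k : ℕ, ∫⁻ τ in Icc (1 : ℝ) 2, (volume (Metric.ball (0 : ℂ) ((4 : ℝ) ^ k)))⁻¹ *
        (3 * ∑ n ∈ Finset.range 16, ∫⁻ x₀ in GG f (E n) k, JJ f (E n) k τ x₀) ≤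
        48 * C * (25 * 4 ^ 8) * ∑ j ∈ Finset.range (k + 2),
        (3 / 4 : ENNReal) ^ (k + 1 - j) * ENNReal.ofReal (TT f j - TT f (k + 11)) := by
      intro k
      rw [lintegral_const_mul _ ((Finset.measurable_fun_sum _ fun n _ => hmJ k n).const_mul _),
        lintegral_const_mul _ (Finset.measurable_fun_sum _ fun n _ => hmJ k n),
        lintegral_finsetSum _ fun n _ => hmJ k n, mul_left_comm, Finset.mul_sum]
      have hn : ∀ n ∈ Finset.range 16, (volume (Metric.ball (0 : ℂ) ((4 : ℝ) ^ k)))⁻¹ *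
          ∫⁻ τ in Icc (1 : ℝ) 2, ∫⁻ x₀ in GG f (E n) k, JJ f (E n) k τ x₀ ≤
          C * (ENNReal.ofReal (25 * 4 ^ 8) * ∑ j ∈ Finset.range (k + 2),
          (3 / 4 : ENNReal) ^ (k + 1 - j) * ENNReal.ofReal (TT f j - TT f (k + 11))) := by
        intro n _
        have hswap : ∫⁻ τ in Icc (1 : ℝ) 2, ∫⁻ x₀ in GG f (E n) k, JJ f (E n) k τ x₀ =
            ∫⁻ x₀ in GG f (E n) k, ∫⁻ τ in Icc (1 : ℝ) 2, JJ f (E n) k τ x₀ :=
          lintegral_lintegral_swap (measurable_JJ hf (hE n) k).aemeasurable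
        rw [hswap]
        exact lint_lint_JJ_le hC hf (hE n) k
      refine (mul_le_mul_right (Finset.sum_le_sum hn) 3).trans (le_of_eq ?_)
      rw [Finset.sum_const, Finset.card_range, nsmul_eq_mul]
      have : ENNReal.ofReal (25 * 4 ^ 8) = 25 * 4 ^ 8 := by
        rw [ENNReal.ofReal_mul (by norm_num), ENNReal.ofReal_pow (by norm_num)]
        norm_num
      rw [this]
      push_cast
      ring
    refine (ENNReal.tsum_le_tsum hk).trans ?_
    rw [ENNReal.tsum_mul_left]
    have htel := tele_tsum (TT_antitone hf) (TT_nonneg f)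
    calc 48 * (C : ℝ≥0∞) * (25 * 4 ^ 8) * ∑' k : ℕ, ∑ j ∈ Finset.range (k + 2),
        (3 / 4 : ENNReal) ^ (k + 1 - j) * ENNReal.ofReal (TT f j - TT f (k + 11))
        ≤ 48 * C * (25 * 4 ^ 8) * ENNReal.ofReal (100 * TT f 0) := by gcongr
      _ = _ := by
        rw [ENNReal.ofReal_mul (by norm_num), TT_zero, ofReal_integral_eq_lintegral_ofReal]
        · simp only [enorm_eq_ofReal_norm]
          rw [← mul_assoc]
          congr 2
          norm_num
        · exact (hf.cc_norm).integrable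
        · exact Eventually.of_forall fun _ => norm_nonneg _
  -- choice of τ
  have hv : volume (Icc (1 : ℝ) 2) = 1 := by rw [Real.volume_Icc]; norm_num
  obtain ⟨τ, hτ1, hτ2⟩ := exists_le_setLAverage (μ := volume) (s := Icc (1 : ℝ) 2) (f := S)
    (by rw [hv]; norm_num) (by rw [hv]; norm_num) hSm.aemeasurable
  rw [setLAverage_eq, hv, div_one] at hτ2
  refine ⟨τ, hτ1, (hτ τ hτ1).trans ?_⟩
  rw [add_mul]
  gcongr
  exact hτ2.trans hSint

end Crest.Agent.R112
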