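import Mathlib
import Crest.Agent.R112.Global
import Crest.Agent.R112.UT
import Crest.Agent.R112.Core2_Mg
import Crest.Agent.R112.Basic
import Crest.Agent.R112.OneDim
import Crest.Agent.R112.Defs
import Crest.Agent.R112.UnitL1

-- ▼ part R112/V5
section

/-!
# R112: sixteen directions
-/

set_option autoImplicit false

namespace Crest.Agent.R112

open Real Finset

/-- the sixteen directions -/
noncomputable def dirE (n : ℕ) : ℂ := Complex.exp ((2*Real.pi*n/16 : ℝ) * Complex.I)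

theorem norm_dirE (n : ℕ) : ‖dirE n‖ = 1 := Complex.norm_exp_ofReal_mul_I _

/-- the directions indexed by integers -/
noncomputable def V5.d (k : ℤ) : ℂ := Complex.exp ((2*Real.pi*k/16 : ℝ) * Complex.I)

theorem V5.d_eq (k : ℤ) : dirE (k % 16).toNat = V5.d k := by
  have h0 : 0 ≤ k % 16 := Int.emod_nonneg _ (by norm_num)
  have h1 : (((k % 16).toNat : ℕ) : ℝ) = ((k % 16 : ℤ) : ℝ) := by
    exact_mod_cast Int.toNat_of_nonneg h0
  have h2 : (k : ℝ) = ((k % 16 : ℤ) : ℝ) + 16 * ((k / 16 : ℤ) : ℝ) := by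
    exact_mod_cast (Int.emod_add_mul_ediv k 16).symm
  unfold dirE V5.d
  rw [h1]
  have h3 : ((2*Real.pi*k/16 : ℝ) * Complex.I : ℂ) =
      (2*Real.pi*((k % 16 : ℤ) : ℝ)/16 : ℝ) * Complex.I + (k / 16 : ℤ) * (2 * π * Complex.I) := by
    rw [h2]; push_cast; ring
  rw [h3, Complex.exp_add, Complex.exp_int_mul_two_pi_mul_I, mul_one]

theorem V5.apply_eq (L : ℂ →L[ℝ] ℝ) (θ : ℝ) :
    L (Complex.exp (θ * Complex.I)) = L 1 * Real.cos θ + L Complex.I * Real.sin θ := by
  have h : Complex.exp (θ * Complex.I) = (Real.cos θ : ℝ) • (1 : ℂ) + (Real.sin θ : ℝ) • Complex.I := by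
    rw [Complex.exp_mul_I]
    simp [Complex.ofReal_cos, Complex.ofReal_sin]
  rw [h, map_add, map_smul, map_smul, smul_eq_mul, smul_eq_mul]
  ring

theorem V5.norm_le (L : ℂ →L[ℝ] ℝ) : ‖L‖ ≤ √((L 1)^2 + (L Complex.I)^2) := by
  refine L.opNorm_le_bound (Real.sqrt_nonneg _) fun z => ?_
  have h : L z = L 1 * z.re + L Complex.I * z.im := by
    have h1 : z = (z.re : ℝ) • (1 : ℂ) + (z.im : ℝ) • Complex.I := by
      apply Complex.ext <;> simp
    conv_lhs => rw [h1]
    rw [map_add, map_smul, map_smul, smul_eq_mul, smul_eq_mul]; ring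
  rw [h, Real.norm_eq_abs, ← Real.sqrt_sq (norm_nonneg z), ← Real.sqrt_mul (by positivity)]
  apply Real.abs_le_sqrt
  rw [Complex.sq_norm, Complex.normSq_apply]
  nlinarith [sq_nonneg (L 1 * z.im - L Complex.I * z.re)]

theorem V5.cos_ge : (23 : ℝ) / 25 ≤ Real.cos (π / 8) := by
  rw [Real.cos_pi_div_eight]
  have h2 : (1.4141 : ℝ) ≤ √2 := by
    apply Real.le_sqrt_of_sq_le; norm_num
  have h3 : (1.84 : ℝ) ≤ √(2 + √2) := by
    apply Real.le_sqrt_of_sq_le
    nlinarith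
  linarith

theorem V5.sin_ge : (1 : ℝ) / 3 ≤ Real.sin (π / 8) := by
  rw [Real.sin_pi_div_eight]
  have h2 : √2 ≤ (1.4143 : ℝ) := by
    rw [Real.sqrt_le_left (by norm_num)]; norm_num
  have h3 : (2 / 3 : ℝ) ≤ √(2 - √2) := by
    apply Real.le_sqrt_of_sq_le
    nlinarith
  linarith

/-- two neighbouring directions -/
theorem V5.pair (G : ℂ →L[ℝ] ℝ) : ∃ k : ℤ, 23/25*‖G‖ ≤ G (V5.d k) ∧ 23/25*‖G‖ ≤ G (V5.d (k+1)) := by
  set w : ℂ := ⟨G 1, G Complex.I⟩ with hw
  set φ : ℝ := Complex.arg w with hφ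
  set ρ : ℝ := ‖w‖ with hρ
  have hre : G 1 = ρ * Real.cos φ := (Complex.norm_mul_cos_arg w).symm
  have him : G Complex.I = ρ * Real.sin φ := (Complex.norm_mul_sin_arg w).symm
  have hρ0 : 0 ≤ ρ := norm_nonneg _
  have hG : ‖G‖ ≤ ρ := by
    refine (V5.norm_le G).trans (le_of_eq ?_)
    rw [hρ, ← Real.sqrt_sq (norm_nonneg w), Complex.sq_norm, Complex.normSq_apply]
    congr 1
    simp only [hw]; ring
  have hpi := Real.pi_pos
  refine ⟨⌊φ / (π/8)⌋, ?_, ?_⟩
  · have h1 := Int.floor_le (φ / (π/8))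
    have h2 := Int.lt_floor_add_one (φ / (π/8))
    set k := ⌊φ / (π/8)⌋
    rw [le_div_iff₀ (by positivity)] at h1
    rw [div_lt_iff₀ (by positivity)] at h2
    have e : G (V5.d k) = ρ * Real.cos (φ - 2*π*k/16) := by
      unfold V5.d
      rw [V5.apply_eq, hre, him, Real.cos_sub]; ring
    have hc : 23/25 ≤ Real.cos (φ - 2*π*k/16) := by
      refine V5.cos_ge.trans (Real.cos_le_cos_of_nonneg_of_le_pi ?_ (by linarith) ?_)
      · nlinarith
      · nlinarith
    rw [e]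
    nlinarith [norm_nonneg G]
  · have h1 := Int.floor_le (φ / (π/8))
    have h2 := Int.lt_floor_add_one (φ / (π/8))
    set k := ⌊φ / (π/8)⌋
    rw [le_div_iff₀ (by positivity)] at h1
    rw [div_lt_iff₀ (by positivity)] at h2
    have e : G (V5.d (k+1)) = ρ * Real.cos (2*π*(k+1)/16 - φ) := by
      unfold V5.d
      rw [V5.apply_eq, hre, him, Real.cos_sub]; push_cast; ring
    have hc : 23/25 ≤ Real.cos (2*π*(k+1)/16 - φ) := by
      refine V5.cos_ge.trans (Real.cos_le_cos_of_nonneg_of_le_pi ?_ (by linarith) ?_)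
      · nlinarith
      · nlinarith
    rw [e]
    nlinarith [norm_nonneg G]

theorem V5.two (L : ℂ →L[ℝ] ℝ) (k : ℤ) : ‖L‖ ≤ 3 * (|L (V5.d k)| + |L (V5.d (k+1))|) := by
  set w : ℂ := ⟨L 1, L Complex.I⟩ with hw
  set ψ : ℝ := Complex.arg w with hψ
  set σ : ℝ := ‖w‖ with hσ
  have hre : L 1 = σ * Real.cos ψ := (Complex.norm_mul_cos_arg w).symm
  have him : L Complex.I = σ * Real.sin ψ := (Complex.norm_mul_sin_arg w).symm
  have hσ0 : 0 ≤ σ := norm_nonneg _
  have hL : ‖L‖ ≤ σ := by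
    refine (V5.norm_le L).trans (le_of_eq ?_)
    rw [hσ, ← Real.sqrt_sq (norm_nonneg w), Complex.sq_norm, Complex.normSq_apply]
    congr 1
    simp only [hw]; ring
  set α : ℝ := ψ - 2*π*k/16 with hα
  have e1 : L (V5.d k) = σ * Real.cos α := by
    unfold V5.d
    rw [V5.apply_eq, hre, him, hα, Real.cos_sub]; ring
  have e2 : L (V5.d (k+1)) = σ * Real.cos (α - π/8) := by
    have : α - π/8 = ψ - 2*π*(k+1)/16 := by rw [hα]; ring
    unfold V5.d
    rw [V5.apply_eq, hre, him, this, Real.cos_sub]; push_cast; ring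
  rw [e1, e2, abs_mul, abs_mul, abs_of_nonneg hσ0]
  have hkey : (1:ℝ)/3 ≤ |Real.cos α| + |Real.cos (α - π/8)| := by
    have hs := V5.sin_ge
    have h1 : Real.sin (π/8) = Real.sin α * Real.cos (α - π/8) - Real.cos α * Real.sin (α - π/8) := by
      rw [← Real.sin_sub]; congr 1; ring
    have h2 : |Real.sin α * Real.cos (α - π/8)| ≤ |Real.cos (α - π/8)| := by
      rw [abs_mul]
      have := Real.abs_sin_le_one α
      nlinarith [abs_nonneg (Real.cos (α - π/8))]
    have h3 : |Real.cos α * Real.sin (α - π/8)| ≤ |Real.cos α| := by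
      rw [abs_mul]
      have := Real.abs_sin_le_one (α - π/8)
      nlinarith [abs_nonneg (Real.cos α)]
    have h4 := abs_sub (Real.sin α * Real.cos (α - π/8)) (Real.cos α * Real.sin (α - π/8))
    have h5 := le_abs_self (Real.sin α * Real.cos (α - π/8) - Real.cos α * Real.sin (α - π/8))
    linarith
  nlinarith

theorem V5 (G L : ℂ →L[ℝ] ℝ) :
    ‖L‖ ≤ 3 * ∑ n ∈ Finset.range 16, (if 23/25*‖G‖ ≤ G (dirE n) then |L (dirE n)| else 0) := by
  obtain ⟨k, h1, h2⟩ := V5.pair G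
  refine (V5.two L k).trans ?_
  have hn1 : (k % 16).toNat < 16 := by omega
  have hn2 : ((k+1) % 16).toNat < 16 := by omega
  have hne : (k % 16).toNat ≠ ((k+1) % 16).toNat := by omega
  have hsub : ({(k % 16).toNat, ((k+1) % 16).toNat} : Finset ℕ) ⊆ Finset.range 16 := by
    intro x hx
    simp only [Finset.mem_insert, Finset.mem_singleton] at hx
    rw [Finset.mem_range]
    rcases hx with rfl | rfl <;> assumption
  have hs := Finset.sum_le_sum_of_subset_of_nonneg (f := fun n =>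
    (if 23/25*‖G‖ ≤ G (dirE n) then |L (dirE n)| else 0)) hsub (fun i _ _ => by
      split_ifs
      · exact abs_nonneg _
      · exact le_rfl)
  rw [Finset.sum_pair hne] at hs
  simp only [V5.d_eq, if_pos h1, if_pos h2] at hs
  linarith

end Crest.Agent.R112
end

-- ▼ part R112/Core1
section

/-!
Row 112 (S0147), module Core1: CORE1 from the unit scale theorem.
-/

set_option autoImplicit false

namespace Crest.Agent.R112

open MeasureTheory Set
open scoped NNReal ENNReal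

/-- the statement of CORE1 -/
def CORE1 : Prop :=
  ∃ C : ℝ≥0, ∀ f, Nice f → (∀ x, 0 ≤ f x) →
    ∃ τ ∈ Icc (1 : ℝ) 2, ∫⁻ x, ‖fderiv ℝ (uT f τ) x‖ₑ ≤ C * ∫⁻ x, ‖fderiv ℝ f x‖ₑ

theorem core1_of_unit {C : ℝ≥0} (hC : UnitBound C) : CORE1 := by
  refine ⟨49 + 48 * C * (25 * 4 ^ 8) * 100, fun f hf hf0 => ?_⟩
  obtain ⟨K, hK⟩ := hf.lipschitz
  obtain ⟨τ, hτ, h⟩ := core1_abstract hC hf hf0 hK (E := dirE) norm_dirE V5 (u := uT f)
    (fun τ => lipschitz_uT hf hK τ) (fun τ x => le_uT f τ x)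
    (fun τ hτ k x => U_le_uT hf (by linarith [hτ.1]) k x)
    (fun τ hτ x hx => exists_U_eq hf (by linarith [hτ.1]) hf0 hx)
  refine ⟨τ, hτ, h.trans (le_of_eq ?_)⟩
  push_cast
  rfl

end Crest.Agent.R112
end

-- ▼ part R112/Chain
section

/-!
# R112 (S0147), module Chain: from `K_b` to the core estimate.
-/

set_option autoImplicit false

namespace Crest.Agent.R112

open MeasureTheory Set Metric Filter Topology
open scoped ENNReal NNReal

theorem core1_of_kb {C : ℝ} (hC : 0 ≤ C) (hK : KbProp C) : ∃ C' : ℝ≥0, Core1 C' := by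
  obtain ⟨C1, h1⟩ := UNIT_of_Kb hC hK
  obtain ⟨C2, h2⟩ := core1_of_unit (C := C1) h1
  exact ⟨C2, h2⟩

end Crest.Agent.R112
end

-- ▼ part R112/KPeak
section

/-!
# Row 112 (S0147): estimates at a single peak (LSD, VB0, INT, CUT)
-/

set_option autoImplicit false

namespace Crest.Agent.R112

open MeasureTheory Metric Set Filter Topology

/-- the measure `|∇g|`. -/
noncomputable def mu (g : ℂ → ℝ) (s : Set ℂ) : ℝ := ∫ z in s, ‖fderiv ℝ g z‖

theorem Nice.integrable_norm {g : ℂ → ℝ} (hg : Nice g) :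
    Integrable (fun z => ‖fderiv ℝ g z‖) := hg.integrable_fderiv.norm

theorem mu_nonneg (g : ℂ → ℝ) (s : Set ℂ) : 0 ≤ mu g s :=
  integral_nonneg fun _ => norm_nonneg _

theorem mu_mono {g : ℂ → ℝ} (hg : Nice g) {s t : Set ℂ} (h : s ⊆ t) : mu g s ≤ mu g t :=
  setIntegral_mono_set hg.integrable_norm.integrableOn (Eventually.of_forall fun _ => norm_nonneg _)
    (LE.le.eventuallyLE h)

theorem mu_sdiff {g : ℂ → ℝ} (hg : Nice g) {s t : Set ℂ} (ht : MeasurableSet t) (h : t ⊆ s) :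
    mu g (s \ t) = mu g s - mu g t :=
  setIntegral_sdiff ht hg.integrable_norm.integrableOn h

/-! ### linear functionals -/

theorem sq_add_sq_le_norm (L : ℂ →L[ℝ] ℝ) : (L 1) ^ 2 + (L Complex.I) ^ 2 ≤ ‖L‖ ^ 2 := by
  set z : ℂ := ⟨L 1, L Complex.I⟩ with hz
  have h1 : L z = (L 1) ^ 2 + (L Complex.I) ^ 2 := by
    have : z = (L 1) • (1 : ℂ) + (L Complex.I) • Complex.I := by
      apply Complex.ext <;> simp [hz]
    rw [this, map_add, map_smul, map_smul, smul_eq_mul, smul_eq_mul]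
    ring
  have h2 : ‖z‖ ^ 2 = (L 1) ^ 2 + (L Complex.I) ^ 2 := by
    rw [← Complex.normSq_eq_norm_sq, Complex.normSq_apply]
    simp only [hz]; ring
  have h3 := L.le_opNorm z
  rw [h1, Real.norm_eq_abs, ← h2, abs_of_nonneg (by positivity)] at h3
  have h4 := norm_nonneg z
  have h5 := norm_nonneg L
  rw [← h2]
  rcases h4.eq_or_lt with h6 | h6
  · rw [← h6]; nlinarith
  · have h7 : ‖z‖ ≤ ‖L‖ := by
      have : ‖z‖ * ‖z‖ ≤ ‖L‖ * ‖z‖ := by nlinarith
      exact le_of_mul_le_mul_right this h6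
    nlinarith

theorem apply_eq (L : ℂ →L[ℝ] ℝ) (ξ : ℂ) : L ξ = ξ.re * L 1 + ξ.im * L Complex.I := by
  have : ξ = ξ.re • (1 : ℂ) + ξ.im • Complex.I := by
    apply Complex.ext <;> simp
  conv_lhs => rw [this]
  rw [map_add, map_smul, map_smul, smul_eq_mul, smul_eq_mul]

/-- (V3) -/
theorem apply_le_of_re_le (L : ℂ →L[ℝ] ℝ) {ξ : ℂ} (hξ : ‖ξ‖ ≤ 1) (hre : ξ.re ≤ -(65 / 100)) :
    L ξ ≤ -(5 / 100) * ‖L‖ + 11 * bb L := by
  have h0 := norm_nonneg L
  have hb := le_bb L
  have hb0 := bb_nonneg L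
  by_cases h : L 1 < 8 / 10 * ‖L‖
  · have h1 := (abs_le.mp (abs_apply_le L hξ)).2
    linarith
  · push Not at h
    have h2 := sq_add_sq_le_norm L
    have h3 : ξ.re ^ 2 + ξ.im ^ 2 ≤ 1 := by
      have : ‖ξ‖ ^ 2 ≤ 1 := by nlinarith [norm_nonneg ξ]
      rw [← Complex.normSq_eq_norm_sq, Complex.normSq_apply] at this
      nlinarith
    rw [apply_eq L ξ]
    have h4 : |L Complex.I| ≤ 6 / 10 * ‖L‖ := by
      apply abs_le_of_sq_le_sq _ (by positivity)
      nlinarith
    have h5 : |ξ.im| ≤ 76 / 100 := by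
      apply abs_le_of_sq_le_sq _ (by norm_num)
      nlinarith
    have h6 : ξ.im * L Complex.I ≤ 76 / 100 * (6 / 10 * ‖L‖) := by
      calc ξ.im * L Complex.I ≤ |ξ.im * L Complex.I| := le_abs_self _
        _ = |ξ.im| * |L Complex.I| := abs_mul _ _
        _ ≤ 76 / 100 * (6 / 10 * ‖L‖) := by
            apply mul_le_mul h5 h4 (abs_nonneg _) (by norm_num)
    have h7 : ξ.re * L 1 ≤ -(65 / 100) * (8 / 10 * ‖L‖) := by
      have : 0 ≤ L 1 := by linarith [mul_nonneg (by norm_num : (0 : ℝ) ≤ 8 / 10) h0]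
      nlinarith
    linarith

/-! ### peaks -/

/-- A peak of `U g τ` at `x` in the horizontal direction, at scale `d`, of height `Δ`. -/
structure Peak (g : ℂ → ℝ) (τ d : ℝ) (x : ℂ) (Δ a b r : ℝ) : Prop where
  hg : Nice g
  hd : 0 < d
  hd' : d ≤ 1 / 64
  hτ : 1 ≤ τ
  hτ' : τ ≤ 2
  hx : ‖x‖ ≤ 18
  hΔ : 0 < Δ
  ha1 : d / 8 ≤ a
  ha2 : a ≤ 3 * d
  hb1 : d / 8 ≤ b
  hb2 : b ≤ 3 * d
  hp : U g τ (x - a) ≤ U g τ x - Δ
  hq : U g τ (x + b) ≤ U g τ x - Δ
  hr1 : τ ≤ r
  hr2 : r ≤ 4 * τ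
  hr : A g r x = U g τ x

theorem Pk_pos_iff {h : ℝ → ℝ} (hh : Continuous h) {lo hi s : ℝ} (hlh : lo ≤ hi)
    (hpos : 0 < Pk h lo hi s) :
    ∃ a ∈ Icc lo hi, ∃ b ∈ Icc lo hi, h (s - a) ≤ h s - Pk h lo hi s ∧
      h (s + b) ≤ h s - Pk h lo hi s := by
  have h1 := Pk_eq h lo hi s
  have h2 : Pk h lo hi s = h s - max (wmin h (-hi) (-lo) s) (wmin h lo hi s) := by
    rw [h1] at hpos ⊢
    rcases lt_max_iff.1 hpos with h3 | h3
    · exact absurd h3 (lt_irrefl _)
    · exact max_eq_right h3.le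
  obtain ⟨u, hu, h3⟩ := exists_wmin_eq hh (a := -hi) (b := -lo) (by linarith) s
  obtain ⟨v, hv, h4⟩ := exists_wmin_eq hh hlh s
  refine ⟨-u, ⟨by linarith [hu.2], by linarith [hu.1]⟩, v, hv, ?_, ?_⟩
  · rw [sub_neg_eq_add, h3, h2]
    have := le_max_left (wmin h (-hi) (-lo) s) (wmin h lo hi s)
    linarith
  · rw [h4, h2]
    have := le_max_right (wmin h (-hi) (-lo) s) (wmin h lo hi s)
    linarith

theorem exists_peak {g : ℂ → ℝ} (hg : Nice g) {τ d : ℝ} (hd : 0 < d) (hd' : d ≤ 1 / 64)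
    (hτ : 1 ≤ τ) (hτ' : τ ≤ 2) {s y : ℝ} (hs : s ∈ Icc (-3 : ℝ) 17) (hy : y ∈ Icc (-1 : ℝ) 1)
    (hpos : 0 < Pk (fun s => U g τ (⟨s, y⟩ : ℂ)) (d / 8) (3 * d) s) :
    ∃ a b r, Peak g τ d ⟨s, y⟩ (Pk (fun s => U g τ (⟨s, y⟩ : ℂ)) (d / 8) (3 * d) s) a b r := by
  have hcont : Continuous (fun s : ℝ => U g τ (⟨s, y⟩ : ℂ)) := by
    have h1 : Continuous (fun s : ℝ => (⟨s, y⟩ : ℂ)) := by
      have : (fun s : ℝ => (⟨s, y⟩ : ℂ)) = fun s : ℝ => (s : ℂ) + y * Complex.I := by
        funext s; apply Complex.ext <;> simp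
      rw [this]; fun_prop
    exact (continuous_U_right hg τ).comp h1
  obtain ⟨a, ha, b, hb, h1, h2⟩ := Pk_pos_iff hcont (by linarith) hpos
  obtain ⟨u, hu, h3⟩ := U_attained hg τ (⟨s, y⟩ : ℂ)
  have e1 : ((⟨s - a, y⟩ : ℂ)) = (⟨s, y⟩ : ℂ) - (a : ℂ) := by
    apply Complex.ext <;> simp
  have e2 : ((⟨s + b, y⟩ : ℂ)) = (⟨s, y⟩ : ℂ) + (b : ℂ) := by
    apply Complex.ext <;> simp
  simp only [e1, e2] at h1 h2
  refine ⟨a, b, τ * u, hg, hd, hd', hτ, hτ', ?_, hpos, ha.1, ha.2, hb.1, hb.2, h1, h2, ?_, ?_,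
    h3.symm⟩
  · have h4 : ‖(⟨s, y⟩ : ℂ)‖ ≤ |s| + |y| := Complex.norm_le_abs_re_add_abs_im _
    have h5 : |s| ≤ 17 := abs_le.2 ⟨by linarith [hs.1], hs.2⟩
    have h6 : |y| ≤ 1 := abs_le.2 ⟨by linarith [hy.1], hy.2⟩
    linarith
  · nlinarith [hu.1]
  · nlinarith [hu.2]

/-! ### mean value along a path -/

theorem path_mvt {g : ℂ → ℝ} (hg : Nice g) {x : ℂ} {r c b Δ : ℝ} (hc : 0 ≤ c) (hb : 0 < b)
    (hr : 0 < r) (h : A g (r + b * c) (x + b) ≤ A g r x - Δ) :
    ∃ t ∈ Ioo 0 b, (9 / 10 - c) * mu g (ball (x + t) (r + t * c)) +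
      Real.pi * (r + t * c) ^ 2 * (Δ / b) ≤
        ∫ z in ball (x + t) (r + t * c), bb (fderiv ℝ g z) := by
  set f : ℝ → ℝ := fun t => A g (r + t * c) (x + t * 1) with hf
  have hder : ∀ t : ℝ, HasDerivAt f ((1 / Real.pi) * ∫ ξ in ball (0 : ℂ) 1,
      fderiv ℝ g (x + t * 1 + ((r + t * c : ℝ) : ℂ) * ξ) (1 + c * ξ)) t := fun t =>
    hasDerivAt_A_path hg x 1 r c t
  obtain ⟨t, ht, h1⟩ := exists_hasDerivAt_eq_slope f _ hb
    (fun t _ => (hder t).continuousAt.continuousWithinAt) (fun t _ => hder t)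
  refine ⟨t, ht, ?_⟩
  have hf0 : f 0 = A g r x := by simp [hf]
  have hfb : f b = A g (r + b * c) (x + b) := by simp [hf]
  have h2 : (f b - f 0) / (b - 0) ≤ -(Δ / b) := by
    rw [sub_zero, ← neg_div]
    gcongr
    rw [hf0, hfb]; linarith
  rw [← h1] at h2
  have hρ : 0 < r + t * c := by
    have := mul_nonneg ht.1.le hc
    linarith
  have hcf := hg.continuous_fderiv
  have hcb := hg.continuous_bb_fderiv
  have h3 : ∫ ξ in ball (0 : ℂ) 1, ((9 / 10 - c) * ‖fderiv ℝ g (x + t + ((r + t * c : ℝ) : ℂ) * ξ)‖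
      - bb (fderiv ℝ g (x + t + ((r + t * c : ℝ) : ℂ) * ξ))) ≤ ∫ ξ in ball (0 : ℂ) 1,
      fderiv ℝ g (x + t * 1 + ((r + t * c : ℝ) : ℂ) * ξ) (1 + c * ξ) := by
    apply setIntegral_mono_on
    · apply integrableOn_disc
      have : Continuous fun ξ : ℂ => bb (fderiv ℝ g (x + t + ((r + t * c : ℝ) : ℂ) * ξ)) :=
        hcb.comp (by fun_prop)
      fun_prop
    · apply integrableOn_disc
      fun_prop
    · exact measurableSet_ball
    · intro ξ hξ
      have hξ1 : ‖ξ‖ ≤ 1 := (mem_ball_zero_iff.mp hξ).le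
      have := neg_apply_le (fderiv ℝ g (x + t + ((r + t * c : ℝ) : ℂ) * ξ)) hξ1 hc
      rw [mul_one]
      linarith
  have h4 := disc_avg_eq (fun z => (9 / 10 - c) * ‖fderiv ℝ g z‖ - bb (fderiv ℝ g z)) hρ (x + t)
  rw [h4, smul_eq_mul, integral_sub, integral_const_mul] at h3
  · have h5 := mul_le_mul_of_nonneg_left h3 (show 0 ≤ 1 / Real.pi by positivity)
    have h6 := h5.trans h2
    have hpi := Real.pi_pos
    have h7 : 1 / Real.pi * (((r + t * c) ^ 2)⁻¹ * ((9 / 10 - c) *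
        (∫ z in ball (x + t) (r + t * c), ‖fderiv ℝ g z‖) -
        ∫ z in ball (x + t) (r + t * c), bb (fderiv ℝ g z))) * (Real.pi * (r + t * c) ^ 2) =
        (9 / 10 - c) * (∫ z in ball (x + t) (r + t * c), ‖fderiv ℝ g z‖) -
        ∫ z in ball (x + t) (r + t * c), bb (fderiv ℝ g z) := by
      field_simp
    have h8 := mul_le_mul_of_nonneg_right h6 (show 0 ≤ Real.pi * (r + t * c) ^ 2 by positivity)
    rw [h7] at h8
    unfold mu
    linarith
  · exact (hg.integrable_norm.const_mul _).integrableOn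
  · exact hg.integrable_bb.integrableOn

theorem ball_sub_forty {x : ℂ} (hx : ‖x‖ ≤ 18) {t ρ : ℝ} (ht : |t| ≤ 1) (hρ : ρ ≤ 20) :
    ball (x + t) ρ ⊆ ball (0 : ℂ) 40 := by
  intro z hz
  rw [mem_ball, dist_eq_norm] at hz
  rw [mem_ball_zero_iff]
  have h1 : ‖z‖ ≤ ‖z - (x + t)‖ + ‖x + (t : ℂ)‖ := by
    calc ‖z‖ = ‖(z - (x + t)) + (x + t)‖ := by ring_nf
      _ ≤ _ := norm_add_le _ _
  have h2 : ‖x + (t : ℂ)‖ ≤ ‖x‖ + |t| := by
    refine (norm_add_le _ _).trans ?_
    rw [Complex.norm_real, Real.norm_eq_abs]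
  linarith

theorem setIntegral_sub_le {k K : ℂ → ℝ} (hk : Integrable k) (hK : Integrable K)
    (hkK : ∀ z, |k z| ≤ K z) {S₁ S₂ C D : Set ℂ} (h₁ : MeasurableSet S₁) (h₂ : MeasurableSet S₂)
    (hC : MeasurableSet C) (hD : MeasurableSet D) (hC₁ : C ⊆ S₁) (hC₂ : C ⊆ S₂) (h₁D : S₁ ⊆ D)
    (h₂D : S₂ ⊆ D) : (∫ z in S₁, k z) - ∫ z in S₂, k z ≤ ∫ z in D \ C, K z := by
  rw [← integral_indicator h₁, ← integral_indicator h₂, ← integral_indicator (hD.diff hC),
    ← integral_sub (hk.indicator h₁) (hk.indicator h₂)]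
  apply integral_mono ((hk.indicator h₁).sub (hk.indicator h₂)) (hK.indicator (hD.diff hC))
  intro z
  rw [Pi.sub_apply]
  have h0 := abs_le.1 (hkK z)
  have h00 : 0 ≤ K z := (abs_nonneg _).trans (hkK z)
  by_cases hc : z ∈ C
  · rw [indicator_of_mem (hC₁ hc), indicator_of_mem (hC₂ hc),
      indicator_of_notMem (fun h => h.2 hc)]
    simp
  · by_cases hz : z ∈ D
    · rw [indicator_of_mem (show z ∈ D \ C from ⟨hz, hc⟩)]
      by_cases hz1 : z ∈ S₁ <;> by_cases hz2 : z ∈ S₂ <;>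
        simp only [indicator, hz1, hz2, if_true, if_false] <;> linarith [h0.1, h0.2]
    · rw [indicator_of_notMem (fun h => hz (h₁D h)), indicator_of_notMem (fun h => hz (h₂D h)),
        indicator_of_notMem (fun h => hz h.1)]
      simp

theorem hasDerivAt_A_line {g : ℂ → ℝ} (hg : Nice g) (x : ℂ) {r : ℝ} (hr : 0 < r) (t : ℝ) :
    HasDerivAt (fun t : ℝ => A g r (x + t))
      (1 / (Real.pi * r ^ 2) * ∫ z in ball (x + t) r, fderiv ℝ g z 1) t := by
  have h1 := hasDerivAt_A_path hg x 1 r 0 t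
  have h2 := disc_avg_eq (fun z => fderiv ℝ g z 1) hr (x + t)
  simp only [mul_zero, add_zero, Complex.ofReal_zero, zero_mul, mul_one] at h1
  rw [h2, smul_eq_mul, ← mul_assoc] at h1
  have h3 : 1 / Real.pi * (r ^ 2)⁻¹ = 1 / (Real.pi * r ^ 2) := by field_simp
  rw [h3] at h1
  exact h1

/-- the part of the disc not covered by the shifted larger disc lies on the left -/
theorem uncovered {x ξ : ℂ} {t r : ℝ} (ht : 0 < t) (htb : t ≤ 3 / 64) (hr : 1 ≤ r)
    (hξ1 : ‖ξ‖ ≤ 1) (hm : x + r * ξ ∉ ball (x + (t : ℂ)) (r + t * (7 / 10))) :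
    ξ.re ≤ -(65 / 100) := by
  have hm' : ¬ ‖(r : ℂ) * ξ - t‖ < r + t * (7 / 10) := by
    intro hcon
    apply hm
    rw [mem_ball, dist_eq_norm]
    have : x + r * ξ - (x + (t : ℂ)) = (r : ℂ) * ξ - t := by ring
    rw [this]; exact hcon
  push Not at hm'
  have e1 : ‖(r : ℂ) * ξ - t‖ ^ 2 = r ^ 2 * (ξ.re ^ 2 + ξ.im ^ 2) - 2 * r * t * ξ.re + t ^ 2 := by
    rw [← Complex.normSq_eq_norm_sq, Complex.normSq_apply]
    simp only [Complex.sub_re, Complex.mul_re, Complex.ofReal_re, Complex.ofReal_im,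
      Complex.sub_im, Complex.mul_im]
    ring
  have e2 : ξ.re ^ 2 + ξ.im ^ 2 ≤ 1 := by
    have : ‖ξ‖ ^ 2 ≤ 1 := by nlinarith [norm_nonneg ξ]
    rw [← Complex.normSq_eq_norm_sq, Complex.normSq_apply] at this
    nlinarith
  have e3 : (r + t * (7 / 10)) ^ 2 ≤ ‖(r : ℂ) * ξ - t‖ ^ 2 := by
    have : 0 ≤ r + t * (7 / 10) := by linarith
    exact pow_le_pow_left₀ this hm' 2
  rw [e1] at e3
  have e4 : r ^ 2 * (ξ.re ^ 2 + ξ.im ^ 2) ≤ r ^ 2 := by nlinarith [sq_nonneg r]
  have e5 : 14 / 10 * r * t + 2 * r * t * ξ.re ≤ t ^ 2 := by nlinarith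
  have e6 : t * (14 / 10 * r + 2 * r * ξ.re) ≤ t * t := by nlinarith
  have e7 : 14 / 10 * r + 2 * r * ξ.re ≤ t := le_of_mul_le_mul_left e6 ht
  by_contra hcon
  push Not at hcon
  nlinarith

/-- consequence of the first order optimality -/
theorem mu_le_of_opt {g : ℂ → ℝ} (hg : Nice g) {x : ℂ} {r t : ℝ} (hr : 1 ≤ r) (ht : 0 < t)
    (htb : t ≤ 3 / 64) (hopt : ∫ ξ in ball (0 : ℂ) 1, fderiv ℝ g (x + r * ξ) ξ = 0) :
    5 / 100 * mu g (ball x r) ≤ 11 * (∫ z in ball x r, bb (fderiv ℝ g z)) +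
      105 / 100 * mu g (ball (x + t) (r + t * (7 / 10))) := by
  have hr0 : 0 < r := by linarith
  set T : Set ℂ := ball (x + (t : ℂ)) (r + t * (7 / 10)) with hT
  set S : Set ℂ := {ξ : ℂ | x + r * ξ ∈ T} with hS
  have hSm : MeasurableSet S := by
    have : Continuous fun ξ : ℂ => x + r * ξ := by fun_prop
    exact (isOpen_ball.preimage this).measurableSet
  have hcf := hg.continuous_fderiv
  have hcb := hg.continuous_bb_fderiv
  have i1 : IntegrableOn (fun ξ : ℂ => ‖fderiv ℝ g (x + r * ξ)‖) (ball 0 1) :=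
    integrableOn_disc (by fun_prop)
  have i2 : IntegrableOn (fun ξ : ℂ => bb (fderiv ℝ g (x + r * ξ))) (ball 0 1) :=
    integrableOn_disc (hcb.comp (by fun_prop))
  have i3 : IntegrableOn (fun ξ : ℂ => fderiv ℝ g (x + r * ξ) ξ) (ball 0 1) :=
    integrableOn_disc (by fun_prop)
  have i4 : IntegrableOn (fun ξ : ℂ => T.indicator (fun z => ‖fderiv ℝ g z‖) (x + r * ξ))
      (ball 0 1) := by
    have : (fun ξ : ℂ => T.indicator (fun z => ‖fderiv ℝ g z‖) (x + r * ξ)) =
      S.indicator fun ξ : ℂ => ‖fderiv ℝ g (x + r * ξ)‖ := rfl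
    rw [this]
    exact i1.indicator hSm
  have hpt : ∀ ξ ∈ ball (0 : ℂ) 1, fderiv ℝ g (x + r * ξ) ξ ≤
      -(5 / 100) * ‖fderiv ℝ g (x + r * ξ)‖ + 11 * bb (fderiv ℝ g (x + r * ξ)) +
      105 / 100 * T.indicator (fun z => ‖fderiv ℝ g z‖) (x + r * ξ) := by
    intro ξ hξ
    have hξ1 : ‖ξ‖ ≤ 1 := (mem_ball_zero_iff.mp hξ).le
    have hb0 := bb_nonneg (fderiv ℝ g (x + r * ξ))
    have hn := norm_nonneg (fderiv ℝ g (x + r * ξ))
    by_cases hm : x + r * ξ ∈ T
    · rw [indicator_of_mem hm]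
      have := (abs_le.1 (abs_apply_le (fderiv ℝ g (x + r * ξ)) hξ1)).2
      linarith
    · rw [indicator_of_notMem hm, mul_zero, add_zero]
      exact apply_le_of_re_le _ hξ1 (uncovered ht htb hr hξ1 hm)
  have hint := setIntegral_mono_on i3 (((i1.const_mul (-(5 / 100))).add (i2.const_mul 11)).add
    (i4.const_mul (105 / 100))) measurableSet_ball hpt
  rw [hopt, integral_add' ((i1.const_mul (-(5 / 100))).add (i2.const_mul 11))
    (i4.const_mul (105 / 100)), integral_add' (i1.const_mul (-(5 / 100))) (i2.const_mul 11),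
    integral_const_mul, integral_const_mul, integral_const_mul] at hint
  have c1 := disc_avg_eq (fun z => ‖fderiv ℝ g z‖) hr0 x
  have c2 := disc_avg_eq (fun z => bb (fderiv ℝ g z)) hr0 x
  have c3 := disc_avg_eq (T.indicator (fun z => ‖fderiv ℝ g z‖)) hr0 x
  rw [c1, c2, c3, smul_eq_mul, smul_eq_mul, smul_eq_mul] at hint
  have d1 : ∫ z in ball x r, T.indicator (fun z => ‖fderiv ℝ g z‖) z ≤ mu g T := by
    rw [setIntegral_indicator measurableSet_ball]
    exact mu_mono hg inter_subset_right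
  have hr2 : 0 < (r ^ 2)⁻¹ := by positivity
  have d3 : 0 ≤ (r ^ 2)⁻¹ * (-(5 / 100) * mu g (ball x r) +
      11 * (∫ z in ball x r, bb (fderiv ℝ g z)) + 105 / 100 * ∫ z in ball x r,
      T.indicator (fun z => ‖fderiv ℝ g z‖) z) := by
    have e1 : (r ^ 2)⁻¹ * (-(5 / 100) * mu g (ball x r) +
      11 * (∫ z in ball x r, bb (fderiv ℝ g z)) + 105 / 100 * ∫ z in ball x r,
      T.indicator (fun z => ‖fderiv ℝ g z‖) z) =
      -(5 / 100) * ((r ^ 2)⁻¹ * ∫ z in ball x r, ‖fderiv ℝ g z‖) +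
      11 * ((r ^ 2)⁻¹ * ∫ z in ball x r, bb (fderiv ℝ g z)) +
      105 / 100 * ((r ^ 2)⁻¹ * ∫ z in ball x r, T.indicator (fun z => ‖fderiv ℝ g z‖) z) := by
      unfold mu; ring
    rw [e1]; exact hint
  have d4 := nonneg_of_mul_nonneg_right d3 hr2
  linarith

theorem norm_sub_add_le {z x : ℂ} (t : ℝ) : ‖z - (x + t)‖ ≤ ‖z - x‖ + |t| := by
  have : z - (x + t) = (z - x) - (t : ℂ) := by ring
  rw [this]
  refine (norm_sub_le _ _).trans ?_
  rw [Complex.norm_real, Real.norm_eq_abs]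

theorem norm_sub_le_add {z x : ℂ} (t : ℝ) : ‖z - x‖ ≤ ‖z - (x + t)‖ + |t| := by
  have : z - x = (z - (x + t)) + (t : ℂ) := by ring
  rw [this]
  refine (norm_add_le _ _).trans ?_
  rw [Complex.norm_real, Real.norm_eq_abs]

namespace Peak

variable {g : ℂ → ℝ} {τ d : ℝ} {x : ℂ} {Δ a b r : ℝ}

theorem a_pos (h : Peak g τ d x Δ a b r) : 0 < a := by linarith [h.ha1, h.hd]
theorem b_pos (h : Peak g τ d x Δ a b r) : 0 < b := by linarith [h.hb1, h.hd]
theorem r_ge (h : Peak g τ d x Δ a b r) : 1 ≤ r := h.hτ.trans h.hr1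
theorem r_le (h : Peak g τ d x Δ a b r) : r ≤ 8 := by linarith [h.hr2, h.hτ']
theorem a_le (h : Peak g τ d x Δ a b r) : a ≤ 3 / 64 := by linarith [h.ha2, h.hd']
theorem b_le (h : Peak g τ d x Δ a b r) : b ≤ 3 / 64 := by linarith [h.hb2, h.hd']

theorem Aq (h : Peak g τ d x Δ a b r) {ρ : ℝ} (h1 : τ ≤ ρ) (h2 : ρ ≤ 4 * τ) :
    A g ρ (x + b) ≤ A g r x - Δ := by
  rw [h.hr]
  exact (A_le_U' h.hg (by linarith [h.hτ]) h1 h2 _).trans h.hq

theorem Ap (h : Peak g τ d x Δ a b r) {ρ : ℝ} (h1 : τ ≤ ρ) (h2 : ρ ≤ 4 * τ) :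
    A g ρ (x - a) ≤ A g r x - Δ := by
  rw [h.hr]
  exact (A_le_U' h.hg (by linarith [h.hτ]) h1 h2 _).trans h.hp

theorem vb0 (h : Peak g τ d x Δ a b r) :
    Δ / d ≤ BB g ∧ 9 / 10 * mu g (ball x (r - 3 * d)) ≤ BB g := by
  have hq := h.Aq (ρ := r + b * 0) (by linarith [h.hr1]) (by linarith [h.hr2])
  obtain ⟨t, ht, h1⟩ := path_mvt h.hg le_rfl h.b_pos (by linarith [h.r_ge]) hq
  simp only [mul_zero, add_zero, sub_zero] at h1
  have ht1 : |t| ≤ 1 := abs_le.2 ⟨by linarith [ht.1], by linarith [ht.2, h.b_le]⟩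
  have h2 := setIntegral_bb_le h.hg (ball_sub_forty h.hx ht1 (by linarith [h.r_le] : r ≤ 20))
  have h3 := h1.trans h2
  have hb := h.b_pos
  have hd := h.hd
  have h4 : 0 ≤ Real.pi * r ^ 2 * (Δ / b) := by
    have := h.hΔ; positivity
  have h5 := mu_nonneg g (ball (x + t) r)
  have h6 : Δ / d ≤ Real.pi * r ^ 2 * (Δ / b) := by
    have h7 : Δ / d ≤ 3 * (Δ / b) := by
      rw [div_le_iff₀ hd, mul_assoc, div_mul_eq_mul_div, ← mul_div_assoc, le_div_iff₀ hb]
      have := mul_le_mul_of_nonneg_left h.hb2 h.hΔ.le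
      linarith
    have h8 : 3 ≤ Real.pi * r ^ 2 := by
      have := Real.pi_gt_three
      nlinarith [h.r_ge]
    have h9 : 0 ≤ Δ / b := by have := h.hΔ; positivity
    nlinarith
  constructor
  · linarith
  · have h7 : mu g (ball x (r - 3 * d)) ≤ mu g (ball (x + t) r) := by
      apply mu_mono h.hg
      intro z hz
      rw [mem_ball, dist_eq_norm] at hz ⊢
      have : ‖z - (x + t)‖ ≤ ‖z - x‖ + |t| := by
        have : z - (x + t) = (z - x) - (t : ℂ) := by ring
        rw [this]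
        refine (norm_sub_le _ _).trans ?_
        rw [Complex.norm_real, Real.norm_eq_abs]
      have h8 : |t| < 3 * d := abs_lt.2 ⟨by linarith [ht.1], by linarith [ht.2, h.hb2]⟩
      linarith
    linarith

theorem lsd (h : Peak g τ d x Δ a b r) :
    2 * (Δ / d) ≤ mu g (closedBall x (r + 3 * d) \ ball x (r - 3 * d)) := by
  have ha := h.a_pos
  have hb := h.b_pos
  have hd := h.hd
  have hΔ := h.hΔ
  have hr : 0 < r := by linarith [h.r_ge]
  set f : ℝ → ℝ := fun t => A g r (x + t) with hf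
  have hder := fun t : ℝ => hasDerivAt_A_line h.hg x hr t
  obtain ⟨t₂, ht₂, e₂⟩ := exists_hasDerivAt_eq_slope f _ hb
    (fun t _ => (hder t).continuousAt.continuousWithinAt) (fun t _ => hder t)
  obtain ⟨t₁, ht₁, e₁⟩ := exists_hasDerivAt_eq_slope f _ (neg_lt_zero.2 ha)
    (fun t _ => (hder t).continuousAt.continuousWithinAt) (fun t _ => hder t)
  have hf0 : f 0 = A g r x := by simp [hf]
  have hfb : f b ≤ A g r x - Δ := h.Aq h.hr1 h.hr2
  have hfa : f (-a) ≤ A g r x - Δ := by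
    have := h.Ap h.hr1 h.hr2
    simp only [hf, Complex.ofReal_neg, ← sub_eq_add_neg]
    exact this
  have h₂ : (f b - f 0) / (b - 0) ≤ -(Δ / (3 * d)) := by
    rw [sub_zero, ← neg_div, div_le_div_iff₀ hb (by positivity)]
    have : Δ * b ≤ Δ * (3 * d) := mul_le_mul_of_nonneg_left h.hb2 hΔ.le
    have h3 : (f b - f 0) * (3 * d) ≤ (-Δ) * (3 * d) :=
      mul_le_mul_of_nonneg_right (by linarith) (by positivity)
    linarith
  have h₁ : Δ / (3 * d) ≤ (f 0 - f (-a)) / (0 - (-a)) := by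
    rw [zero_sub, neg_neg, div_le_div_iff₀ (by positivity) ha]
    have : Δ * a ≤ Δ * (3 * d) := mul_le_mul_of_nonneg_left h.ha2 hΔ.le
    have h3 : Δ * (3 * d) ≤ (f 0 - f (-a)) * (3 * d) :=
      mul_le_mul_of_nonneg_right (by linarith) (by positivity)
    linarith
  rw [← e₂] at h₂
  rw [← e₁] at h₁
  have hk : Integrable (fun z => fderiv ℝ g z 1) := by
    refine h.hg.integrable_norm.mono' ?_ (Eventually.of_forall fun z => ?_)
    · have := h.hg.continuous_fderiv
      exact Continuous.aestronglyMeasurable (by fun_prop)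
    · rw [Real.norm_eq_abs]; exact abs_apply_one_le _
  have ht1 : |t₁| ≤ 3 * d := abs_le.2 ⟨by linarith [ht₁.1, h.ha2], by linarith [ht₁.2]⟩
  have ht2 : |t₂| ≤ 3 * d := abs_le.2 ⟨by linarith [ht₂.1], by linarith [ht₂.2, h.hb2]⟩
  have hin : ∀ t : ℝ, |t| ≤ 3 * d → ball x (r - 3 * d) ⊆ ball (x + t) r := by
    intro t ht z hz
    rw [mem_ball, dist_eq_norm] at hz ⊢
    have := norm_sub_add_le (z := z) (x := x) t
    linarith
  have hout : ∀ t : ℝ, |t| ≤ 3 * d → ball (x + t) r ⊆ closedBall x (r + 3 * d) := by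
    intro t ht z hz
    rw [mem_ball, dist_eq_norm] at hz
    rw [mem_closedBall, dist_eq_norm]
    have := norm_sub_le_add (z := z) (x := x) t
    linarith
  have key := setIntegral_sub_le hk h.hg.integrable_norm (fun z => abs_apply_one_le _)
    (S₁ := ball (x + t₁) r) (S₂ := ball (x + t₂) r) (C := ball x (r - 3 * d))
    (D := closedBall x (r + 3 * d)) measurableSet_ball measurableSet_ball measurableSet_ball
    measurableSet_closedBall (hin _ ht1) (hin _ ht2) (hout _ ht1) (hout _ ht2)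
  have hpi := Real.pi_gt_three
  have h3 : 2 * (Δ / (3 * d)) ≤ 1 / (Real.pi * r ^ 2) *
      ((∫ z in ball (x + t₁) r, fderiv ℝ g z 1) - ∫ z in ball (x + t₂) r, fderiv ℝ g z 1) := by
    rw [mul_sub]; linarith
  have hS : 0 < Real.pi * r ^ 2 := by positivity
  have h4 : 2 * (Δ / (3 * d)) * (Real.pi * r ^ 2) ≤
      (∫ z in ball (x + t₁) r, fderiv ℝ g z 1) - ∫ z in ball (x + t₂) r, fderiv ℝ g z 1 := by
    rw [← le_div_iff₀ hS]
    rw [one_div, ← div_eq_inv_mul] at h3
    exact h3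
  refine le_trans ?_ (h4.trans key)
  have h5 : 3 ≤ Real.pi * r ^ 2 := by nlinarith [h.r_ge]
  have h6 : Δ / (3 * d) = Δ / d / 3 := by field_simp
  have h7 : 0 ≤ Δ / d := by positivity
  rw [h6]
  nlinarith

/-- interior maximiser: first order optimality -/
theorem opt (h : Peak g τ d x Δ a b r) (h1 : τ + 6 * d ≤ r) (h2 : r ≤ 4 * τ - 6 * d) :
    ∫ ξ in ball (0 : ℂ) 1, fderiv ℝ g (x + r * ξ) ξ = 0 := by
  have hd := h.hd
  have hder := hasDerivAt_A_path h.hg x 0 0 1 r
  simp only [mul_zero, add_zero, mul_one, zero_add, Complex.ofReal_one, one_mul] at hder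
  have hmax : IsLocalMax (fun t => A g t x) r := by
    have h3 : ∀ᶠ t in 𝓝 r, t ∈ Ioo τ (4 * τ) := Ioo_mem_nhds (by linarith) (by linarith)
    filter_upwards [h3] with t ht
    rw [h.hr]
    exact A_le_U' h.hg (by linarith [h.hτ]) ht.1.le ht.2.le x
  have h3 := hmax.hasDerivAt_eq_zero hder
  have hpi : (1 / Real.pi) ≠ 0 := by positivity
  exact (mul_eq_zero.1 h3).resolve_left hpi

theorem int_bound (h : Peak g τ d x Δ a b r) (h1 : τ + 6 * d ≤ r) (h2 : r ≤ 4 * τ - 6 * d) :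
    mu g (ball x r) ≤ 325 * BB g := by
  have hd := h.hd
  have hr0 : 0 < r := by linarith [h.r_ge]
  have hb0 := h.b_pos
  have hb2 := h.hb2
  have hq := h.Aq (ρ := r + b * (7 / 10)) (by linarith) (by linarith)
  obtain ⟨t, ht, h3⟩ := path_mvt h.hg (by norm_num) h.b_pos hr0 hq
  have htb : t ≤ 3 / 64 := ht.2.le.trans h.b_le
  have ht1 : |t| ≤ 1 := abs_le.2 ⟨by linarith [ht.1], by linarith⟩
  have h4 := setIntegral_bb_le h.hg (ball_sub_forty h.hx ht1
    (by linarith [h.r_le] : r + t * (7 / 10) ≤ 20))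
  have h5 : 0 ≤ Real.pi * (r + t * (7 / 10)) ^ 2 * (Δ / b) := by
    have := h.hΔ; have := h.b_pos; positivity
  have h6 : mu g (ball (x + t) (r + t * (7 / 10))) ≤ 5 * BB g := by linarith
  have h7 := mu_le_of_opt h.hg h.r_ge ht.1 htb (h.opt h1 h2)
  have hx0 : ball x r ⊆ ball (0 : ℂ) 40 := by
    have := ball_sub_forty (x := x) h.hx (t := 0) (ρ := r) (by simp) (by linarith [h.r_le])
    simpa using this
  have d2 := setIntegral_bb_le h.hg hx0
  linarith

/-- truncated mass -/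
noncomputable def _root_.Crest.Agent.R112.phit (g : ℂ → ℝ) (x : ℂ) (t : ℝ) : ℝ :=
  min (mu g (ball x t)) (3 * BB g)

theorem cut_aux (h : Peak g τ d x Δ a b r) {t : ℝ} (h1 : t - 6 * d ≤ r) (h2 : r < t + 6 * d) :
    Δ / d ≤ phit g x (t + 9 * d) - phit g x (t - 9 * d) := by
  have hd := h.hd
  have hl := h.lsd
  have hv := h.vb0
  have hB := BB_nonneg g
  have h3 : closedBall x (r + 3 * d) \ ball x (r - 3 * d) ⊆
      ball x (t + 9 * d) \ ball x (t - 9 * d) := by
    rintro z ⟨hz1, hz2⟩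
    rw [mem_closedBall] at hz1
    rw [mem_ball, not_lt] at hz2
    refine ⟨?_, ?_⟩
    · rw [mem_ball]; linarith
    · rw [mem_ball, not_lt]; linarith
  have h4 := mu_mono h.hg h3
  have h5 : ball x (t - 9 * d) ⊆ ball x (t + 9 * d) := ball_subset_ball (by linarith)
  rw [mu_sdiff h.hg measurableSet_ball h5] at h4
  have h6 : mu g (ball x (t - 9 * d)) ≤ mu g (ball x (r - 3 * d)) :=
    mu_mono h.hg (ball_subset_ball (by linarith))
  have h7 : 0 < Δ / d := div_pos h.hΔ hd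
  have h8 : phit g x (t - 9 * d) ≤ mu g (ball x (t - 9 * d)) := min_le_left _ _
  unfold phit at *
  rcases le_total (mu g (ball x (t + 9 * d))) (3 * BB g) with h9 | h9
  · rw [min_eq_left h9]; linarith
  · rw [min_eq_right h9]; linarith [hv.1, hv.2]

theorem phit_mono (hg : Nice g) {s t : ℝ} (hst : s ≤ t) : phit g x s ≤ phit g x t :=
  min_le_min (mu_mono hg (ball_subset_ball hst)) le_rfl

/-- **CUT** -/
theorem cut_bound (h : Peak g τ d x Δ a b r) (hr : r < τ + 6 * d ∨ 4 * τ - 6 * d < r) :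
    Δ / d ≤ (phit g x (τ + 9 * d) - phit g x (τ - 9 * d)) +
      (phit g x (4 * τ + 9 * d) - phit g x (4 * τ - 9 * d)) := by
  have hd := h.hd
  have h1 := phit_mono (x := x) h.hg (s := τ - 9 * d) (t := τ + 9 * d) (by linarith)
  have h2 := phit_mono (x := x) h.hg (s := 4 * τ - 9 * d) (t := 4 * τ + 9 * d) (by linarith)
  rcases hr with hr | hr
  · have := h.cut_aux (t := τ) (by linarith [h.hr1]) hr
    linarith
  · have := h.cut_aux (t := 4 * τ) (by linarith) (by linarith [h.hr2])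
    linarith

end Peak

end Crest.Agent.R112
end

-- ▼ part R112/KPolar
section

set_option autoImplicit false

namespace Crest.Agent.R112

open MeasureTheory Set Real intervalIntegral

/-- unit vector -/
noncomputable def dir (θ : ℝ) : ℂ := ⟨Real.cos θ, Real.sin θ⟩

@[simp] theorem dir_re (θ : ℝ) : (dir θ).re = Real.cos θ := rfl
@[simp] theorem dir_im (θ : ℝ) : (dir θ).im = Real.sin θ := rfl

theorem dir_eq (θ : ℝ) : dir θ = (Real.cos θ : ℂ) + Real.sin θ * Complex.I := by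
  apply Complex.ext
  · simp [dir, Complex.cos_ofReal_re]
  · simp [dir, Complex.sin_ofReal_re]

theorem norm_dir (θ : ℝ) : ‖dir θ‖ = 1 := by
  rw [Complex.norm_def, Complex.normSq_apply]; simp [← sq]

@[fun_prop]
theorem continuous_dir : Continuous dir := by
  have : dir = fun θ => (Real.cos θ : ℂ) + Real.sin θ * Complex.I := by
    funext θ; exact dir_eq θ
  rw [this]; fun_prop

/-- the point at distance `s` from `x` in direction `θ` -/
noncomputable def pt (x : ℂ) (s θ : ℝ) : ℂ := x + s * dir θ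

@[simp] theorem pt_re (x : ℂ) (s θ : ℝ) : (pt x s θ).re = x.re + s * Real.cos θ := by
  simp [pt]

@[simp] theorem pt_im (x : ℂ) (s θ : ℝ) : (pt x s θ).im = x.im + s * Real.sin θ := by
  simp [pt]


@[fun_prop]
theorem Continuous.pt' {α : Type*} [TopologicalSpace α] {f : α → ℂ} {s t : α → ℝ}
    (hf : Continuous f) (hs : Continuous s) (ht : Continuous t) :
    Continuous (fun a => pt (f a) (s a) (t a)) := by
  unfold pt; fun_prop

theorem norm_pt_sub (x : ℂ) (s θ : ℝ) : ‖pt x s θ - x‖ = |s| := by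
  simp [pt, norm_dir]

theorem pt_mem_ball {x : ℂ} {s θ ρ : ℝ} (hs : 0 < s) : pt x s θ ∈ Metric.ball x ρ ↔ s < ρ := by
  rw [Metric.mem_ball, dist_eq_norm, norm_pt_sub, abs_of_pos hs]

/-- polar coordinates for star-shaped sets -/
theorem polar_set {S : Set ℂ} (hS : MeasurableSet S) {x : ℂ} {R : ℝ → ℝ} (hR : Continuous R)
    (hR0 : ∀ θ, 0 ≤ R θ)
    (hmem : ∀ θ s : ℝ, 0 < s → (pt x s θ ∈ S ↔ s < R θ))
    {h : ℂ → ℝ} (hh : Continuous h) :
    ∫ z in S, h z = ∫ θ in (-π)..π, ∫ s in (0:ℝ)..(R θ), s * h (pt x s θ) := by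
  classical
  set W : Set (ℝ × ℝ) := {p | p.1 < R p.2} with hW
  have hWo : MeasurableSet W :=
    (isOpen_lt continuous_fst (hR.comp continuous_snd)).measurableSet
  set F : ℝ × ℝ → ℝ := fun p => p.1 * h (pt x p.1 p.2) with hF
  have hFc : Continuous F := by rw [hF]; fun_prop
  -- step 1
  have h1 : ∫ z in S, h z = ∫ p in polarCoord.target, W.indicator F p := by
    rw [← MeasureTheory.integral_indicator hS, ← integral_add_left_eq_self _ x,
      ← Complex.integral_comp_polarCoord_symm]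
    apply setIntegral_congr_fun
    · exact polarCoord.open_target.measurableSet
    · rintro ⟨s, θ⟩ hp
      rw [polarCoord_target] at hp
      have hs : 0 < s := hp.1
      have he : x + Complex.polarCoord.symm (s, θ) = pt x s θ := by
        rw [Complex.polarCoord_symm_apply, pt, dir_eq]
      simp only [he]
      by_cases hm : s < R θ
      · have : pt x s θ ∈ S := (hmem θ s hs).2 hm
        rw [indicator_of_mem this, indicator_of_mem (show (s, θ) ∈ W from hm)]
        simp [hF]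
      · have : pt x s θ ∉ S := fun hh' => hm ((hmem θ s hs).1 hh')
        rw [indicator_of_notMem this, indicator_of_notMem (show (s, θ) ∉ W from hm)]
        simp
  -- bound for R
  obtain ⟨M, hM⟩ := (isCompact_Icc (a := -π) (b := π)).bddAbove_image hR.continuousOn
  have hM' : ∀ θ ∈ Icc (-π) π, R θ ≤ M := fun θ hθ => hM ⟨θ, hθ, rfl⟩
  have hK : IntegrableOn F (Icc (0:ℝ) M ×ˢ Icc (-π) π) :=
    hFc.continuousOn.integrableOn_compact (isCompact_Icc.prod isCompact_Icc)
  have hint : IntegrableOn (W.indicator F) (Ioi (0:ℝ) ×ˢ Ioo (-π) π) := by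
    rw [integrableOn_indicator_iff hWo]
    apply hK.mono_set
    rintro ⟨s, θ⟩ ⟨h1, h2, h3⟩
    have h3' : θ ∈ Icc (-π) π := ⟨h3.1.le, h3.2.le⟩
    exact ⟨⟨le_of_lt h2, (le_of_lt h1).trans (hM' θ h3')⟩, h3'⟩
  rw [h1, polarCoord_target]
  have h2 : ∫ p in (Ioi (0:ℝ) ×ˢ Ioo (-π) π), W.indicator F p
      = ∫ θ in Ioo (-π) π, ∫ s in Ioi (0:ℝ), W.indicator F (s, θ) := by
    rw [Measure.volume_eq_prod, ← setIntegral_prod_swap]
    rw [setIntegral_prod]
    · rfl
    · have := hint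
      rw [Measure.volume_eq_prod] at this
      exact this.swap
  rw [h2, intervalIntegral.integral_of_le (by linarith [Real.pi_pos]),
    ← integral_Ioc_eq_integral_Ioo]
  apply setIntegral_congr_fun measurableSet_Ioc
  intro θ _
  simp only
  rw [intervalIntegral.integral_of_le (hR0 θ), integral_Ioc_eq_integral_Ioo]
  have : ∀ s, W.indicator F (s, θ) = (Iio (R θ)).indicator (fun s => F (s, θ)) s := by
    intro s
    by_cases hm : s < R θ
    · rw [indicator_of_mem (show (s, θ) ∈ W from hm), indicator_of_mem (show s ∈ Iio (R θ) from hm)]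
    · rw [indicator_of_notMem (show (s, θ) ∉ W from hm),
        indicator_of_notMem (show s ∉ Iio (R θ) from hm)]
  simp_rw [this]
  rw [setIntegral_indicator measurableSet_Iio, Ioi_inter_Iio]

theorem polar_ball {x : ℂ} {ρ : ℝ} (hρ : 0 ≤ ρ) {h : ℂ → ℝ} (hh : Continuous h) :
    ∫ z in Metric.ball x ρ, h z = ∫ θ in (-π)..π, ∫ s in (0:ℝ)..ρ, s * h (pt x s θ) := by
  exact polar_set Metric.isOpen_ball.measurableSet (R := fun _ => ρ) continuous_const
    (fun _ => hρ) (fun θ s hs => pt_mem_ball hs) hh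

end Crest.Agent.R112
end

-- ▼ part R112/KMass
section

set_option autoImplicit false

namespace Crest.Agent.R112

open MeasureTheory Set Real intervalIntegral

variable {g : ℂ → ℝ}

theorem cont_fd (hg : ContDiff ℝ 1 g) : Continuous (fderiv ℝ g) :=
  hg.continuous_fderiv one_ne_zero

theorem cont_nfd (hg : ContDiff ℝ 1 g) : Continuous (fun z => ‖fderiv ℝ g z‖) :=
  (cont_fd hg).norm

theorem ftc_path (hg : ContDiff ℝ 1 g) {γ γ' : ℝ → ℂ} (hγ : ∀ t, HasDerivAt γ (γ' t) t)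
    (hγ' : Continuous γ') (a b : ℝ) :
    ∫ t in a..b, fderiv ℝ g (γ t) (γ' t) = g (γ b) - g (γ a) := by
  apply intervalIntegral.integral_eq_sub_of_hasDerivAt (f := fun t => g (γ t))
  · intro t _
    exact ((hg.differentiable one_ne_zero (γ t)).hasFDerivAt).comp_hasDerivAt t (hγ t)
  · have hγc : Continuous γ := continuous_iff_continuousAt.2 fun t => (hγ t).continuousAt
    exact (((cont_fd hg).comp hγc).clm_apply hγ').intervalIntegrable _ _

theorem hasDerivAt_pt_s (x : ℂ) (θ s : ℝ) : HasDerivAt (fun s => pt x s θ) (dir θ) s := by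
  unfold pt
  have h : HasDerivAt (fun s : ℝ => (s : ℂ)) 1 s := Complex.ofRealCLM.hasDerivAt
  simpa using (h.mul_const (dir θ)).const_add x

/-- derivative of `dir` -/
noncomputable def dir' (θ : ℝ) : ℂ := ⟨-Real.sin θ, Real.cos θ⟩

theorem norm_dir' (θ : ℝ) : ‖dir' θ‖ = 1 := by
  rw [Complex.norm_def, Complex.normSq_apply]; simp [dir', ← sq]

theorem hasDerivAt_dir (θ : ℝ) : HasDerivAt dir (dir' θ) θ := by
  have h1 : HasDerivAt (fun θ : ℝ => (Real.cos θ : ℂ) + Real.sin θ * Complex.I)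
      (((-Real.sin θ : ℝ) : ℂ) + ((Real.cos θ : ℝ) : ℂ) * Complex.I) θ :=
    (Real.hasDerivAt_cos θ).ofReal_comp.add ((Real.hasDerivAt_sin θ).ofReal_comp.mul_const _)
  have h2 : dir = fun θ : ℝ => (Real.cos θ : ℂ) + Real.sin θ * Complex.I := by
    funext θ; exact dir_eq θ
  have h3 : dir' θ = (((-Real.sin θ : ℝ) : ℂ) + ((Real.cos θ : ℝ) : ℂ) * Complex.I) := by
    apply Complex.ext
    · simp [dir', Complex.sin_ofReal_re]
    · simp [dir', Complex.cos_ofReal_re]
  rw [h2, h3]; exact h1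

theorem continuous_dir' : Continuous dir' := by
  have h3 : dir' = fun θ : ℝ => (((-Real.sin θ : ℝ) : ℂ) + ((Real.cos θ : ℝ) : ℂ) * Complex.I) := by
    funext θ
    apply Complex.ext
    · simp [dir', Complex.sin_ofReal_re]
    · simp [dir', Complex.cos_ofReal_re]
  rw [h3]; fun_prop

theorem hasDerivAt_pt_θ (x : ℂ) (s θ : ℝ) : HasDerivAt (fun θ => pt x s θ) (s * dir' θ) θ := by
  unfold pt
  exact ((hasDerivAt_dir θ).const_mul (s : ℂ)).const_add x

/-- total gradient mass of a ball -/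
noncomputable def mass (g : ℂ → ℝ) (x : ℂ) (ρ : ℝ) : ℝ :=
  ∫ z in Metric.ball x ρ, ‖fderiv ℝ g z‖

theorem ofPolar_cont {h : ℂ → ℝ} (hh : Continuous h) (x : ℂ) (c : ℝ) :
    Continuous (fun ρ : ℝ => ∫ θ in (-π)..π, ∫ s in c..ρ, s * h (pt x s θ)) := by
  have : Continuous (fun p : ℝ × ℝ => ∫ s in c..p.1, s * h (pt x s p.2)) := by fun_prop
  fun_prop

theorem int_ball_cont {h : ℂ → ℝ} (hh : Continuous h) (x : ℂ) :
    ContinuousOn (fun ρ : ℝ => ∫ z in Metric.ball x ρ, h z) (Ici 0) := by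
  apply (ofPolar_cont hh x 0).continuousOn.congr
  intro ρ hρ
  exact polar_ball hρ hh

theorem int_ball_sub {h : ℂ → ℝ} (hh : Continuous h) (x : ℂ) {ρ₁ ρ₂ : ℝ} (h1 : 0 ≤ ρ₁)
    (h2 : 0 ≤ ρ₂) :
    (∫ z in Metric.ball x ρ₂, h z) - ∫ z in Metric.ball x ρ₁, h z
      = ∫ θ in (-π)..π, ∫ s in ρ₁..ρ₂, s * h (pt x s θ) := by
  rw [polar_ball h1 hh, polar_ball h2 hh, ← intervalIntegral.integral_sub]
  · apply intervalIntegral.integral_congr
    intro θ _
    simp only
    rw [intervalIntegral.integral_interval_sub_left]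
    · exact Continuous.intervalIntegrable (by fun_prop) _ _
    · exact Continuous.intervalIntegrable (by fun_prop) _ _
  · exact Continuous.intervalIntegrable (by fun_prop) _ _
  · exact Continuous.intervalIntegrable (by fun_prop) _ _

theorem mass_mono (hg : ContDiff ℝ 1 g) (x : ℂ) {ρ₁ ρ₂ : ℝ} (h : ρ₁ ≤ ρ₂) :
    mass g x ρ₁ ≤ mass g x ρ₂ := by
  apply setIntegral_mono_set
  · exact ((cont_nfd hg).continuousOn.integrableOn_compact
      (isCompact_closedBall x ρ₂)).mono_set Metric.ball_subset_closedBall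
  · exact Filter.Eventually.of_forall fun z => norm_nonneg _
  · exact (Metric.ball_subset_ball h).eventuallyLE

theorem mass_nonneg (x : ℂ) (ρ : ℝ) : 0 ≤ mass g x ρ :=
  integral_nonneg fun _ => norm_nonneg _

/-- ring estimate in polar coordinates -/
theorem ring_le (hg : ContDiff ℝ 1 g) (x : ℂ) {ρ₁ ρ₂ : ℝ} (h1 : 0 ≤ ρ₁) (h12 : ρ₁ ≤ ρ₂) :
    ρ₁ * (∫ θ in (-π)..π, ∫ s in ρ₁..ρ₂, ‖fderiv ℝ g (pt x s θ)‖) ≤ mass g x ρ₂ - mass g x ρ₁ := by
  have hc := cont_nfd hg
  unfold mass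
  rw [int_ball_sub hc x h1 (h1.trans h12), ← intervalIntegral.integral_const_mul]
  apply intervalIntegral.integral_mono_on (by linarith [Real.pi_pos])
  · exact Continuous.intervalIntegrable (by fun_prop) _ _
  · exact Continuous.intervalIntegrable (by fun_prop) _ _
  · intro θ _
    rw [← intervalIntegral.integral_const_mul]
    apply intervalIntegral.integral_mono_on h12
    · exact Continuous.intervalIntegrable (by fun_prop) _ _
    · exact Continuous.intervalIntegrable (by fun_prop) _ _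
    · intro s hs
      exact mul_le_mul_of_nonneg_right hs.1 (norm_nonneg _)

theorem radial_diff (hg : ContDiff ℝ 1 g) (x : ℂ) (θ : ℝ) {s₁ s₂ : ℝ} (h12 : s₁ ≤ s₂) :
    |g (pt x s₂ θ) - g (pt x s₁ θ)| ≤ ∫ s in s₁..s₂, ‖fderiv ℝ g (pt x s θ)‖ := by
  have hc := cont_nfd hg
  rw [← ftc_path hg (γ := fun s => pt x s θ) (γ' := fun _ => dir θ)
    (fun t => hasDerivAt_pt_s x θ t) continuous_const]
  apply (intervalIntegral.abs_integral_le_integral_abs h12).trans
  have hfc := cont_fd hg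
  apply intervalIntegral.integral_mono_on h12
  · exact Continuous.intervalIntegrable
      (((hfc.comp (by fun_prop)).clm_apply continuous_const).abs) _ _
  · exact Continuous.intervalIntegrable (by fun_prop) _ _
  · intro s _
    have := (fderiv ℝ g (pt x s θ)).le_opNorm (dir θ)
    rw [norm_dir, mul_one] at this
    exact this

theorem angular_diff (hg : ContDiff ℝ 1 g) (x : ℂ) {s : ℝ} (hs : 0 ≤ s) {θ₁ θ₂ : ℝ}
    (h1 : -π ≤ θ₁) (h12 : θ₁ ≤ θ₂) (h2 : θ₂ ≤ π) :
    |g (pt x s θ₂) - g (pt x s θ₁)| ≤ s * ∫ θ in (-π)..π, ‖fderiv ℝ g (pt x s θ)‖ := by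
  have hc := cont_nfd hg
  have hfc := cont_fd hg
  rw [← ftc_path hg (γ := fun θ => pt x s θ) (γ' := fun θ => s * dir' θ)
    (fun t => hasDerivAt_pt_θ x s t) (continuous_const.mul continuous_dir')]
  apply (intervalIntegral.abs_integral_le_integral_abs h12).trans
  rw [← intervalIntegral.integral_const_mul]
  have step : ∫ θ in θ₁..θ₂, |fderiv ℝ g (pt x s θ) (s * dir' θ)|
      ≤ ∫ θ in θ₁..θ₂, s * ‖fderiv ℝ g (pt x s θ)‖ := by
    apply intervalIntegral.integral_mono_on h12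
    · exact Continuous.intervalIntegrable
        (((hfc.comp (by fun_prop)).clm_apply (continuous_const.mul continuous_dir')).abs) _ _
    · exact Continuous.intervalIntegrable (by fun_prop) _ _
    · intro θ _
      have := (fderiv ℝ g (pt x s θ)).le_opNorm (s * dir' θ)
      rw [norm_mul, norm_dir', mul_one, Complex.norm_real, Real.norm_of_nonneg hs] at this
      rw [mul_comm s ‖_‖]
      exact this
  refine step.trans ?_
  apply intervalIntegral.integral_mono_interval h1 h12 h2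
  · exact Filter.Eventually.of_forall fun θ => mul_nonneg hs (norm_nonneg _)
  · exact Continuous.intervalIntegrable (by fun_prop) _ _

end Crest.Agent.R112
end

-- ▼ part R112/KTrace
section

set_option autoImplicit false

namespace Crest.Agent.R112

open MeasureTheory Set Real intervalIntegral

variable {g : ℂ → ℝ}

/-- pointwise trace estimate -/
theorem trace_pointwise (hg : ContDiff ℝ 1 g) (x : ℂ) {ρ : ℝ} (hρ : 0 < ρ) {θ θ' : ℝ}
    (h1 : θ ∈ Icc (-π) π) (h2 : θ' ∈ Icc (-π) π) :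
    |g (pt x ρ θ) - g (pt x ρ θ')| ≤
      (∫ s in (ρ/2)..ρ, ‖fderiv ℝ g (pt x s θ)‖) + (∫ s in (ρ/2)..ρ, ‖fderiv ℝ g (pt x s θ')‖)
        + (2 / ρ) * mass g x ρ := by
  have hc := cont_nfd hg
  set P : ℝ → ℝ := fun θ => ∫ s in (ρ/2)..ρ, ‖fderiv ℝ g (pt x s θ)‖ with hP
  have hrad : ∀ φ s, s ∈ Icc (ρ/2) ρ → |g (pt x ρ φ) - g (pt x s φ)| ≤ P φ := by
    intro φ s hs
    refine (radial_diff hg x φ hs.2).trans ?_
    apply intervalIntegral.integral_mono_interval hs.1 hs.2 le_rfl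
    · exact Filter.Eventually.of_forall fun θ => norm_nonneg _
    · exact Continuous.intervalIntegrable (by fun_prop) _ _
  have key : ∀ s ∈ Icc (ρ/2) ρ, |g (pt x ρ θ) - g (pt x ρ θ')| ≤ P θ + P θ' +
      s * ∫ θ in (-π)..π, ‖fderiv ℝ g (pt x s θ)‖ := by
    intro s hs
    have hs0 : 0 ≤ s := by linarith [hs.1]
    have a1 := abs_le.1 (hrad θ s hs)
    have a2 := abs_le.1 (hrad θ' s hs)
    have a3 : |g (pt x s θ) - g (pt x s θ')| ≤ s * ∫ θ in (-π)..π, ‖fderiv ℝ g (pt x s θ)‖ := by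
      rcases le_total θ' θ with h | h
      · exact angular_diff hg x hs0 h2.1 h h1.2
      · rw [abs_sub_comm]
        exact angular_diff hg x hs0 h1.1 h h2.2
    have a3' := abs_le.1 a3
    rw [abs_le]
    constructor <;> linarith [a1.1, a1.2, a2.1, a2.2, a3'.1, a3'.2]
  -- integrate over s
  have hint : (ρ / 2) * |g (pt x ρ θ) - g (pt x ρ θ')| ≤ (ρ / 2) * (P θ + P θ') + mass g x ρ := by
    have e1 : ∫ s in (ρ/2)..ρ, |g (pt x ρ θ) - g (pt x ρ θ')|
        = (ρ/2) * |g (pt x ρ θ) - g (pt x ρ θ')| := by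
      rw [intervalIntegral.integral_const, smul_eq_mul]; ring
    have e2 : ∫ s in (ρ/2)..ρ, (P θ + P θ' +
        s * ∫ θ in (-π)..π, ‖fderiv ℝ g (pt x s θ)‖) =
        (ρ/2) * (P θ + P θ') + ∫ s in (ρ/2)..ρ, s * ∫ θ in (-π)..π, ‖fderiv ℝ g (pt x s θ)‖ := by
      rw [intervalIntegral.integral_add, intervalIntegral.integral_const, smul_eq_mul]
      · ring
      · exact Continuous.intervalIntegrable (by fun_prop) _ _
      · exact Continuous.intervalIntegrable (by fun_prop) _ _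
    have e3 : ∫ s in (ρ/2)..ρ, s * (∫ θ in (-π)..π, ‖fderiv ℝ g (pt x s θ)‖) ≤ mass g x ρ := by
      have e4 : ∫ s in (ρ/2)..ρ, s * (∫ θ in (-π)..π, ‖fderiv ℝ g (pt x s θ)‖)
          = ∫ θ in (-π)..π, ∫ s in (ρ/2)..ρ, s * ‖fderiv ℝ g (pt x s θ)‖ := by
        rw [← MeasureTheory.intervalIntegral_intervalIntegral_swap]
        · apply intervalIntegral.integral_congr
          intro s _
          simp only
          rw [intervalIntegral.integral_const_mul]
        · have : Continuous (Function.uncurry fun s θ : ℝ => s * ‖fderiv ℝ g (pt x s θ)‖) := by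
            fun_prop
          exact (this.continuousOn.integrableOn_compact
            ((isCompact_uIcc (a := ρ/2) (b := ρ)).prod (isCompact_uIcc (a := -π) (b := π)))).mono_set
              (prod_mono uIoc_subset_uIcc uIoc_subset_uIcc)
      rw [e4, ← int_ball_sub hc x (by linarith) hρ.le]
      have := mass_nonneg (g := g) x (ρ/2)
      unfold mass at *
      linarith
    have e5 : ∫ s in (ρ/2)..ρ, |g (pt x ρ θ) - g (pt x ρ θ')| ≤ ∫ s in (ρ/2)..ρ, (P θ + P θ' +
        s * ∫ θ in (-π)..π, ‖fderiv ℝ g (pt x s θ)‖) := by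
      apply intervalIntegral.integral_mono_on (by linarith)
      · exact Continuous.intervalIntegrable (by fun_prop) _ _
      · exact Continuous.intervalIntegrable (by fun_prop) _ _
      · exact key
    rw [e1, e2] at e5
    linarith
  have h3 : |g (pt x ρ θ) - g (pt x ρ θ')| ≤
      (2 / ρ) * ((ρ / 2) * (P θ + P θ') + mass g x ρ) := by
    calc |g (pt x ρ θ) - g (pt x ρ θ')|
        = (2/ρ) * ((ρ / 2) * |g (pt x ρ θ) - g (pt x ρ θ')|) := by field_simp
      _ ≤ _ := by gcongr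
  calc _ ≤ _ := h3
    _ = P θ + P θ' + (2 / ρ) * mass g x ρ := by field_simp

/-- trace inequality against a bounded weight -/
theorem trace_weight (hg : ContDiff ℝ 1 g) (x : ℂ) {ρ : ℝ} (hρ : 0 < ρ)
    {κ : ℝ → ℝ} (hκ : Continuous κ) {κ₀ : ℝ} (hκ0 : ∀ θ, |κ θ| ≤ κ₀) (c : ℝ) :
    |∫ θ in (-π)..π, (g (pt x ρ θ) - c) * κ θ| ≤
      κ₀ * |∫ θ in (-π)..π, (g (pt x ρ θ) - c)| + 17 * κ₀ / ρ * mass g x ρ := by
  have hc := cont_nfd hg
  have hgc := hg.continuous
  have hpi := Real.pi_pos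
  have hκ₀ : 0 ≤ κ₀ := (abs_nonneg _).trans (hκ0 0)
  set m := mass g x ρ with hm
  have hm0 : 0 ≤ m := mass_nonneg x ρ
  set P : ℝ → ℝ := fun θ => ∫ s in (ρ/2)..ρ, ‖fderiv ℝ g (pt x s θ)‖ with hP
  have hPc : Continuous P := by rw [hP]; fun_prop
  set I := ∫ θ in (-π)..π, P θ with hI
  have hIm : I ≤ (2 / ρ) * m := by
    have := ring_le hg x (ρ₁ := ρ/2) (ρ₂ := ρ) (by linarith) (by linarith)
    have h0 := mass_nonneg (g := g) x (ρ/2)
    have h1 : (ρ/2) * I ≤ m := by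
      rw [hI, hP]; linarith
    calc I = (2/ρ) * ((ρ/2) * I) := by field_simp
      _ ≤ (2/ρ) * m := by gcongr
  have hI0 : 0 ≤ I := by
    apply intervalIntegral.integral_nonneg (by linarith)
    intro θ _
    apply intervalIntegral.integral_nonneg (by linarith)
    intro s _
    exact norm_nonneg _
  set G : ℝ → ℝ := fun θ => g (pt x ρ θ) - c with hG
  have hGc : Continuous G := by rw [hG]; fun_prop
  set M := ∫ θ in (-π)..π, G θ with hM
  -- pointwise distance to the mean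
  have hmean : ∀ θ ∈ Icc (-π) π, |G θ - M / (2 * π)| ≤ P θ + I / (2 * π) + (2 / ρ) * m := by
    intro θ hθ
    have e1 : 2 * π * (G θ - M / (2*π)) = ∫ θ' in (-π)..π, (G θ - G θ') := by
      rw [intervalIntegral.integral_sub, intervalIntegral.integral_const, smul_eq_mul, ← hM]
      · field_simp; ring
      · exact Continuous.intervalIntegrable (by fun_prop) _ _
      · exact Continuous.intervalIntegrable (by fun_prop) _ _
    have e2 : |∫ θ' in (-π)..π, (G θ - G θ')| ≤ ∫ θ' in (-π)..π, (P θ + P θ' + (2/ρ) * m) := by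
      apply (intervalIntegral.abs_integral_le_integral_abs (by linarith)).trans
      apply intervalIntegral.integral_mono_on (by linarith)
      · exact Continuous.intervalIntegrable (by fun_prop) _ _
      · exact Continuous.intervalIntegrable (by fun_prop) _ _
      · intro θ' hθ'
        have := trace_pointwise hg x hρ hθ hθ'
        have e : G θ - G θ' = g (pt x ρ θ) - g (pt x ρ θ') := by rw [hG]; ring
        rw [e]; exact this
    have e3 : ∫ θ' in (-π)..π, (P θ + P θ' + (2/ρ) * m) = 2 * π * (P θ + (2/ρ) * m) + I := by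
      have : (fun θ' => P θ + P θ' + (2/ρ) * m) = fun θ' => P θ' + (P θ + (2/ρ)*m) := by
        funext; ring
      rw [this, intervalIntegral.integral_add, intervalIntegral.integral_const, smul_eq_mul, ← hI]
      · ring
      · exact Continuous.intervalIntegrable (by fun_prop) _ _
      · exact Continuous.intervalIntegrable (by fun_prop) _ _
    rw [e3, ← e1, abs_mul, abs_of_pos (by positivity : (0:ℝ) < 2 * π)] at e2
    have : |G θ - M / (2 * π)| ≤ (2 * π * (P θ + (2/ρ) * m) + I) / (2 * π) := by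
      rw [le_div_iff₀ (by positivity)]; linarith
    refine this.trans (le_of_eq ?_)
    field_simp; ring
  have e1 : ∫ θ in (-π)..π, G θ * κ θ = (∫ θ in (-π)..π, (G θ - M/(2*π)) * κ θ)
      + M/(2*π) * ∫ θ in (-π)..π, κ θ := by
    rw [← intervalIntegral.integral_const_mul, ← intervalIntegral.integral_add]
    · apply intervalIntegral.integral_congr
      intro θ _; simp only; ring
    · exact Continuous.intervalIntegrable (by fun_prop) _ _
    · exact Continuous.intervalIntegrable (by fun_prop) _ _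
  have e2 : |∫ θ in (-π)..π, (G θ - M/(2*π)) * κ θ| ≤ κ₀ * (I + I + 2 * π * ((2/ρ) * m)) := by
    apply (intervalIntegral.abs_integral_le_integral_abs (by linarith)).trans
    have e3 : ∫ θ in (-π)..π, |(G θ - M/(2*π)) * κ θ| ≤
        ∫ θ in (-π)..π, κ₀ * (P θ + (I / (2 * π) + (2 / ρ) * m)) := by
      apply intervalIntegral.integral_mono_on (by linarith)
      · exact Continuous.intervalIntegrable (by fun_prop) _ _
      · exact Continuous.intervalIntegrable (by fun_prop) _ _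
      · intro θ hθ
        rw [abs_mul, mul_comm]
        have := hmean θ hθ
        have h2 := hκ0 θ
        apply mul_le_mul h2 (by linarith) (abs_nonneg _) hκ₀
    refine e3.trans (le_of_eq ?_)
    rw [intervalIntegral.integral_const_mul, intervalIntegral.integral_add,
      intervalIntegral.integral_const, smul_eq_mul, ← hI]
    · field_simp; ring
    · exact Continuous.intervalIntegrable (by fun_prop) _ _
    · exact Continuous.intervalIntegrable (by fun_prop) _ _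
  have e4 : |∫ θ in (-π)..π, κ θ| ≤ κ₀ * (2 * π) := by
    apply (intervalIntegral.abs_integral_le_integral_abs (by linarith)).trans
    have : ∫ θ in (-π)..π, |κ θ| ≤ ∫ θ in (-π)..π, κ₀ := by
      apply intervalIntegral.integral_mono_on (by linarith)
      · exact Continuous.intervalIntegrable (by fun_prop) _ _
      · exact Continuous.intervalIntegrable (by fun_prop) _ _
      · intro θ _; exact hκ0 θ
    refine this.trans (le_of_eq ?_)
    rw [intervalIntegral.integral_const, smul_eq_mul]; ring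
  change |∫ θ in (-π)..π, G θ * κ θ| ≤ κ₀ * |M| + 17 * κ₀ / ρ * m
  rw [e1]
  refine (abs_add_le _ _).trans ?_
  rw [abs_mul, abs_div, abs_of_pos (by positivity : (0:ℝ) < 2 * π)]
  have e5 : |M| / (2*π) * |∫ θ in (-π)..π, κ θ| ≤ |M| / (2*π) * (κ₀ * (2 * π)) := by gcongr
  have e6 : |M| / (2*π) * (κ₀ * (2 * π)) = κ₀ * |M| := by field_simp
  have e7 : κ₀ * (I + I + 2 * π * ((2/ρ) * m)) ≤ 17 * κ₀ / ρ * m := by
    have : κ₀ * (I + I + 2 * π * ((2/ρ) * m)) ≤ κ₀ * ((2/ρ)*m + (2/ρ)*m + 2 * 3.15 * ((2/ρ) * m)) := by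
      have hpi2 := Real.pi_lt_d2
      have : 0 ≤ (2/ρ) * m := by positivity
      gcongr
    refine this.trans ?_
    have e : κ₀ * ((2/ρ)*m + (2/ρ)*m + 2 * 3.15 * ((2/ρ) * m)) = 16.6 * (κ₀ / ρ * m) := by ring
    have e' : 17 * κ₀ / ρ * m = 17 * (κ₀ / ρ * m) := by ring
    rw [e, e']
    have : 0 ≤ κ₀ / ρ * m := by positivity
    linarith
  linarith [e2, e5, e6, e7]

end Crest.Agent.R112
end

-- ▼ part R112/KExit
section

set_option autoImplicit false

namespace Crest.Agent.R112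

open MeasureTheory Set Real intervalIntegral

variable {g : ℂ → ℝ}

/-- exit radius (from `x`) of the ball of radius `ρ` about `x + b`, in direction `θ` -/
noncomputable def Sx (b ρ θ : ℝ) : ℝ := b * cos θ + √(ρ ^ 2 - b ^ 2 * sin θ ^ 2)

theorem continuous_Sx (b ρ : ℝ) : Continuous (Sx b ρ) := by unfold Sx; fun_prop

section
variable {b ρ : ℝ} (h : |b| < ρ)
include h

theorem Sx_disc (θ : ℝ) : (b * cos θ) ^ 2 < ρ ^ 2 - b ^ 2 * sin θ ^ 2 := by
  have h1 : b ^ 2 < ρ ^ 2 := sq_lt_sq' (by linarith [abs_nonneg b, neg_abs_le b]) (lt_of_abs_lt h)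
  have h2 : sin θ ^ 2 = 1 - cos θ ^ 2 := by rw [Real.sin_sq]
  rw [h2]; nlinarith

theorem Sx_sqrt (θ : ℝ) : |b * cos θ| < √(ρ ^ 2 - b ^ 2 * sin θ ^ 2) := by
  apply Real.lt_sqrt_of_sq_lt
  rw [sq_abs]
  exact Sx_disc h θ

theorem Sx_pos (θ : ℝ) : 0 < Sx b ρ θ := by
  have := Sx_sqrt h θ
  unfold Sx
  linarith [neg_abs_le (b * cos θ)]

theorem Sx_sq (θ : ℝ) : (Sx b ρ θ) ^ 2 - 2 * b * cos θ * Sx b ρ θ = ρ ^ 2 - b ^ 2 := by
  have h1 : √(ρ ^ 2 - b ^ 2 * sin θ ^ 2) ^ 2 = ρ ^ 2 - b ^ 2 * sin θ ^ 2 := by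
    apply Real.sq_sqrt
    exact (sq_nonneg _).trans (Sx_disc h θ).le
  have h2 : sin θ ^ 2 = 1 - cos θ ^ 2 := by rw [Real.sin_sq]
  unfold Sx
  rw [h2] at h1 ⊢
  linear_combination h1

theorem Sx_mem (x : ℂ) (θ s : ℝ) (hs : 0 < s) :
    pt x s θ ∈ Metric.ball (x + b) ρ ↔ s < Sx b ρ θ := by
  have hρ : 0 < ρ := (abs_nonneg b).trans_lt h
  have e1 : ‖pt x s θ - (x + b)‖ ^ 2 = s ^ 2 - 2 * b * s * cos θ + b ^ 2 := by
    rw [← Complex.normSq_eq_norm_sq, Complex.normSq_apply]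
    simp only [Complex.sub_re, Complex.sub_im, pt_re, pt_im, Complex.add_re, Complex.add_im,
      Complex.ofReal_re, Complex.ofReal_im]
    have h2 : sin θ ^ 2 = 1 - cos θ ^ 2 := by rw [Real.sin_sq]
    linear_combination s ^ 2 * h2
  rw [Metric.mem_ball, dist_eq_norm]
  have hS := Sx_sqrt h θ
  have hsq : √(ρ ^ 2 - b ^ 2 * sin θ ^ 2) ^ 2 = ρ ^ 2 - b ^ 2 * sin θ ^ 2 := by
    apply Real.sq_sqrt
    exact (sq_nonneg _).trans (Sx_disc h θ).le
  have h2 : sin θ ^ 2 = 1 - cos θ ^ 2 := by rw [Real.sin_sq]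
  set q := √(ρ ^ 2 - b ^ 2 * sin θ ^ 2) with hq
  have hq0 : 0 ≤ q := Real.sqrt_nonneg _
  have e2 : ‖pt x s θ - (x + b)‖ ^ 2 - ρ ^ 2 = (s - b * cos θ) ^ 2 - q ^ 2 := by
    rw [e1, hsq, h2]; ring
  unfold Sx
  rw [← hq]
  constructor
  · intro hlt
    have : ‖pt x s θ - (x + b)‖ ^ 2 < ρ ^ 2 := pow_lt_pow_left₀ hlt (norm_nonneg _) two_ne_zero
    have h3 : (s - b * cos θ) ^ 2 < q ^ 2 := by linarith
    have := abs_lt_of_sq_lt_sq h3 hq0
    linarith [(abs_lt.1 this).2]
  · intro hlt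
    have h3 : |s - b * cos θ| < q := by
      rw [abs_lt]; constructor <;> linarith [(abs_lt.1 hS).1, (abs_lt.1 hS).2]
    have h4 : (s - b * cos θ) ^ 2 < q ^ 2 := by
      rw [← sq_abs (s - b * cos θ)]
      exact pow_lt_pow_left₀ h3 (abs_nonneg _) two_ne_zero
    exact lt_of_pow_lt_pow_left₀ 2 hρ.le (by linarith)

theorem Sx_dist (θ : ℝ) : |Sx b ρ θ - ρ| ≤ |b| := by
  have hρ : 0 < ρ := (abs_nonneg b).trans_lt h
  have h1 := Sx_sq h θ
  have h2 := Sx_pos h θ
  have hb : |b| ^ 2 = b ^ 2 := sq_abs b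
  have hc1 : b * cos θ ≤ |b| := by
    calc b * cos θ ≤ |b * cos θ| := le_abs_self _
      _ = |b| * |cos θ| := abs_mul _ _
      _ ≤ |b| * 1 := by gcongr; exact abs_cos_le_one θ
      _ = |b| := mul_one _
  have hc2 : -|b| ≤ b * cos θ := by
    have : |b * cos θ| ≤ |b| := by
      rw [abs_mul]
      calc |b| * |cos θ| ≤ |b| * 1 := by gcongr; exact abs_cos_le_one θ
        _ = |b| := mul_one _
    linarith [neg_abs_le (b * cos θ)]
  set S := Sx b ρ θ with hS
  have hu : 0 ≤ |b| := abs_nonneg b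
  rw [abs_le]
  constructor
  · -- ρ ≤ S + u
    have : ρ ^ 2 ≤ (S + |b|) ^ 2 := by nlinarith
    have := abs_le_of_sq_le_sq this (by linarith)
    linarith [le_abs_self ρ]
  · have h3 : (S - |b|) ^ 2 ≤ ρ ^ 2 := by nlinarith
    have := abs_le_of_sq_le_sq h3 hρ.le
    linarith [le_abs_self (S - |b|)]

end

/-- one-dimensional comparison on a ray -/
theorem ray_error {f f' n Λ : ℝ → ℝ} (hf : ∀ t, HasDerivAt f (f' t) t) (hf' : Continuous f')
    (hn : Continuous n) (hΛ : Continuous Λ) (hfn : ∀ t, |f' t| ≤ n t) {ρ₀ S : ℝ}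
    (h1 : ∀ t, ρ₀ ≤ t → t ≤ S → (S ^ 2 - t ^ 2) / 2 ≤ t * Λ t)
    (h2 : ∀ t, S ≤ t → t ≤ ρ₀ → (t ^ 2 - S ^ 2) / 2 ≤ -(t * Λ t)) (hS : 0 ≤ S) (hρ : 0 ≤ ρ₀) :
    |∫ t in ρ₀..S, t * (f t - f ρ₀)| ≤ ∫ t in ρ₀..S, t * (n t * Λ t) := by
  have hfc : Continuous f := continuous_iff_continuousAt.2 fun t => (hf t).continuousAt
  have e1 : ∫ t in ρ₀..S, (t * (f t - f ρ₀) + (t ^ 2 - S ^ 2) / 2 * f' t) = 0 := by
    have := intervalIntegral.integral_eq_sub_of_hasDerivAt
      (f := fun t => (t ^ 2 - S ^ 2) / 2 * (f t - f ρ₀))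
      (f' := fun t => (t * (f t - f ρ₀) + (t ^ 2 - S ^ 2) / 2 * f' t)) (a := ρ₀) (b := S)
      (fun t _ => by
        have a1 : HasDerivAt (fun t : ℝ => (t ^ 2 - S ^ 2) / 2) t t := by
          simpa using ((hasDerivAt_pow 2 t).sub_const (S ^ 2)).div_const 2
        have a2 := (hf t).sub_const (f ρ₀)
        exact a1.mul a2)
      (Continuous.intervalIntegrable (by fun_prop) _ _)
    rw [this]; ring
  have e2 : ∫ t in ρ₀..S, t * (f t - f ρ₀) = ∫ t in ρ₀..S, (S ^ 2 - t ^ 2) / 2 * f' t := by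
    rw [intervalIntegral.integral_add (Continuous.intervalIntegrable (by fun_prop) _ _)
      (Continuous.intervalIntegrable (by fun_prop) _ _)] at e1
    have e3 : ∫ t in ρ₀..S, (S ^ 2 - t ^ 2) / 2 * f' t = -∫ t in ρ₀..S, (t ^ 2 - S ^ 2) / 2 * f' t := by
      rw [← intervalIntegral.integral_neg]
      apply intervalIntegral.integral_congr
      intro t _; simp only; ring
    rw [e3]; linarith
  rw [e2]
  rcases le_total ρ₀ S with h | h
  · apply (intervalIntegral.abs_integral_le_integral_abs h).trans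
    apply intervalIntegral.integral_mono_on h
    · exact Continuous.intervalIntegrable (by fun_prop) _ _
    · exact Continuous.intervalIntegrable (by fun_prop) _ _
    · intro t ht
      have a := h1 t ht.1 ht.2
      have a0 : 0 ≤ (S ^ 2 - t ^ 2) / 2 := by nlinarith [ht.1, ht.2]
      rw [abs_mul, abs_of_nonneg a0]
      have hn0 : 0 ≤ n t := (abs_nonneg _).trans (hfn t)
      calc (S ^ 2 - t ^ 2) / 2 * |f' t| ≤ (S ^ 2 - t ^ 2) / 2 * n t := by
            gcongr; exact hfn t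
        _ ≤ (t * Λ t) * n t := by gcongr
        _ = _ := by ring
  · rw [intervalIntegral.integral_symm, abs_neg, intervalIntegral.integral_symm (a := S) (b := ρ₀),
      ← intervalIntegral.integral_neg]
    apply (intervalIntegral.abs_integral_le_integral_abs h).trans
    apply intervalIntegral.integral_mono_on h
    · exact Continuous.intervalIntegrable (by fun_prop) _ _
    · exact Continuous.intervalIntegrable (by fun_prop) _ _
    · intro t ht
      have a := h2 t ht.1 ht.2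
      have a0 : 0 ≤ (t ^ 2 - S ^ 2) / 2 := by nlinarith [ht.1, ht.2]
      have hn0 : 0 ≤ n t := (abs_nonneg _).trans (hfn t)
      rw [abs_mul]
      have a1 : |(S ^ 2 - t ^ 2) / 2| = (t ^ 2 - S ^ 2) / 2 := by
        rw [abs_of_nonpos (by linarith)]; ring
      rw [a1]
      calc (t ^ 2 - S ^ 2) / 2 * |f' t| ≤ (t ^ 2 - S ^ 2) / 2 * n t := by
            gcongr; exact hfn t
        _ ≤ (-(t * Λ t)) * n t := by gcongr
        _ = _ := by ring

theorem ray_signs {b c ρ ρ₀ S : ℝ} (hc : |c| ≤ 1) (hb : |b| ≤ 1 / 16) (hρ₀ : 1 ≤ ρ₀)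
    (hS2 : S ^ 2 - 2 * b * c * S = ρ ^ 2 - b ^ 2) (hSd : |S - ρ| ≤ |b|) (hd : |ρ - ρ₀| ≤ |b|) :
    (∀ t, ρ₀ ≤ t → t ≤ S → (S ^ 2 - t ^ 2) / 2 ≤ t * (2 * b * (t * c) - b ^ 2 + ρ ^ 2 - ρ₀ ^ 2)) ∧
    (∀ t, S ≤ t → t ≤ ρ₀ → (t ^ 2 - S ^ 2) / 2 ≤ -(t * (2 * b * (t * c) - b ^ 2 + ρ ^ 2 - ρ₀ ^ 2))) := by
  have hu : 0 ≤ |b| := abs_nonneg b
  have hbc : |b * c| ≤ |b| := by
    rw [abs_mul]
    calc |b| * |c| ≤ |b| * 1 := by gcongr
      _ = |b| := mul_one _
  have hbc1 := (abs_le.1 hbc).1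
  have hbc2 := (abs_le.1 hbc).2
  have hS1 := abs_le.1 hSd
  have hd1 := abs_le.1 hd
  constructor
  · intro t h1 h2
    have hΛ : (2 * b * (t * c) - b ^ 2 + ρ ^ 2 - ρ₀ ^ 2) =
        (S - ρ₀) * (S + ρ₀) - 2 * (b * c) * (S - t) := by linear_combination -hS2
    rw [hΛ]
    have a1 : (S - t) * (S + ρ₀ - 2 * |b|) ≤ (S - ρ₀) * (S + ρ₀) - 2 * (b * c) * (S - t) := by
      have : (S - t) * (S + ρ₀) ≤ (S - ρ₀) * (S + ρ₀) := by
        apply mul_le_mul_of_nonneg_right <;> linarith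
      nlinarith
    have a2 : (S - t) * ((S + t) / 2) ≤ t * ((S - t) * (S + ρ₀ - 2 * |b|)) := by
      have : (S + t) / 2 ≤ t * (S + ρ₀ - 2 * |b|) := by nlinarith
      calc (S - t) * ((S + t) / 2) ≤ (S - t) * (t * (S + ρ₀ - 2 * |b|)) := by
            apply mul_le_mul_of_nonneg_left this; linarith
        _ = _ := by ring
    calc (S ^ 2 - t ^ 2) / 2 = (S - t) * ((S + t) / 2) := by ring
      _ ≤ t * ((S - t) * (S + ρ₀ - 2 * |b|)) := a2
      _ ≤ _ := by apply mul_le_mul_of_nonneg_left a1; linarith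
  · intro t h1 h2
    have hΛ : -(t * (2 * b * (t * c) - b ^ 2 + ρ ^ 2 - ρ₀ ^ 2)) =
        t * ((ρ₀ - S) * (ρ₀ + S) - 2 * (b * c) * (t - S)) := by linear_combination t * hS2
    rw [hΛ]
    have hS0 : 7 / 8 ≤ S := by linarith
    have a1 : (t - S) * (ρ₀ + S - 2 * |b|) ≤ (ρ₀ - S) * (ρ₀ + S) - 2 * (b * c) * (t - S) := by
      have : (t - S) * (ρ₀ + S) ≤ (ρ₀ - S) * (ρ₀ + S) := by
        apply mul_le_mul_of_nonneg_right <;> linarith
      nlinarith
    have a2 : (t - S) * ((t + S) / 2) ≤ t * ((t - S) * (ρ₀ + S - 2 * |b|)) := by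
      have : (t + S) / 2 ≤ t * (ρ₀ + S - 2 * |b|) := by nlinarith
      calc (t - S) * ((t + S) / 2) ≤ (t - S) * (t * (ρ₀ + S - 2 * |b|)) := by
            apply mul_le_mul_of_nonneg_left this; linarith
        _ = _ := by ring
    calc (t ^ 2 - S ^ 2) / 2 = (t - S) * ((t + S) / 2) := by ring
      _ ≤ t * ((t - S) * (ρ₀ + S - 2 * |b|)) := a2
      _ ≤ _ := by apply mul_le_mul_of_nonneg_left a1; linarith

end Crest.Agent.R112
end

-- ▼ part R112/KCore
section

set_option autoImplicit false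

namespace Crest.Agent.R112

open MeasureTheory Set Real intervalIntegral

variable {g : ℂ → ℝ}

theorem integrableOn_ball' {h : ℂ → ℝ} (hh : Continuous h) (x : ℂ) (ρ : ℝ) :
    IntegrableOn h (Metric.ball x ρ) :=
  (hh.continuousOn.integrableOn_compact (isCompact_closedBall x ρ)).mono_set
    Metric.ball_subset_closedBall

/-- first moment (in direction `1`) of the gradient mass of a ball -/
noncomputable def beta (g : ℂ → ℝ) (y : ℂ) (ρ : ℝ) : ℝ :=
  ∫ z in Metric.ball y ρ, z.re * ‖fderiv ℝ g z‖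

theorem affine_moment (hg : ContDiff ℝ 1 g) (y : ℂ) (ρ p q : ℝ) :
    ∫ z in Metric.ball y ρ, ‖fderiv ℝ g z‖ * (p * z.re + q) = p * beta g y ρ + q * mass g y ρ := by
  have hc := cont_nfd hg
  unfold beta mass
  rw [← MeasureTheory.integral_const_mul, ← MeasureTheory.integral_const_mul,
    ← MeasureTheory.integral_add]
  · congr 1; funext z; ring
  · exact integrableOn_ball' (h := fun z => p * (z.re * ‖fderiv ℝ g z‖))
      (by have := Complex.continuous_re; fun_prop) y ρ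
  · exact integrableOn_ball' (h := fun z => q * ‖fderiv ℝ g z‖) (by fun_prop) y ρ

theorem beta_mono (hg : ContDiff ℝ 1 g) {y : ℂ} {b ρ ρ' : ℝ} (hb : 0 < b) (hρ : 0 ≤ ρ)
    (hρ' : 0 ≤ ρ') (hm : mass g (y + b) ρ' = mass g y ρ) :
    beta g y ρ ≤ beta g (y + b) ρ' := by
  have hc := cont_nfd hg
  set Λ : ℂ → ℝ := fun z => 2 * b * z.re + (-2 * b * y.re - b ^ 2 + ρ' ^ 2 - ρ ^ 2) with hΛ
  have hΛe : ∀ z, Λ z = (ρ' ^ 2 - ‖z - (y + b)‖ ^ 2) - (ρ ^ 2 - ‖z - y‖ ^ 2) := by
    intro z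
    rw [← Complex.normSq_eq_norm_sq, ← Complex.normSq_eq_norm_sq, Complex.normSq_apply,
      Complex.normSq_apply]
    simp only [hΛ, Complex.sub_re, Complex.sub_im, Complex.add_re, Complex.add_im,
      Complex.ofReal_re, Complex.ofReal_im]
    ring
  set f : ℂ → ℝ := fun z => ‖fderiv ℝ g z‖ * Λ z with hf
  have hfc : Continuous f := by
    have := Complex.continuous_re
    rw [hf, hΛ]; fun_prop
  have h1 : 0 ≤ (∫ z in Metric.ball (y + b) ρ', f z) - ∫ z in Metric.ball y ρ, f z := by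
    rw [← MeasureTheory.integral_indicator Metric.isOpen_ball.measurableSet,
      ← MeasureTheory.integral_indicator Metric.isOpen_ball.measurableSet,
      ← MeasureTheory.integral_sub]
    · apply MeasureTheory.integral_nonneg
      intro z
      simp only [Pi.zero_apply]
      by_cases h1 : z ∈ Metric.ball (y + b) ρ' <;> by_cases h2 : z ∈ Metric.ball y ρ
      · simp [h1, h2]
      · rw [indicator_of_mem h1, indicator_of_notMem h2, sub_zero]
        apply mul_nonneg (norm_nonneg _)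
        rw [hΛe]
        rw [Metric.mem_ball, dist_eq_norm] at h1 h2
        have a1 : ‖z - (y + b)‖ ^ 2 ≤ ρ' ^ 2 := pow_le_pow_left₀ (norm_nonneg _) h1.le 2
        have a2 : ρ ^ 2 ≤ ‖z - y‖ ^ 2 := pow_le_pow_left₀ hρ (not_lt.1 h2) 2
        linarith
      · rw [indicator_of_notMem h1, indicator_of_mem h2, zero_sub, neg_nonneg]
        apply mul_nonpos_of_nonneg_of_nonpos (norm_nonneg _)
        rw [hΛe]
        rw [Metric.mem_ball, dist_eq_norm] at h1 h2
        have a1 : ρ' ^ 2 ≤ ‖z - (y + b)‖ ^ 2 := pow_le_pow_left₀ hρ' (not_lt.1 h1) 2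
        have a2 : ‖z - y‖ ^ 2 ≤ ρ ^ 2 := pow_le_pow_left₀ (norm_nonneg _) h2.le 2
        linarith
      · rw [indicator_of_notMem h1, indicator_of_notMem h2, sub_zero]
    · exact (integrableOn_ball' hfc _ _).integrable_indicator Metric.isOpen_ball.measurableSet
    · exact (integrableOn_ball' hfc _ _).integrable_indicator Metric.isOpen_ball.measurableSet
  rw [hf, hΛ] at h1
  rw [affine_moment hg, affine_moment hg, hm] at h1
  have h2 : 0 ≤ 2 * b * (beta g (y + b) ρ' - beta g y ρ) := by linarith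
  have h3 : 0 ≤ beta g (y + b) ρ' - beta g y ρ :=
    nonneg_of_mul_nonneg_right h2 (by positivity)
  linarith

theorem beta_bound (hg : ContDiff ℝ 1 g) {y : ℂ} {ρ lo hi : ℝ} (hlo : lo ≤ y.re - ρ)
    (hhi : y.re + ρ ≤ hi) : lo * mass g y ρ ≤ beta g y ρ ∧ beta g y ρ ≤ hi * mass g y ρ := by
  have hc := cont_nfd hg
  have hre := Complex.continuous_re
  unfold mass beta
  rw [← MeasureTheory.integral_const_mul, ← MeasureTheory.integral_const_mul]
  have hz : ∀ z ∈ Metric.ball y ρ, |z.re - y.re| < ρ := by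
    intro z hz
    rw [Metric.mem_ball, dist_eq_norm] at hz
    have := Complex.abs_re_le_norm (z - y)
    rw [Complex.sub_re] at this
    exact this.trans_lt hz
  constructor
  · apply setIntegral_mono_on
    · exact integrableOn_ball' (h := fun z => lo * ‖fderiv ℝ g z‖) (by fun_prop) _ _
    · exact integrableOn_ball' (h := fun z => z.re * ‖fderiv ℝ g z‖) (by fun_prop) _ _
    · exact Metric.isOpen_ball.measurableSet
    · intro z hz'
      have := abs_lt.1 (hz z hz')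
      apply mul_le_mul_of_nonneg_right _ (norm_nonneg _)
      linarith [this.1]
  · apply setIntegral_mono_on
    · exact integrableOn_ball' (h := fun z => z.re * ‖fderiv ℝ g z‖) (by fun_prop) _ _
    · exact integrableOn_ball' (h := fun z => hi * ‖fderiv ℝ g z‖) (by fun_prop) _ _
    · exact Metric.isOpen_ball.measurableSet
    · intro z hz'
      have := abs_lt.1 (hz z hz')
      apply mul_le_mul_of_nonneg_right _ (norm_nonneg _)
      linarith [this.2]

/-- swap of the order in polar coordinates -/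
theorem polar_swap {h : ℂ → ℝ} (hh : Continuous h) (x : ℂ) (a r : ℝ) :
    ∫ θ in (-π)..π, ∫ s in a..r, s * h (pt x s θ) =
      ∫ s in a..r, s * ∫ θ in (-π)..π, h (pt x s θ) := by
  rw [MeasureTheory.intervalIntegral_intervalIntegral_swap]
  · apply intervalIntegral.integral_congr
    intro s _
    simp only
    rw [intervalIntegral.integral_const_mul]
  · have : Continuous (Function.uncurry fun θ s : ℝ => s * h (pt x s θ)) := by
      fun_prop
    exact (this.continuousOn.integrableOn_compact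
      ((isCompact_uIcc (a := -π) (b := π)).prod (isCompact_uIcc (a := a) (b := r)))).mono_set
        (prod_mono uIoc_subset_uIcc uIoc_subset_uIcc)

/-- average over the circle equals the value at an interior maximiser -/
theorem opt_circle' (hg : ContDiff ℝ 1 g) {x : ℂ} {r : ℝ} (hr0 : 0 < r)
    (hmax : IsLocalMax (fun r => A g r x) r) :
    r ^ 2 * ∫ θ in (-π)..π, g (pt x r θ) = 2 * ∫ z in Metric.ball x r, g z := by
  have hgc := hg.continuous
  set M : ℝ → ℝ := fun s => ∫ θ in (-π)..π, g (pt x s θ) with hM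
  have hMc : Continuous M := by rw [hM]; fun_prop
  set Φ : ℝ → ℝ := fun r => ∫ s in (0:ℝ)..r, s * M s with hΦ
  have hΦd : HasDerivAt Φ (r * M r) r := by
    have : Continuous fun s => s * M s := by fun_prop
    exact this.integral_hasStrictDerivAt 0 r |>.hasDerivAt
  have hball : ∀ s, 0 < s → ∫ z in Metric.ball x s, g z = Φ s := by
    intro s hs
    rw [polar_ball hs.le hgc, polar_swap hgc]
  have hev : (fun r => A g r x) =ᶠ[nhds r] fun r => (1 / (π * r ^ 2)) * Φ r := by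
    filter_upwards [lt_mem_nhds hr0] with s hs
    rw [A_eq hs x, hball s hs]
  have hd : HasDerivAt (fun r => (1 / (π * r ^ 2)) * Φ r)
      (-(2 / (π * r ^ 3)) * Φ r + 1 / (π * r ^ 2) * (r * M r)) r := by
    have h1 : HasDerivAt (fun r : ℝ => 1 / (π * r ^ 2)) (-(2 / (π * r ^ 3))) r := by
      have e : (fun r : ℝ => 1 / (π * r ^ 2)) = fun r : ℝ => (π * r ^ 2)⁻¹ := by
        funext r; rw [one_div]
      rw [e]
      refine (((hasDerivAt_pow 2 r).const_mul π).fun_inv (by positivity)).congr_deriv ?_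
      have := Real.pi_pos
      field_simp
      try simp
      try ring
    exact h1.mul hΦd
  have h0 : (-(2 / (π * r ^ 3)) * Φ r + 1 / (π * r ^ 2) * (r * M r)) = 0 := by
    have h3 : IsLocalMax (fun r => (1 / (π * r ^ 2)) * Φ r) r := hmax.congr hev
    exact h3.hasDerivAt_eq_zero hd
  rw [hball r hr0]
  change r ^ 2 * M r = 2 * Φ r
  have hpi := Real.pi_pos
  field_simp at h0
  linarith

end Crest.Agent.R112
end

-- ▼ part R112/KCore2
section

set_option autoImplicit false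

namespace Crest.Agent.R112

open MeasureTheory Set Real intervalIntegral

variable {g : ℂ → ℝ}

/-- value form of the optimality on the circle -/
theorem opt_circle (hg : ContDiff ℝ 1 g) {x : ℂ} {r V : ℝ} (hr0 : 0 < r)
    (hmax : IsLocalMax (fun r => A g r x) r) (hV : A g r x = V) :
    ∫ θ in (-π)..π, (g (pt x r θ) - V) = 0 := by
  have hgc := hg.continuous
  have hpi := Real.pi_pos
  have h1 := opt_circle' hg hr0 hmax
  rw [A_eq hr0] at hV
  rw [intervalIntegral.integral_sub (Continuous.intervalIntegrable (by fun_prop) _ _)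
    (Continuous.intervalIntegrable (by fun_prop) _ _), intervalIntegral.integral_const, smul_eq_mul]
  have h2 : ∫ z in Metric.ball x r, g z = V * (π * r ^ 2) := by
    rw [← hV]; field_simp
  rw [h2] at h1
  have h3 : r ^ 2 * ((∫ θ in (-π)..π, g (pt x r θ)) - (π - -π) * V) = 0 := by linarith
  rcases mul_eq_zero.1 h3 with h | h
  · exact absurd h (by positivity)
  · exact h


theorem mass_subset (hg : ContDiff ℝ 1 g) {x y : ℂ} {ρ ρ' : ℝ} (h : ρ + dist x y ≤ ρ') :
    mass g x ρ ≤ mass g y ρ' := by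
  apply setIntegral_mono_set
  · exact integrableOn_ball' (cont_nfd hg) y ρ'
  · exact Filter.Eventually.of_forall fun z => norm_nonneg _
  · exact (Metric.ball_subset_ball' h).eventuallyLE

theorem exists_radius (hg : ContDiff ℝ 1 g) (x : ℂ) {ρ₁ ρ₂ m : ℝ} (h1 : 0 ≤ ρ₁) (h12 : ρ₁ ≤ ρ₂)
    (hm1 : mass g x ρ₁ ≤ m) (hm2 : m ≤ mass g x ρ₂) :
    ∃ ρ ∈ Icc ρ₁ ρ₂, mass g x ρ = m := by
  have hc : ContinuousOn (mass g x) (Icc ρ₁ ρ₂) :=
    (int_ball_cont (cont_nfd hg) x).mono fun t ht => h1.trans ht.1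
  have := intermediate_value_Icc h12 hc ⟨hm1, hm2⟩
  obtain ⟨ρ, hρ, e⟩ := this
  exact ⟨ρ, hρ, e⟩

/-- comparison of a shifted ball of the same mass with the centred ball -/
theorem shift_compare (hg : ContDiff ℝ 1 g) {x : ℂ} {b ρ ρ₀ V : ℝ} (hb : |b| ≤ 1 / 16)
    (hρ₀ : 1 ≤ ρ₀) (hd : |ρ - ρ₀| ≤ |b|) (hm : mass g (x + b) ρ = mass g x ρ₀) :
    ∃ E, |E| ≤ 2 * b * (beta g (x + b) ρ - beta g x ρ₀) ∧
      (∫ z in Metric.ball (x + b) ρ, (g z - V)) - (∫ z in Metric.ball x ρ₀, (g z - V))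
        = (∫ θ in (-π)..π, (g (pt x ρ₀ θ) - V) * (((Sx b ρ θ) ^ 2 - ρ₀ ^ 2) / 2)) + E := by
  have hgc := hg.continuous
  have hfc := cont_fd hg
  have hnc := cont_nfd hg
  have hre := Complex.continuous_re
  have hpi := Real.pi_pos
  have hd' := abs_le.1 hd
  have hbρ : |b| < ρ := by linarith [hd'.1]
  have hSc := continuous_Sx b ρ
  set E : ℝ := ∫ θ in (-π)..π, ∫ s in ρ₀..(Sx b ρ θ), s * (g (pt x s θ) - g (pt x ρ₀ θ)) with hE
  refine ⟨E, ?_, ?_⟩
  · -- error bound
    set Λ : ℂ → ℝ := fun z => 2 * b * z.re + (-2 * b * x.re - b ^ 2 + ρ ^ 2 - ρ₀ ^ 2) with hΛ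
    have hΛc : Continuous Λ := by rw [hΛ]; fun_prop
    set f : ℂ → ℝ := fun z => ‖fderiv ℝ g z‖ * Λ z with hf
    have hfc' : Continuous f := by rw [hf]; fun_prop
    have e1 : (∫ z in Metric.ball (x + b) ρ, f z) - (∫ z in Metric.ball x ρ₀, f z)
        = 2 * b * (beta g (x + b) ρ - beta g x ρ₀) := by
      rw [hf, hΛ]
      simp only
      rw [affine_moment hg, affine_moment hg, hm]; ring
    have e2 : (∫ z in Metric.ball (x + b) ρ, f z) - (∫ z in Metric.ball x ρ₀, f z)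
        = ∫ θ in (-π)..π, ∫ s in ρ₀..(Sx b ρ θ), s * f (pt x s θ) := by
      rw [polar_set Metric.isOpen_ball.measurableSet hSc (fun θ => (Sx_pos hbρ θ).le)
        (fun θ s hs => Sx_mem hbρ x θ s hs) hfc', polar_ball (by linarith) hfc',
        ← intervalIntegral.integral_sub]
      · apply intervalIntegral.integral_congr
        intro θ _
        simp only
        rw [intervalIntegral.integral_interval_sub_left]
        · exact Continuous.intervalIntegrable (by fun_prop) _ _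
        · exact Continuous.intervalIntegrable (by fun_prop) _ _
      · exact Continuous.intervalIntegrable (by fun_prop) _ _
      · exact Continuous.intervalIntegrable (by fun_prop) _ _
    rw [← e1, e2, hE]
    apply (intervalIntegral.abs_integral_le_integral_abs (by linarith)).trans
    apply intervalIntegral.integral_mono_on (by linarith)
    · apply Continuous.intervalIntegrable
      apply Continuous.abs
      have : Continuous (Function.uncurry fun θ s : ℝ => s * (g (pt x s θ) - g (pt x ρ₀ θ))) := by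
        fun_prop
      have h2 := intervalIntegral.continuous_parametric_primitive_of_continuous (μ := volume)
        (a₀ := ρ₀) this
      exact h2.comp (continuous_id.prodMk hSc)
    · apply Continuous.intervalIntegrable
      have : Continuous (Function.uncurry fun θ s : ℝ => s * f (pt x s θ)) := by
        fun_prop
      have h2 := intervalIntegral.continuous_parametric_primitive_of_continuous (μ := volume)
        (a₀ := ρ₀) this
      exact h2.comp (continuous_id.prodMk hSc)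
    · intro θ _
      have hs := ray_signs (b := b) (c := cos θ) (ρ := ρ) (ρ₀ := ρ₀) (S := Sx b ρ θ)
        (abs_cos_le_one θ) hb hρ₀ (Sx_sq hbρ θ) (Sx_dist hbρ θ) hd
      have hLe : ∀ t, Λ (pt x t θ) = 2 * b * (t * cos θ) - b ^ 2 + ρ ^ 2 - ρ₀ ^ 2 := by
        intro t; rw [hΛ]; simp only [pt_re]; ring
      have key := ray_error (f := fun t => g (pt x t θ))
        (f' := fun t => fderiv ℝ g (pt x t θ) (dir θ))
        (n := fun t => ‖fderiv ℝ g (pt x t θ)‖) (Λ := fun t => Λ (pt x t θ))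
        (fun t => ((hg.differentiable one_ne_zero _).hasFDerivAt).comp_hasDerivAt t
          (hasDerivAt_pt_s x θ t))
        ((hfc.comp (by fun_prop)).clm_apply continuous_const)
        (by fun_prop) (by fun_prop)
        (fun t => by
          have := (fderiv ℝ g (pt x t θ)).le_opNorm (dir θ)
          rw [norm_dir, mul_one] at this
          exact this)
        (ρ₀ := ρ₀) (S := Sx b ρ θ)
        (fun t h1 h2 => by rw [hLe]; exact hs.1 t h1 h2)
        (fun t h1 h2 => by rw [hLe]; exact hs.2 t h1 h2)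
        (Sx_pos hbρ θ).le (by linarith)
      exact key
  · have hh : Continuous fun z => g z - V := by fun_prop
    rw [polar_set Metric.isOpen_ball.measurableSet hSc (fun θ => (Sx_pos hbρ θ).le)
      (fun θ s hs => Sx_mem hbρ x θ s hs) hh, polar_ball (by linarith) hh,
      ← intervalIntegral.integral_sub, hE, ← intervalIntegral.integral_add]
    · apply intervalIntegral.integral_congr
      intro θ _
      simp only
      rw [intervalIntegral.integral_interval_sub_left]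
      · have e3 : ∀ s, s * (g (pt x s θ) - V)
            = s * (g (pt x ρ₀ θ) - V) + s * (g (pt x s θ) - g (pt x ρ₀ θ)) := by intro s; ring
        simp_rw [e3]
        rw [intervalIntegral.integral_add (Continuous.intervalIntegrable (by fun_prop) _ _)
          (Continuous.intervalIntegrable (by fun_prop) _ _), intervalIntegral.integral_mul_const,
          integral_id]
        ring
      · exact Continuous.intervalIntegrable (by fun_prop) _ _
      · exact Continuous.intervalIntegrable (by fun_prop) _ _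
    · exact Continuous.intervalIntegrable (by fun_prop) _ _
    · apply Continuous.intervalIntegrable
      have : Continuous (Function.uncurry fun θ s : ℝ => s * (g (pt x s θ) - g (pt x ρ₀ θ))) := by
        fun_prop
      have h2 := intervalIntegral.continuous_parametric_primitive_of_continuous (μ := volume)
        (a₀ := ρ₀) this
      exact h2.comp (continuous_id.prodMk hSc)
    · apply Continuous.intervalIntegrable
      have : Continuous (Function.uncurry fun θ s : ℝ => s * (g (pt x s θ) - V)) := by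
        fun_prop
      have h2 := intervalIntegral.continuous_parametric_primitive_of_continuous (μ := volume)
        (a₀ := (0:ℝ)) this
      exact h2.comp (continuous_id.prodMk hSc)
    · exact Continuous.intervalIntegrable (by fun_prop) _ _

end Crest.Agent.R112
end

-- ▼ part R112/KSum
section

/-!
# Row 112 (S0147): summation over separated peaks on a line
-/

set_option autoImplicit false

namespace Crest.Agent.R112

open MeasureTheory Metric Set Filter Topology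

/-- combinatorial lemma: intervals `[l i, l i + η X i] ⊆ [0, M]` with
`∑_{i : m ∈ J_i} X_i ≤ K` for every `m`: then `∑ X_i² ≤ K M / η` -/
theorem ksum_sq_le {ι : Type*} (I : Finset ι) (X l : ι → ℝ) {η M K : ℝ} (hη : 0 < η) (hM : 0 ≤ M)
    (hX : ∀ i ∈ I, 0 ≤ X i) (hl : ∀ i ∈ I, 0 ≤ l i) (hlM : ∀ i ∈ I, l i + η * X i ≤ M)
    (hK : ∀ m ∈ Icc 0 M, ∑ i ∈ I, (Icc (l i) (l i + η * X i)).indicator (fun _ => X i) m ≤ K) :
    ∑ i ∈ I, X i ^ 2 ≤ K * M / η := by
  have h1 : ∀ i ∈ I, IntegrableOn (fun m => (Icc (l i) (l i + η * X i)).indicator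
      (fun _ => X i) m) (Icc 0 M) := by
    intro i _
    exact (integrableOn_const (by simp) (by simp)).indicator measurableSet_Icc
  have h2 : ∫ m in Icc 0 M, ∑ i ∈ I, (Icc (l i) (l i + η * X i)).indicator (fun _ => X i) m ≤
      ∫ m in Icc 0 M, K := by
    apply setIntegral_mono_on (integrable_finsetSum _ h1) (integrableOn_const (by simp) (by simp))
      measurableSet_Icc hK
  rw [integral_finsetSum _ h1, setIntegral_const, smul_eq_mul, Measure.real, Real.volume_Icc,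
    ENNReal.toReal_ofReal (by linarith), sub_zero] at h2
  have h3 : ∀ i ∈ I, ∫ m in Icc 0 M, (Icc (l i) (l i + η * X i)).indicator (fun _ => X i) m =
      η * X i ^ 2 := by
    intro i hi
    rw [setIntegral_indicator measurableSet_Icc, inter_eq_right.2
      (Icc_subset_Icc (hl i hi) (hlM i hi)), setIntegral_const, smul_eq_mul, Measure.real,
      Real.volume_Icc, ENNReal.toReal_ofReal]
    · ring
    · have := mul_nonneg hη.le (hX i hi)
      linarith
  rw [Finset.sum_congr rfl h3, ← Finset.mul_sum] at h2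
  rw [le_div_iff₀ hη]
  linarith

/-- telescoping along an increasing chain -/
theorem ksum_telescope_le (s : Finset ℕ) (P Q : ℕ → ℝ) {L : ℝ} (hPQ : ∀ k ∈ s, L ≤ P k)
    (hQP : ∀ k ∈ s, ∀ k' ∈ s, k < k' → Q k ≤ P k') :
    ∀ H, L ≤ H → (∀ k ∈ s, Q k ≤ H) → ∑ k ∈ s, (Q k - P k) ≤ H - L := by
  induction s using Finset.induction_on_max with
  | empty =>
    intro H hH _
    simpa using hH
  | insert a s ha ih =>
    intro H hH hQ
    rw [Finset.sum_insert (fun h => lt_irrefl _ (ha a h))]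
    have h1 := ih (fun k hk => hPQ k (Finset.mem_insert_of_mem hk))
      (fun k hk k' hk' => hQP k (Finset.mem_insert_of_mem hk) k' (Finset.mem_insert_of_mem hk'))
      (P a) (hPQ a (Finset.mem_insert_self _ _))
      (fun k hk => hQP k (Finset.mem_insert_of_mem hk) a (Finset.mem_insert_self _ _) (ha k hk))
    have h2 := hQ a (Finset.mem_insert_self _ _)
    linarith

/-- number of indices in an arithmetic progression in an interval -/
theorem ksum_card_le {s : Finset ℕ} {s₀ δ A B : ℝ} (hδ : 0 < δ) (hAB : A ≤ B)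
    (h : ∀ i ∈ s, s₀ + δ * i ∈ Icc A B) : (s.card : ℝ) ≤ (B - A) / δ + 1 := by
  rcases s.eq_empty_or_nonempty with rfl | hne
  · have : 0 ≤ (B - A) / δ := div_nonneg (by linarith) hδ.le
    simp; linarith
  · set i₀ := s.min' hne with hi₀
    have h1 : s ⊆ Finset.Icc i₀ (i₀ + ⌊(B - A) / δ⌋₊) := by
      intro i hi
      have h2 : i₀ ≤ i := s.min'_le i hi
      rw [Finset.mem_Icc]
      refine ⟨h2, ?_⟩
      have h3 := h i hi
      have h4 := h i₀ (s.min'_mem hne)
      have h5 : ((i - i₀ : ℕ) : ℝ) ≤ (B - A) / δ := by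
        rw [le_div_iff₀ hδ, Nat.cast_sub h2]
        have := h3.2
        have := h4.1
        nlinarith
      have h6 := Nat.le_floor h5
      omega
    have h2 := Finset.card_le_card h1
    rw [Nat.card_Icc] at h2
    have h3 : (⌊(B - A) / δ⌋₊ : ℝ) ≤ (B - A) / δ :=
      Nat.floor_le (div_nonneg (by linarith) hδ.le)
    have h4 : s.card ≤ ⌊(B - A) / δ⌋₊ + 1 := by omega
    have h5 : (s.card : ℝ) ≤ ⌊(B - A) / δ⌋₊ + 1 := by exact_mod_cast h4
    linarith

theorem mu_closedBall {g : ℂ → ℝ} (x : ℂ) {ρ : ℝ} (hρ : ρ ≠ 0) :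
    mu g (closedBall x ρ) = mu g (ball x ρ) := by
  apply setIntegral_congr_set
  have h1 : volume (sphere x ρ) = 0 := Measure.addHaar_sphere_of_ne_zero volume x hρ
  rw [← ball_union_sphere]
  exact union_ae_eq_left_of_ae_eq_empty (measure_eq_zero_iff_ae_notMem.1 h1 |> fun h => by
    filter_upwards [h] with z hz
    exact propext ⟨fun h' => absurd h' hz, fun h' => absurd h' (by exact id)⟩)

/-- The output of the K lemma. -/
def KMainStmt (C₁ C₂ : ℝ) : Prop :=
  ∀ (g : ℂ → ℝ) (τ d : ℝ) (x : ℂ) (Δ a b r m ρ₀ : ℝ), Peak g τ d x Δ a b r →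
    τ + 6 * d ≤ r → r ≤ 4 * τ - 6 * d → |ρ₀ - r| ≤ 3 * d → mass g x ρ₀ = m →
    |m - mass g x r| ≤ 1 / 200 * (Δ / d) →
    ∃ ρp ρq : ℝ, ρp ∈ Icc (1 : ℝ) 8 ∧ ρq ∈ Icc (1 : ℝ) 8 ∧ mass g (x - a) ρp = m ∧
      mass g (x + b) ρq = m ∧
      Δ / d ≤ C₁ * d * m + C₂ * (beta g (x + b) ρq - beta g (x - a) ρp)

/-- the `i`-th point on the line -/
noncomputable def xi (s₀ d y : ℝ) (i : ℕ) : ℂ := ⟨s₀ + 16 * d * i, y⟩

/-- for fixed `m`: the sum over the peaks on the line with `m ∈ J_x` -/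
theorem k_sum_fixed {C₁ C₂ : ℝ} (hC₁ : 0 ≤ C₁) (hC₂ : 0 ≤ C₂) (hK : KMainStmt C₁ C₂) {g : ℂ → ℝ}
    {τ d s₀ y m : ℝ} (hd : 0 < d) (hd' : d ≤ 1 / 64) (hg : Nice g) (hm0 : 0 ≤ m) (I : Finset ℕ)
    (Δ a b r : ℕ → ℝ) (hI : ∀ i ∈ I, s₀ + 16 * d * i ∈ Icc (-3 : ℝ) 17)
    (hP : ∀ i ∈ I, Peak g τ d (xi s₀ d y i) (Δ i) (a i) (b i) (r i) ∧
      τ + 6 * d ≤ r i ∧ r i ≤ 4 * τ - 6 * d)
    (hm : ∀ i ∈ I, ∃ ρ₀, |ρ₀ - r i| ≤ 3 * d ∧ mass g (xi s₀ d y i) ρ₀ = m ∧
      |m - mass g (xi s₀ d y i) (r i)| ≤ 1 / 200 * (Δ i / d)) :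
    ∑ i ∈ I, Δ i / d ≤ (2 * C₁ + 38 * C₂) * m := by
  have key : ∀ i ∈ I, ∃ ρp ρq : ℝ, ρp ∈ Icc (1 : ℝ) 8 ∧ ρq ∈ Icc (1 : ℝ) 8 ∧
      mass g (xi s₀ d y i - a i) ρp = m ∧ mass g (xi s₀ d y i + b i) ρq = m ∧
      Δ i / d ≤ C₁ * d * m +
        C₂ * (beta g (xi s₀ d y i + b i) ρq - beta g (xi s₀ d y i - a i) ρp) := by
    intro i hi
    obtain ⟨ρ₀, h1, h2, h3⟩ := hm i hi
    obtain ⟨h4, h5, h6⟩ := hP i hi
    exact hK g τ d _ _ _ _ _ m ρ₀ h4 h5 h6 h1 h2 h3
  choose! ρp ρq hρp hρq hmp hmq hX using key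
  set P : ℕ → ℝ := fun i => beta g (xi s₀ d y i - a i) (ρp i) with hPdef
  set Q : ℕ → ℝ := fun i => beta g (xi s₀ d y i + b i) (ρq i) with hQdef
  have hPL : ∀ i ∈ I, -12 * m ≤ P i := by
    intro i hi
    have h1 := (hP i hi).1
    have h2 := hI i hi
    have h3 := (beta_bound hg.1 (y := xi s₀ d y i - a i) (ρ := ρp i) (lo := -12)
      (hi := (xi s₀ d y i - a i).re + ρp i) ?_ le_rfl).1
    · rw [hmp i hi] at h3
      exact h3
    · simp only [xi, Complex.sub_re, Complex.ofReal_re]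
      linarith [h2.1, h1.a_le, (hρp i hi).2]
  have hQH : ∀ i ∈ I, Q i ≤ 26 * m := by
    intro i hi
    have h1 := (hP i hi).1
    have h2 := hI i hi
    have h3 := (beta_bound hg.1 (y := xi s₀ d y i + b i) (ρ := ρq i)
      (lo := (xi s₀ d y i + b i).re - ρq i) (hi := 26) le_rfl ?_).2
    · rw [hmq i hi] at h3
      exact h3
    · simp only [xi, Complex.add_re, Complex.ofReal_re]
      linarith [h2.2, h1.b_le, (hρq i hi).2]
  have hQP : ∀ i ∈ I, ∀ j ∈ I, i < j → Q i ≤ P j := by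
    intro i hi j hj hij
    have h1 := (hP i hi).1
    have h2 := (hP j hj).1
    have h3 : (i : ℝ) + 1 ≤ j := by exact_mod_cast hij
    have h4 : 0 < 16 * d * (j - i) - a j - b i := by
      have := h1.hb2
      have := h2.ha2
      nlinarith
    have h5 : xi s₀ d y j - a j = (xi s₀ d y i + b i) +
        ((16 * d * (j - i) - a j - b i : ℝ) : ℂ) := by
      apply Complex.ext
      · simp only [xi, Complex.sub_re, Complex.add_re, Complex.ofReal_re]; ring
      · simp only [xi, Complex.sub_im, Complex.add_im, Complex.ofReal_im]; ring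
    simp only [hPdef, hQdef]
    rw [h5]
    apply beta_mono hg.1 h4 (by linarith [(hρq i hi).1]) (by linarith [(hρp j hj).1])
    rw [← h5, hmp j hj, hmq i hi]
  have htel := ksum_telescope_le I P Q (L := -12 * m) hPL hQP (26 * m) (by linarith) hQH
  have hcard := ksum_card_le (s := I) (s₀ := s₀) (δ := 16 * d) (A := -3) (B := 17)
    (by linarith) (by norm_num) hI
  have h1 : ∑ i ∈ I, Δ i / d ≤ ∑ i ∈ I, (C₁ * d * m + C₂ * (Q i - P i)) :=
    Finset.sum_le_sum hX
  rw [Finset.sum_add_distrib, Finset.sum_const, nsmul_eq_mul, ← Finset.mul_sum] at h1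
  have h2 : (I.card : ℝ) * d ≤ 2 := by
    have h3 : (I.card : ℝ) * d ≤ ((17 - -3) / (16 * d) + 1) * d :=
      mul_le_mul_of_nonneg_right hcard hd.le
    have h4 : ((17 - -3) / (16 * d) + 1) * d = 20 / 16 + d := by
      field_simp; ring
    linarith
  have h5 : (I.card : ℝ) * (C₁ * d * m) ≤ 2 * C₁ * m := by
    have : (I.card : ℝ) * (C₁ * d * m) = (I.card : ℝ) * d * (C₁ * m) := by ring
    rw [this]
    have := mul_le_mul_of_nonneg_right h2 (mul_nonneg hC₁ hm0)
    linarith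
  have h6 : C₂ * ∑ i ∈ I, (Q i - P i) ≤ C₂ * (38 * m) :=
    mul_le_mul_of_nonneg_left (by linarith) hC₂
  linarith

/-- the side where the mass is -/
theorem Peak.sides {g : ℂ → ℝ} {τ d : ℝ} {x : ℂ} {Δ a b r : ℝ} (h : Peak g τ d x Δ a b r) :
    Δ / d ≤ mass g x r - mass g x (r - 3 * d) ∨ Δ / d ≤ mass g x (r + 3 * d) - mass g x r := by
  have hd := h.hd
  have hr := h.r_ge
  have h1 := h.lsd
  have h2 : ball x (r - 3 * d) ⊆ closedBall x (r + 3 * d) :=
    ball_subset_closedBall.trans (closedBall_subset_closedBall (by linarith))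
  rw [mu_sdiff h.hg measurableSet_ball h2, mu_closedBall x (by linarith)] at h1
  have e1 : mu g (ball x (r + 3 * d)) = mass g x (r + 3 * d) := rfl
  have e2 : mu g (ball x (r - 3 * d)) = mass g x (r - 3 * d) := rfl
  rw [e1, e2] at h1
  by_contra hcon
  push Not at hcon
  linarith [hcon.1, hcon.2]

/-- sum over separated interior peaks on a line -/
theorem k_sum {C₁ C₂ : ℝ} (hC₁ : 0 ≤ C₁) (hC₂ : 0 ≤ C₂) (hK : KMainStmt C₁ C₂) {g : ℂ → ℝ}
    {τ d s₀ y : ℝ} (hd : 0 < d) (hd' : d ≤ 1 / 64) (hg : Nice g) (I : Finset ℕ)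
    (Δ a b r : ℕ → ℝ) (hI : ∀ i ∈ I, s₀ + 16 * d * i ∈ Icc (-3 : ℝ) 17)
    (hP : ∀ i ∈ I, Peak g τ d (xi s₀ d y i) (Δ i) (a i) (b i) (r i) ∧
      τ + 6 * d ≤ r i ∧ r i ≤ 4 * τ - 6 * d) :
    ∑ i ∈ I, Δ i ≤ Real.sqrt (2 * ((2 * C₁ + 38 * C₂) * 326 ^ 2 * 200)) * Real.sqrt d * BB g := by
  classical
  have hB := BB_nonneg g
  set X : ℕ → ℝ := fun i => Δ i / d with hX
  set M : ℕ → ℝ := fun i => mass g (xi s₀ d y i) (r i) with hM
  have hX0 : ∀ i ∈ I, 0 < X i := fun i hi => div_pos (hP i hi).1.hΔ hd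
  have hXB : ∀ i ∈ I, X i ≤ BB g := fun i hi => (hP i hi).1.vb0.1
  have hMB : ∀ i ∈ I, M i ≤ 325 * BB g := fun i hi =>
    (hP i hi).1.int_bound (hP i hi).2.1 (hP i hi).2.2
  set l : ℕ → ℝ := fun i =>
    if X i ≤ M i - mass g (xi s₀ d y i) (r i - 3 * d) then M i - 1 / 200 * X i else M i with hl
  have hl0 : ∀ i ∈ I, 0 ≤ l i := by
    intro i hi
    have h1 := hX0 i hi
    have h2 : 0 ≤ mass g (xi s₀ d y i) (r i - 3 * d) := mass_nonneg _ _
    have h3 : 0 ≤ M i := mass_nonneg _ _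
    simp only [hl]
    split_ifs with h
    · linarith
    · exact h3
  have hlM : ∀ i ∈ I, l i + 1 / 200 * X i ≤ 326 * BB g := by
    intro i hi
    have h1 := hX0 i hi
    have h2 := hXB i hi
    have h3 := hMB i hi
    simp only [hl]
    split_ifs with h <;> linarith
  have hlm : ∀ i ∈ I, ∀ m ∈ Icc (l i) (l i + 1 / 200 * X i),
      ∃ ρ₀, |ρ₀ - r i| ≤ 3 * d ∧ mass g (xi s₀ d y i) ρ₀ = m ∧
      |m - mass g (xi s₀ d y i) (r i)| ≤ 1 / 200 * (Δ i / d) := by
    intro i hi m hm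
    have h1 := hX0 i hi
    have hr := (hP i hi).1.r_ge
    have hs := (hP i hi).1.sides
    simp only [hl] at hm
    split_ifs at hm with h
    · obtain ⟨ρ₀, h2, h3⟩ := exists_radius hg.1 (xi s₀ d y i) (ρ₁ := r i - 3 * d) (ρ₂ := r i)
        (m := m) (by linarith) (by linarith) (by linarith [hm.1])
        (by have := hm.2; simp only [hM] at this ⊢; linarith)
      refine ⟨ρ₀, ?_, h3, ?_⟩
      · rw [abs_le]; constructor <;> linarith [h2.1, h2.2]
      · rw [abs_le]
        have h4 := hm.1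
        have h5 := hm.2
        simp only [hM, hX] at h4 h5
        constructor <;> linarith
    · have h6 : X i ≤ mass g (xi s₀ d y i) (r i + 3 * d) - M i := by
        rcases hs with h7 | h7
        · exact absurd h7 h
        · exact h7
      obtain ⟨ρ₀, h2, h3⟩ := exists_radius hg.1 (xi s₀ d y i) (ρ₁ := r i) (ρ₂ := r i + 3 * d)
        (m := m) (by linarith) (by linarith) hm.1 (by linarith [hm.2])
      refine ⟨ρ₀, ?_, h3, ?_⟩
      · rw [abs_le]; constructor <;> linarith [h2.1, h2.2]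
      · rw [abs_le]
        have h4 := hm.1
        have h5 := hm.2
        simp only [hM, hX] at h4 h5
        constructor <;> linarith
  have hsq := ksum_sq_le I X l (η := 1 / 200) (M := 326 * BB g)
    (K := (2 * C₁ + 38 * C₂) * (326 * BB g)) (by norm_num) (by positivity)
    (fun i hi => (hX0 i hi).le) hl0 hlM ?_
  swap
  · intro m hm
    have h1 : ∑ i ∈ I, (Icc (l i) (l i + 1 / 200 * X i)).indicator (fun _ => X i) m =
        ∑ i ∈ I.filter (fun i => m ∈ Icc (l i) (l i + 1 / 200 * X i)), Δ i / d := by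
      rw [Finset.sum_filter]
      apply Finset.sum_congr rfl
      intro i _
      by_cases h : m ∈ Icc (l i) (l i + 1 / 200 * X i)
      · rw [indicator_of_mem h, if_pos h]
      · rw [indicator_of_notMem h, if_neg h]
    rw [h1]
    have h2 := k_sum_fixed hC₁ hC₂ hK (s₀ := s₀) (y := y) (m := m) hd hd' hg hm.1
      (I.filter (fun i => m ∈ Icc (l i) (l i + 1 / 200 * X i))) Δ a b r (τ := τ)
      (fun i hi => hI i (Finset.mem_filter.1 hi).1) (fun i hi => hP i (Finset.mem_filter.1 hi).1)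
      (fun i hi => hlm i (Finset.mem_filter.1 hi).1 m (Finset.mem_filter.1 hi).2)
    refine h2.trans ?_
    exact mul_le_mul_of_nonneg_left hm.2 (by positivity)
  set C₃ : ℝ := (2 * C₁ + 38 * C₂) * 326 ^ 2 * 200 with hC₃
  have hC₃0 : 0 ≤ C₃ := by positivity
  have hsq' : ∑ i ∈ I, X i ^ 2 ≤ C₃ * BB g ^ 2 := by
    refine hsq.trans (le_of_eq ?_)
    rw [hC₃]; field_simp
  have hcard := ksum_card_le (s := I) (s₀ := s₀) (δ := 16 * d) (A := -3) (B := 17)
    (by linarith) (by norm_num) hI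
  have hcd : (I.card : ℝ) * d ≤ 2 := by
    have h3 : (I.card : ℝ) * d ≤ ((17 - -3) / (16 * d) + 1) * d :=
      mul_le_mul_of_nonneg_right hcard hd.le
    have h4 : ((17 - -3) / (16 * d) + 1) * d = 20 / 16 + d := by
      field_simp; ring
    linarith
  have hCS := sq_sum_le_card_mul_sum_sq (s := I) (f := X)
  have hsum : ∑ i ∈ I, Δ i = d * ∑ i ∈ I, X i := by
    rw [Finset.mul_sum]
    apply Finset.sum_congr rfl
    intro i _
    simp only [hX]; field_simp
  have hfin : (∑ i ∈ I, Δ i) ^ 2 ≤ (Real.sqrt (2 * C₃) * Real.sqrt d * BB g) ^ 2 := by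
    have e1 : (Real.sqrt (2 * C₃) * Real.sqrt d * BB g) ^ 2 = 2 * C₃ * d * BB g ^ 2 := by
      rw [mul_pow, mul_pow, Real.sq_sqrt (by positivity), Real.sq_sqrt hd.le]
    rw [e1, hsum, mul_pow]
    have e2 : d ^ 2 * (∑ i ∈ I, X i) ^ 2 ≤ d ^ 2 * (I.card * (C₃ * BB g ^ 2)) := by
      apply mul_le_mul_of_nonneg_left _ (by positivity)
      exact hCS.trans (mul_le_mul_of_nonneg_left hsq' (by positivity))
    have e3 : d ^ 2 * (I.card * (C₃ * BB g ^ 2)) = (I.card * d) * (C₃ * d * BB g ^ 2) := by ring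
    have e4 : (I.card * d) * (C₃ * d * BB g ^ 2) ≤ 2 * (C₃ * d * BB g ^ 2) :=
      mul_le_mul_of_nonneg_right hcd (by positivity)
    linarith
  exact le_of_sq_le_sq hfin (by positivity)

end Crest.Agent.R112
end

-- ▼ part R112/KB
section

/-!
# Row 112 (S0147): Proposition K_b
-/

set_option autoImplicit false

namespace Crest.Agent.R112

open MeasureTheory Metric Set Filter Topology
open scoped ENNReal NNReal

/-- grid lemma -/
theorem lintegral_le_of_grid {F : ℝ → ℝ≥0∞} (hF : Measurable F) {a b h : ℝ} {S : ℝ≥0∞}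
    (hh : 0 < h)
    (hS : ∀ (s₀ : ℝ) (I : Finset ℕ), (∀ i ∈ I, s₀ + h * i ∈ Icc a b) →
      ∑ i ∈ I, F (s₀ + h * i) ≤ S) :
    ∫⁻ s in Icc a b, F s ≤ ENNReal.ofReal h * S := by
  classical
  set G : ℝ → ℝ≥0∞ := (Icc a b).indicator F with hG
  have hGm : Measurable G := hF.indicator measurableSet_Icc
  set n : ℕ := ⌊(b - a) / h⌋₊ + 1 with hn
  have hcover : Icc a b ⊆ ⋃ i ∈ Finset.range n, Ico (a + h * i) (a + h * i + h) := by
    intro x hx
    set k : ℕ := ⌊(x - a) / h⌋₊ with hk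
    have h0 : 0 ≤ (x - a) / h := div_nonneg (by linarith [hx.1]) hh.le
    have h1 : (k : ℝ) ≤ (x - a) / h := Nat.floor_le h0
    have h2 : (x - a) / h < k + 1 := Nat.lt_floor_add_one _
    rw [le_div_iff₀ hh] at h1
    rw [div_lt_iff₀ hh] at h2
    have h3 : k < n := by
      rw [hn, Nat.lt_succ_iff]
      apply Nat.floor_le_floor
      gcongr
      exact hx.2
    simp only [mem_iUnion, Finset.mem_range]
    exact ⟨k, h3, by linarith, by linarith⟩
  have e0 : ∫⁻ s in Icc a b, F s = ∫⁻ s in Icc a b, G s :=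
    setLIntegral_congr_fun measurableSet_Icc (fun s hs => (indicator_of_mem hs F).symm)
  have e1 : ∀ c : ℝ, ∫⁻ s in Ico c (c + h), G s = ∫⁻ θ in Ico 0 h, G (c + θ) := by
    intro c
    rw [← lintegral_indicator measurableSet_Ico, ← lintegral_indicator measurableSet_Ico,
      ← lintegral_add_left_eq_self _ c]
    apply lintegral_congr
    intro θ
    by_cases hθ : θ ∈ Ico 0 h
    · rw [indicator_of_mem hθ, indicator_of_mem]
      exact ⟨by linarith [hθ.1], by linarith [hθ.2]⟩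
    · rw [indicator_of_notMem hθ, indicator_of_notMem]
      rintro ⟨h1, h2⟩
      exact hθ ⟨by linarith, by linarith⟩
  calc ∫⁻ s in Icc a b, F s = ∫⁻ s in Icc a b, G s := e0
    _ ≤ ∫⁻ s in ⋃ i ∈ Finset.range n, Ico (a + h * i) (a + h * i + h), G s :=
        lintegral_mono_set hcover
    _ ≤ ∑ i ∈ Finset.range n, ∫⁻ s in Ico (a + h * i) (a + h * i + h), G s :=
        lintegral_biUnion_finset_le _ _ _
    _ = ∑ i ∈ Finset.range n, ∫⁻ θ in Ico 0 h, G (a + h * i + θ) :=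
        Finset.sum_congr rfl (fun i _ => e1 _)
    _ = ∫⁻ θ in Ico 0 h, ∑ i ∈ Finset.range n, G (a + h * i + θ) := by
        rw [lintegral_finsetSum]
        intro i _
        exact hGm.comp (measurable_const_add _)
    _ ≤ ∫⁻ θ in Ico 0 h, S := by
        apply lintegral_mono
        intro θ
        have e2 : ∑ i ∈ Finset.range n, G (a + h * i + θ) =
            ∑ i ∈ (Finset.range n).filter (fun i : ℕ => (a + θ) + h * i ∈ Icc a b),
              F ((a + θ) + h * i) := by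
          rw [Finset.sum_filter]
          apply Finset.sum_congr rfl
          intro i _
          have e3 : a + h * i + θ = (a + θ) + h * i := by ring
          rw [e3]
          by_cases hm : (a + θ) + h * i ∈ Icc a b
          · rw [if_pos hm, hG, indicator_of_mem hm]
          · rw [if_neg hm, hG, indicator_of_notMem hm]
        simp only
        rw [e2]
        exact hS (a + θ) _ (fun i hi => (Finset.mem_filter.1 hi).2)
    _ = ENNReal.ofReal h * S := by
        rw [setLIntegral_const, Real.volume_Ico, sub_zero, mul_comm]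

theorem shift_integral_le {φ : ℝ → ℝ} (hmono : Monotone φ) {M : ℝ} (h0 : ∀ t, 0 ≤ φ t)
    (hM : ∀ t, φ t ≤ M) {a b c : ℝ} (hab : a ≤ b) (hc : 0 ≤ c) :
    ∫⁻ t in Icc a b, ENNReal.ofReal (φ (t + c) - φ (t - c)) ≤ ENNReal.ofReal (2 * c * M) := by
  have hi : ∀ u v : ℝ, IntervalIntegrable φ volume u v := fun u v =>
    (hmono.monotoneOn _).intervalIntegrable
  have hm1 : Monotone (fun t => φ (t + c)) := fun s t hst => hmono (by linarith)
  have hm2 : Monotone (fun t => φ (t - c)) := fun s t hst => hmono (by linarith)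
  have hi1 : IntervalIntegrable (fun t => φ (t + c)) volume a b :=
    (hm1.monotoneOn _).intervalIntegrable
  have hi2 : IntervalIntegrable (fun t => φ (t - c)) volume a b :=
    (hm2.monotoneOn _).intervalIntegrable
  have h1 : ∫ t in a..b, (φ (t + c) - φ (t - c)) ≤ 2 * c * M := by
    rw [intervalIntegral.integral_sub hi1 hi2, intervalIntegral.integral_comp_add_right,
      intervalIntegral.integral_comp_sub_right]
    have e1 : (∫ t in (a + c)..(b + c), φ t) - ∫ t in (a - c)..(b - c), φ t =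
        (∫ t in (b - c)..(b + c), φ t) - ∫ t in (a - c)..(a + c), φ t := by
      have e2 := intervalIntegral.integral_add_adjacent_intervals (hi (a - c) (a + c))
        (hi (a + c) (b + c))
      have e3 := intervalIntegral.integral_add_adjacent_intervals (hi (a - c) (b - c))
        (hi (b - c) (b + c))
      linarith
    rw [e1]
    have e4 : 0 ≤ ∫ t in (a - c)..(a + c), φ t :=
      intervalIntegral.integral_nonneg (by linarith) (fun t _ => h0 t)
    have e5 : ∫ t in (b - c)..(b + c), φ t ≤ ∫ t in (b - c)..(b + c), M :=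
      intervalIntegral.integral_mono_on (by linarith) (hi _ _) (by simp) (fun t _ => hM t)
    rw [intervalIntegral.integral_const, smul_eq_mul] at e5
    have e6 : (b + c - (b - c)) * M = 2 * c * M := by ring
    linarith
  rw [← Measure.restrict_congr_set (Ioc_ae_eq_Icc (μ := volume) (a := a) (b := b)),
    ← ofReal_integral_eq_lintegral_ofReal, ← intervalIntegral.integral_of_le hab]
  · exact ENNReal.ofReal_le_ofReal h1
  · exact (intervalIntegrable_iff_integrableOn_Ioc_of_le hab).1 (hi1.sub hi2)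
  · exact Eventually.of_forall (fun t => sub_nonneg.2 (hmono (by linarith)))

/-- a jointly continuous version of `phit` -/
noncomputable def phic (g : ℂ → ℝ) (t : ℝ) (x : ℂ) : ℝ :=
  min (t ^ 2 * ∫ ξ in ball (0 : ℂ) 1, ‖fderiv ℝ g (x + t * ξ)‖) (3 * BB g)

theorem phic_eq {g : ℂ → ℝ} {t : ℝ} (ht : 0 < t) (x : ℂ) : phic g t x = phit g x t := by
  unfold phic phit mu
  rw [disc_avg_eq (fun z => ‖fderiv ℝ g z‖) ht, smul_eq_mul, ← mul_assoc,
    mul_inv_cancel₀ (by positivity), one_mul]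

theorem continuous_phic {g : ℂ → ℝ} (hg : Nice g) :
    Continuous (fun p : ℝ × ℂ => phic g p.1 p.2) := by
  unfold phic
  obtain ⟨K, hK0, hK⟩ := hg.exists_bound_fderiv
  have h1 := continuous_disc_avg (F := fun z => ‖fderiv ℝ g z‖) hg.continuous_fderiv.norm
    ⟨K, fun x => by rw [norm_norm]; exact hK x⟩
  exact ((continuous_fst.pow 2).mul h1).min continuous_const

/-- the cut-off majorant -/
noncomputable def cutf (g : ℂ → ℝ) (d : ℝ) (τ : ℝ) (x : ℂ) : ℝ :=
  (phic g (τ + 9 * d) x - phic g (τ - 9 * d) x) +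
    (phic g (4 * τ + 9 * d) x - phic g (4 * τ - 9 * d) x)

theorem continuous_cutf {g : ℂ → ℝ} (hg : Nice g) (d : ℝ) :
    Continuous (fun p : ℝ × ℂ => cutf g d p.1 p.2) := by
  unfold cutf
  have h := continuous_phic hg
  have e : ∀ c₁ c₂ : ℝ, Continuous (fun p : ℝ × ℂ => phic g (c₁ * p.1 + c₂) p.2) := fun c₁ c₂ =>
    h.comp (((continuous_const.mul continuous_fst).add continuous_const).prodMk continuous_snd)
  have e1 : ∀ p : ℝ × ℂ, (phic g (p.1 + 9 * d) p.2 - phic g (p.1 - 9 * d) p.2) +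
    (phic g (4 * p.1 + 9 * d) p.2 - phic g (4 * p.1 - 9 * d) p.2) =
    (phic g (1 * p.1 + 9 * d) p.2 - phic g (1 * p.1 + (-(9 * d))) p.2) +
    (phic g (4 * p.1 + 9 * d) p.2 - phic g (4 * p.1 + (-(9 * d))) p.2) := by
    intro p
    rw [one_mul, sub_eq_add_neg p.1, sub_eq_add_neg (4 * p.1)]
  simp_rw [e1]
  exact ((e _ _).sub (e _ _)).add ((e _ _).sub (e _ _))

theorem cutf_eq {g : ℂ → ℝ} {d τ : ℝ} (hd : 0 < d) (hd' : d ≤ 1 / 64) (hτ : 1 ≤ τ) (x : ℂ) :
    cutf g d τ x = (phit g x (τ + 9 * d) - phit g x (τ - 9 * d)) +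
      (phit g x (4 * τ + 9 * d) - phit g x (4 * τ - 9 * d)) := by
  unfold cutf
  rw [phic_eq (by linarith), phic_eq (by linarith), phic_eq (by linarith), phic_eq (by linarith)]

theorem phit_monotone {g : ℂ → ℝ} (hg : Nice g) (x : ℂ) : Monotone (phit g x) := fun _ _ hst =>
  Peak.phit_mono hg hst

theorem phit_nonneg {g : ℂ → ℝ} (x : ℂ) (t : ℝ) : 0 ≤ phit g x t :=
  le_min (mu_nonneg _ _) (by have := BB_nonneg g; positivity)

theorem cutf_nonneg {g : ℂ → ℝ} (hg : Nice g) {d τ : ℝ} (hd : 0 < d) (hd' : d ≤ 1 / 64)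
    (hτ : 1 ≤ τ) (x : ℂ) : 0 ≤ cutf g d τ x := by
  rw [cutf_eq hd hd' hτ]
  have h1 := phit_monotone hg x (show τ - 9 * d ≤ τ + 9 * d by linarith)
  have h2 := phit_monotone hg x (show 4 * τ - 9 * d ≤ 4 * τ + 9 * d by linarith)
  linarith

/-- integral of the cut-off majorant in `τ` -/
theorem lintegral_cutf_le {g : ℂ → ℝ} (hg : Nice g) {d : ℝ} (hd : 0 < d) (hd' : d ≤ 1 / 64)
    (x : ℂ) : ∫⁻ τ in Icc (1 : ℝ) 2, ENNReal.ofReal (cutf g d τ x) ≤
      ENNReal.ofReal (68 * d * BB g) := by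
  have hB := BB_nonneg g
  have h1 := shift_integral_le (phit_monotone hg x) (M := 3 * BB g) (phit_nonneg x)
    (fun t => min_le_right _ _) (a := 1) (b := 2) (c := 9 * d) (by norm_num) (by positivity)
  have hm4 : Monotone (fun t => phit g x (4 * t)) := fun s t hst =>
    phit_monotone hg x (by linarith)
  have h2 := shift_integral_le hm4 (M := 3 * BB g) (fun t => phit_nonneg x _)
    (fun t => min_le_right _ _) (a := 1) (b := 2) (c := 9 / 4 * d) (by norm_num) (by positivity)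
  have hmeas : Measurable (fun t => ENNReal.ofReal (phit g x (t + 9 * d) - phit g x (t - 9 * d))) := by
    have hm := (phit_monotone hg x).measurable
    exact ((hm.comp (measurable_add_const _)).sub (hm.comp (measurable_sub_const _))).ennreal_ofReal
  calc ∫⁻ τ in Icc (1 : ℝ) 2, ENNReal.ofReal (cutf g d τ x)
      ≤ ∫⁻ τ in Icc (1 : ℝ) 2, (ENNReal.ofReal (phit g x (τ + 9 * d) - phit g x (τ - 9 * d)) +
        ENNReal.ofReal (phit g x (4 * (τ + 9 / 4 * d)) - phit g x (4 * (τ - 9 / 4 * d)))) := by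
        apply setLIntegral_mono' measurableSet_Icc
        intro τ hτ
        rw [cutf_eq hd hd' hτ.1]
        have e1 : 4 * (τ + 9 / 4 * d) = 4 * τ + 9 * d := by ring
        have e2 : 4 * (τ - 9 / 4 * d) = 4 * τ - 9 * d := by ring
        rw [e1, e2]
        exact ENNReal.ofReal_add_le
    _ = (∫⁻ τ in Icc (1 : ℝ) 2, ENNReal.ofReal (phit g x (τ + 9 * d) - phit g x (τ - 9 * d))) +
        ∫⁻ τ in Icc (1 : ℝ) 2,
        ENNReal.ofReal (phit g x (4 * (τ + 9 / 4 * d)) - phit g x (4 * (τ - 9 / 4 * d))) :=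
        lintegral_add_left hmeas _
    _ ≤ ENNReal.ofReal (2 * (9 * d) * (3 * BB g)) +
        ENNReal.ofReal (2 * (9 / 4 * d) * (3 * BB g)) := add_le_add h1 h2
    _ = ENNReal.ofReal (2 * (9 * d) * (3 * BB g) + 2 * (9 / 4 * d) * (3 * BB g)) :=
        (ENNReal.ofReal_add (by positivity) (by positivity)).symm
    _ ≤ ENNReal.ofReal (68 * d * BB g) := by
        apply ENNReal.ofReal_le_ofReal
        nlinarith [mul_nonneg hd.le hB]

/-- interior part on a line -/
theorem interior_line {C₁ C₂ : ℝ} (hC₁ : 0 ≤ C₁) (hC₂ : 0 ≤ C₂) (hK : KMainStmt C₁ C₂) {g : ℂ → ℝ}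
    (hg : Nice g) {τ d y : ℝ} (hd : 0 < d) (hd' : d ≤ 1 / 64) (hτ : τ ∈ Icc (1 : ℝ) 2)
    (hy : y ∈ Icc (-1 : ℝ) 1) :
    ∫⁻ s in Icc (-3 : ℝ) 17,
      {s | d * cutf g d τ ⟨s, y⟩ < Pk (fun s => U g τ ⟨s, y⟩) (d / 8) (3 * d) s}.indicator
        (fun s => ENNReal.ofReal (Pk (fun s => U g τ ⟨s, y⟩) (d / 8) (3 * d) s)) s ≤
      ENNReal.ofReal (16 * d) * ENNReal.ofReal
        (Real.sqrt (2 * ((2 * C₁ + 38 * C₂) * 326 ^ 2 * 200)) * Real.sqrt d * BB g) := by
  classical
  set h : ℝ → ℝ := Pk (fun s => U g τ ⟨s, y⟩) (d / 8) (3 * d) with hh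
  have hhc : Continuous h := Pk_continuous (continuous_line hg τ y) _ _
  have hline : Continuous (fun s : ℝ => (⟨s, y⟩ : ℂ)) :=
    continuous_cmk continuous_id continuous_const
  have hcc : Continuous (fun s : ℝ => d * cutf g d τ ⟨s, y⟩) :=
    continuous_const.mul ((continuous_cutf hg d).comp (continuous_const.prodMk hline))
  apply lintegral_le_of_grid
  · exact (hhc.measurable.ennreal_ofReal).indicator (measurableSet_lt hcc.measurable hhc.measurable)
  · positivity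
  · intro s₀ I hI
    have e1 : ∑ i ∈ I, {s | d * cutf g d τ ⟨s, y⟩ < h s}.indicator
        (fun s => ENNReal.ofReal (h s)) (s₀ + 16 * d * i) =
        ∑ i ∈ I.filter (fun i : ℕ => d * cutf g d τ ⟨s₀ + 16 * d * i, y⟩ < h (s₀ + 16 * d * i)),
          ENNReal.ofReal (h (s₀ + 16 * d * i)) := by
      rw [Finset.sum_filter]
      apply Finset.sum_congr rfl
      intro i _
      by_cases hm : d * cutf g d τ ⟨s₀ + 16 * d * i, y⟩ < h (s₀ + 16 * d * i)
      · rw [if_pos hm, indicator_of_mem]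
        exact hm
      · rw [if_neg hm, indicator_of_notMem]
        exact hm
    rw [e1]
    set J := I.filter (fun i : ℕ => d * cutf g d τ ⟨s₀ + 16 * d * i, y⟩ < h (s₀ + 16 * d * i))
      with hJ
    rw [← ENNReal.ofReal_sum_of_nonneg (fun i _ => Pk_nonneg _ _ _ _)]
    apply ENNReal.ofReal_le_ofReal
    have hpk : ∀ i ∈ J, ∃ a b r, Peak g τ d (xi s₀ d y i) (h (s₀ + 16 * d * i)) a b r := by
      intro i hi
      have hi1 := (Finset.mem_filter.1 hi).1
      have hi2 := (Finset.mem_filter.1 hi).2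
      have h0 := mul_nonneg hd.le (cutf_nonneg hg hd hd' hτ.1 ⟨s₀ + 16 * d * i, y⟩)
      exact exists_peak hg hd hd' hτ.1 hτ.2 (hI i hi1) hy (lt_of_le_of_lt h0 hi2)
    choose! a b r hP using hpk
    refine k_sum hC₁ hC₂ hK (s₀ := s₀) (y := y) (τ := τ) hd hd' hg J
      (fun i => h (s₀ + 16 * d * i)) a b r (fun i hi => hI i (Finset.mem_filter.1 hi).1)
      (fun i hi => ⟨hP i hi, ?_⟩)
    have hi2 := (Finset.mem_filter.1 hi).2
    by_contra hcon
    have hcut : r i < τ + 6 * d ∨ 4 * τ - 6 * d < r i := by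
      by_contra h3
      push Not at h3
      exact hcon h3
    have h4 := (hP i hi).cut_bound hcut
    rw [← cutf_eq hd hd' hτ.1, div_le_iff₀ hd] at h4
    have h5 : cutf g d τ (xi s₀ d y i) * d = d * cutf g d τ ⟨s₀ + 16 * d * i, y⟩ := by
      rw [mul_comm]; rfl
    rw [h5] at h4
    linarith

theorem lint_rot3 {F : ℝ → ℝ → ℝ → ℝ≥0∞} (hF : Measurable (fun q : (ℝ × ℝ) × ℝ => F q.1.1 q.1.2 q.2))
    (A B C : Set ℝ) :
    ∫⁻ τ in A, ∫⁻ y in B, ∫⁻ s in C, F τ y s = ∫⁻ y in B, ∫⁻ s in C, ∫⁻ τ in A, F τ y s := by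
  have e1 : ∫⁻ τ in A, ∫⁻ y in B, ∫⁻ s in C, F τ y s = ∫⁻ y in B, ∫⁻ τ in A, ∫⁻ s in C, F τ y s := by
    apply lintegral_lintegral_swap (f := fun τ y => ∫⁻ s in C, F τ y s)
    have : Measurable (fun p : ℝ × ℝ => ∫⁻ s in C, F p.1 p.2 s) :=
      Measurable.lintegral_prod_right' (f := fun q : (ℝ × ℝ) × ℝ => F q.1.1 q.1.2 q.2) hF
    exact this.aemeasurable
  have e2 : ∀ y : ℝ, ∫⁻ τ in A, ∫⁻ s in C, F τ y s = ∫⁻ s in C, ∫⁻ τ in A, F τ y s := by
    intro y
    apply lintegral_lintegral_swap (f := fun τ s => F τ y s)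
    have : Measurable (fun p : ℝ × ℝ => F p.1 y p.2) :=
      hF.comp ((measurable_fst.prodMk measurable_const).prodMk measurable_snd)
    exact this.aemeasurable
  rw [e1]
  exact lintegral_congr e2

/-- cut part, integrated -/
theorem cut_total {g : ℂ → ℝ} (hg : Nice g) {d : ℝ} (hd : 0 < d) (hd' : d ≤ 1 / 64) :
    ∫⁻ τ in Icc (1 : ℝ) 2, ∫⁻ y in Icc (-1 : ℝ) 1, ∫⁻ s in Icc (-3 : ℝ) 17,
      ENNReal.ofReal (d * cutf g d τ ⟨s, y⟩) ≤ ENNReal.ofReal (2720 * d ^ 2 * BB g) := by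
  have hB := BB_nonneg g
  have hc : Continuous (fun q : (ℝ × ℝ) × ℝ => d * cutf g d q.1.1 (⟨q.2, q.1.2⟩ : ℂ)) :=
    continuous_const.mul ((continuous_cutf hg d).comp ((continuous_fst.comp continuous_fst).prodMk
      (continuous_cmk continuous_snd (continuous_snd.comp continuous_fst))))
  rw [lint_rot3 (F := fun τ y s => ENNReal.ofReal (d * cutf g d τ (⟨s, y⟩ : ℂ)))
    hc.measurable.ennreal_ofReal]
  calc ∫⁻ y in Icc (-1 : ℝ) 1, ∫⁻ s in Icc (-3 : ℝ) 17, ∫⁻ τ in Icc (1 : ℝ) 2,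
        ENNReal.ofReal (d * cutf g d τ ⟨s, y⟩)
      ≤ ∫⁻ y in Icc (-1 : ℝ) 1, ∫⁻ s in Icc (-3 : ℝ) 17, ENNReal.ofReal (d * (68 * d * BB g)) := by
        apply lintegral_mono
        intro y
        apply lintegral_mono
        intro s
        simp only
        have h1 := lintegral_cutf_le hg hd hd' (⟨s, y⟩ : ℂ)
        simp_rw [ENNReal.ofReal_mul hd.le]
        rw [lintegral_const_mul' _ _ ENNReal.ofReal_ne_top]
        exact mul_le_mul' le_rfl h1
    _ = ENNReal.ofReal (2720 * d ^ 2 * BB g) := by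
        rw [setLIntegral_const, setLIntegral_const, Real.volume_Icc, Real.volume_Icc,
          ← ENNReal.ofReal_mul (by positivity), ← ENNReal.ofReal_mul (by positivity)]
        congr 1; ring

/-- **Proposition K_b** from the K lemma. -/
theorem KbProp_of_main {C₁ C₂ : ℝ} (hC₁ : 0 ≤ C₁) (hC₂ : 0 ≤ C₂) (hK : KMainStmt C₁ C₂) :
    ∃ C, 0 ≤ C ∧ KbProp C := by
  set C₀ : ℝ := Real.sqrt (2 * ((2 * C₁ + 38 * C₂) * 326 ^ 2 * 200)) with hC₀
  have hC₀0 : 0 ≤ C₀ := Real.sqrt_nonneg _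
  refine ⟨32 * C₀ + 2720, by positivity, ?_⟩
  intro g hg d hd hd'
  have hB := BB_nonneg g
  have hsd := Real.sqrt_nonneg d
  have hrhs : 0 ≤ (32 * C₀ + 2720) * (d * Real.sqrt d) * BB g := by positivity
  rw [← ENNReal.ofReal_le_ofReal_iff hrhs,
    ← lint_eq3 (F := fun p : ℝ × ℝ × ℝ => Pk (fun s => U g p.1 ⟨s, p.2.1⟩) (d / 8) (3 * d) p.2.2)
      (continuous_Pk_U hg _ _) (fun _ => Pk_nonneg _ _ _ _) (by norm_num) (by norm_num)
      (by norm_num)]
  simp only
  set cA : ℝ≥0∞ := ENNReal.ofReal (16 * d) * ENNReal.ofReal (C₀ * Real.sqrt d * BB g) with hcA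
  have hline : ∀ y : ℝ, Continuous (fun s : ℝ => (⟨s, y⟩ : ℂ)) := fun y =>
    continuous_cmk continuous_id continuous_const
  have hinner : ∀ τ ∈ Icc (1 : ℝ) 2, ∀ y ∈ Icc (-1 : ℝ) 1,
      ∫⁻ s in Icc (-3 : ℝ) 17, ENNReal.ofReal (Pk (fun s => U g τ ⟨s, y⟩) (d / 8) (3 * d) s) ≤
      (∫⁻ s in Icc (-3 : ℝ) 17, ENNReal.ofReal (d * cutf g d τ ⟨s, y⟩)) + cA := by
    intro τ hτ y hy
    have hcc : Continuous (fun s : ℝ => d * cutf g d τ ⟨s, y⟩) :=
      continuous_const.mul ((continuous_cutf hg d).comp (continuous_const.prodMk (hline y)))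
    refine le_trans ?_ (add_le_add le_rfl (interior_line hC₁ hC₂ hK hg hd hd' hτ hy))
    rw [← lintegral_add_left hcc.measurable.ennreal_ofReal]
    apply lintegral_mono
    intro s
    simp only
    by_cases hm : d * cutf g d τ ⟨s, y⟩ < Pk (fun s => U g τ ⟨s, y⟩) (d / 8) (3 * d) s
    · rw [indicator_of_mem (show s ∈ {s | d * cutf g d τ ⟨s, y⟩ <
        Pk (fun s => U g τ ⟨s, y⟩) (d / 8) (3 * d) s} from hm)]
      exact le_add_self
    · exact (ENNReal.ofReal_le_ofReal (not_lt.1 hm)).trans le_self_add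
  calc ∫⁻ τ in Icc (1 : ℝ) 2, ∫⁻ y in Icc (-1 : ℝ) 1, ∫⁻ s in Icc (-3 : ℝ) 17,
        ENNReal.ofReal (Pk (fun s => U g τ ⟨s, y⟩) (d / 8) (3 * d) s)
      ≤ ∫⁻ τ in Icc (1 : ℝ) 2, ((∫⁻ y in Icc (-1 : ℝ) 1, ∫⁻ s in Icc (-3 : ℝ) 17,
        ENNReal.ofReal (d * cutf g d τ ⟨s, y⟩)) + 2 * cA) := by
        apply setLIntegral_mono' measurableSet_Icc
        intro τ hτ
        calc ∫⁻ y in Icc (-1 : ℝ) 1, ∫⁻ s in Icc (-3 : ℝ) 17,
            ENNReal.ofReal (Pk (fun s => U g τ ⟨s, y⟩) (d / 8) (3 * d) s)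
            ≤ ∫⁻ y in Icc (-1 : ℝ) 1, ((∫⁻ s in Icc (-3 : ℝ) 17,
              ENNReal.ofReal (d * cutf g d τ ⟨s, y⟩)) + cA) :=
              setLIntegral_mono' measurableSet_Icc (fun y hy => hinner τ hτ y hy)
          _ = _ := by
              rw [lintegral_add_right _ measurable_const, setLIntegral_const, Real.volume_Icc]
              congr 1
              rw [mul_comm]
              norm_num
    _ = (∫⁻ τ in Icc (1 : ℝ) 2, ∫⁻ y in Icc (-1 : ℝ) 1, ∫⁻ s in Icc (-3 : ℝ) 17,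
        ENNReal.ofReal (d * cutf g d τ ⟨s, y⟩)) + 2 * cA := by
        rw [lintegral_add_right _ measurable_const, setLIntegral_const, Real.volume_Icc]
        norm_num
    _ ≤ ENNReal.ofReal (2720 * d ^ 2 * BB g) + 2 * cA := add_le_add (cut_total hg hd hd') le_rfl
    _ = ENNReal.ofReal (2720 * d ^ 2 * BB g + 2 * (16 * d * (C₀ * Real.sqrt d * BB g))) := by
        rw [hcA, ← ENNReal.ofReal_mul (by positivity), ENNReal.ofReal_add (by positivity)
          (by positivity), ENNReal.ofReal_mul (p := 2) (by norm_num)]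
        norm_num
    _ ≤ ENNReal.ofReal ((32 * C₀ + 2720) * (d * Real.sqrt d) * BB g) := by
        apply ENNReal.ofReal_le_ofReal
        have h1 : d ≤ Real.sqrt d := by
          have := Real.sqrt_le_sqrt (show d ^ 2 ≤ d by nlinarith)
          rwa [Real.sqrt_sq hd.le] at this
        have h2 : d * d * BB g ≤ d * Real.sqrt d * BB g :=
          mul_le_mul_of_nonneg_right (mul_le_mul_of_nonneg_left h1 hd.le) hB
        nlinarith

end Crest.Agent.R112
end

-- ▼ part R112/KCore3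
section

set_option autoImplicit false

namespace Crest.Agent.R112

open MeasureTheory Set Real intervalIntegral

variable {g : ℂ → ℝ}

/-- two concentric circle means differ by at most the mass of the ring (radii `≥ 1`) -/
theorem circle_diff (hg : ContDiff ℝ 1 g) (x : ℂ) (V : ℝ) {s t : ℝ} (hs : 1 ≤ s) (ht : 1 ≤ t) :
    |(∫ θ in (-π)..π, (g (pt x s θ) - V)) - ∫ θ in (-π)..π, (g (pt x t θ) - V)| ≤
      |mass g x s - mass g x t| := by
  have hgc := hg.continuous
  have hnc := cont_nfd hg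
  have hpi := Real.pi_pos
  wlog hst : s ≤ t generalizing s t
  · rw [abs_sub_comm, abs_sub_comm (mass g x s)]
    exact this ht hs (le_of_not_ge hst)
  have h1 := ring_le hg x (ρ₁ := s) (ρ₂ := t) (by linarith) hst
  have h0 : 0 ≤ ∫ θ in (-π)..π, ∫ u in s..t, ‖fderiv ℝ g (pt x u θ)‖ := by
    apply intervalIntegral.integral_nonneg (by linarith)
    intro θ _
    apply intervalIntegral.integral_nonneg hst
    intro u _
    exact norm_nonneg _
  have h2 : (∫ θ in (-π)..π, ∫ u in s..t, ‖fderiv ℝ g (pt x u θ)‖) ≤ mass g x t - mass g x s := by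
    nlinarith
  rw [abs_sub_comm, abs_sub_comm (mass g x s)]
  refine le_trans ?_ (h2.trans (le_abs_self _))
  rw [← intervalIntegral.integral_sub (Continuous.intervalIntegrable (by fun_prop) _ _)
    (Continuous.intervalIntegrable (by fun_prop) _ _)]
  apply (intervalIntegral.abs_integral_le_integral_abs (by linarith)).trans
  apply intervalIntegral.integral_mono_on (by linarith)
  · exact Continuous.intervalIntegrable (by fun_prop) _ _
  · exact Continuous.intervalIntegrable (by fun_prop) _ _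
  · intro θ _
    have := radial_diff hg x θ hst
    have e : g (pt x t θ) - V - (g (pt x s θ) - V) = g (pt x t θ) - g (pt x s θ) := by ring
    rw [e]
    exact this

/-- mean over the circle of radius `ρ₀` -/
theorem circle_small (hg : ContDiff ℝ 1 g) {x : ℂ} {r V s : ℝ} (hr : 1 ≤ r) (hs : 1 ≤ s)
    (hmax : IsLocalMax (fun r => A g r x) r) (hV : A g r x = V) :
    |∫ θ in (-π)..π, (g (pt x s θ) - V)| ≤ |mass g x s - mass g x r| := by
  have h := circle_diff hg x V hs hr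
  rw [opt_circle hg (by linarith) hmax hV, sub_zero] at h
  exact h

/-- integral over the ball of radius `ρ₀` -/
theorem ball_small (hg : ContDiff ℝ 1 g) {x : ℂ} {r V s : ℝ} (hr : 1 ≤ r) (hs : 1 ≤ s)
    (hr8 : r ≤ 8) (hs8 : s ≤ 8)
    (hmax : IsLocalMax (fun r => A g r x) r) (hV : A g r x = V) :
    |∫ z in Metric.ball x s, (g z - V)| ≤ 8 * |s - r| * |mass g x s - mass g x r| := by
  have hgc := hg.continuous
  have hpi := Real.pi_pos
  have hh : Continuous fun z => g z - V := by fun_prop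
  have h0 : ∫ z in Metric.ball x r, (g z - V) = 0 := by
    rw [A_eq (by linarith)] at hV
    have h2 : ∫ z in Metric.ball x r, g z = V * (π * r ^ 2) := by
      rw [← hV]; field_simp
    rw [MeasureTheory.integral_sub (integrableOn_ball' hgc _ _)
      (integrableOn_ball' continuous_const _ _), h2]
    rw [MeasureTheory.setIntegral_const, smul_eq_mul, MeasureTheory.measureReal_def,
      Complex.volume_ball]
    simp only [ENNReal.toReal_mul, ENNReal.toReal_pow, ENNReal.coe_toReal, NNReal.coe_real_pi]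
    rw [ENNReal.toReal_ofReal (by linarith)]
    ring
  have h1 := int_ball_sub hh x (ρ₁ := r) (ρ₂ := s) (by linarith) (by linarith)
  rw [h0, sub_zero, polar_swap hh] at h1
  rw [h1]
  have h3 : ‖∫ u in r..s, u * ∫ θ in (-π)..π, (g (pt x u θ) - V)‖ ≤
      (8 * |mass g x s - mass g x r|) * |s - r| := by
    apply intervalIntegral.norm_integral_le_of_norm_le_const
    intro u hu
    have hu1 : u ∈ uIcc r s := uIoc_subset_uIcc hu
    have hu2 : 1 ≤ u := by
      rcases le_total r s with h | h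
      · rw [uIcc_of_le h] at hu1; linarith [hu1.1]
      · rw [uIcc_of_ge h] at hu1; linarith [hu1.1]
    have hu3 : u ≤ 8 := by
      rcases le_total r s with h | h
      · rw [uIcc_of_le h] at hu1; linarith [hu1.2]
      · rw [uIcc_of_ge h] at hu1; linarith [hu1.2]
    have h4 := circle_small hg hr hu2 hmax hV
    have h5 : |mass g x u - mass g x r| ≤ |mass g x s - mass g x r| := by
      rcases le_total r s with h | h
      · rw [uIcc_of_le h] at hu1
        have a1 := mass_mono hg x hu1.1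
        have a2 := mass_mono hg x hu1.2
        rw [abs_of_nonneg (by linarith), abs_of_nonneg (by linarith)]
        linarith
      · rw [uIcc_of_ge h] at hu1
        have a1 := mass_mono hg x hu1.1
        have a2 := mass_mono hg x hu1.2
        rw [abs_of_nonpos (by linarith), abs_of_nonpos (by linarith)]
        linarith
    rw [norm_mul, Real.norm_eq_abs, Real.norm_eq_abs, abs_of_nonneg (by linarith : (0:ℝ) ≤ u)]
    exact mul_le_mul hu3 (h4.trans h5) (abs_nonneg _) (by norm_num)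
  rw [Real.norm_eq_abs] at h3
  linarith

/-- a ball on which the average is at most `V - Δ` -/
theorem ball_neg (hg : ContDiff ℝ 1 g) {y : ℂ} {ρ V Δ : ℝ} (hρ : 1 ≤ ρ) (hΔ : 0 ≤ Δ)
    (h : A g ρ y ≤ V - Δ) : ∫ z in Metric.ball y ρ, (g z - V) ≤ -π * Δ := by
  have hgc := hg.continuous
  have hpi := Real.pi_pos
  rw [A_eq (by linarith)] at h
  have hp : 0 < π * ρ ^ 2 := by positivity
  have h2 : ∫ z in Metric.ball y ρ, g z ≤ (V - Δ) * (π * ρ ^ 2) := by
    have := mul_le_mul_of_nonneg_right h hp.le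
    have e : 1 / (π * ρ ^ 2) * (∫ z in Metric.ball y ρ, g z) * (π * ρ ^ 2)
      = ∫ z in Metric.ball y ρ, g z := by field_simp
    rwa [e] at this
  rw [MeasureTheory.integral_sub (integrableOn_ball' hgc _ _)
      (integrableOn_ball' continuous_const _ _)]
  rw [MeasureTheory.setIntegral_const, smul_eq_mul, MeasureTheory.measureReal_def,
      Complex.volume_ball]
  simp only [ENNReal.toReal_mul, ENNReal.toReal_pow, ENNReal.coe_toReal, NNReal.coe_real_pi]
  rw [ENNReal.toReal_ofReal (by linarith)]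
  have h3 : 1 ≤ ρ ^ 2 := by nlinarith
  have h4 : 0 ≤ π * Δ * (ρ ^ 2 - 1) := by
    apply mul_nonneg (by positivity) (by linarith)
  nlinarith

theorem K_arith {a b d Δ m η D : ℝ} (hd : 0 < d) (hd' : d ≤ 1/64)
    (ha : 0 < a) (ha3 : a ≤ 3*d) (hb : 0 < b) (hb3 : b ≤ 3*d) (hΔ : 0 ≤ Δ)
    (hη0 : 0 ≤ η) (hη : η ≤ (1/200) * (Δ/d)) (hm0 : 0 ≤ m) (hD0 : 0 ≤ D)
    (hmain : π * (a + b) * Δ ≤ (a + b) * (24 * d * η) + (2 * (a * b * (a + b)) * η
      + 34 * (a * b * (a + b)) * m) + 17 * (a * b) * η + 2 * (a * b) * D) :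
    Δ/d ≤ 150*d*m + 2*D := by
  have hab : a * b ≤ 3/2 * d * (a + b) := by
    have e1 : (a + b) * (a + b) ≤ (6 * d) * (a + b) :=
      mul_le_mul_of_nonneg_right (by linarith) (by linarith)
    have e2 := sq_nonneg (a - b)
    have e3 : (a - b)^2 = (a + b) * (a + b) - 4 * (a * b) := by ring
    linarith
  have hab2 : a * b ≤ 9 * d ^ 2 := by
    have e1 : a * b ≤ (3 * d) * (3 * d) := mul_le_mul ha3 hb3 hb.le (by linarith)
    linarith
  have hs : 0 < a + b := by positivity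
  have h1 : (a + b) * (π * Δ) ≤ (a + b) * (24 * d * η + (2 * (9 * d ^ 2) * η + 34 * (9 * d ^ 2) * m)
      + 17 * (3/2 * d) * η + 2 * (3/2 * d) * D) := by
    have e1 : (a * b) * ((a + b) * η) ≤ (9 * d ^ 2) * ((a + b) * η) :=
      mul_le_mul_of_nonneg_right hab2 (by positivity)
    have e2 : (a * b) * ((a + b) * m) ≤ (9 * d ^ 2) * ((a + b) * m) :=
      mul_le_mul_of_nonneg_right hab2 (by positivity)
    have e3 : (a * b) * η ≤ (3/2 * d * (a + b)) * η := mul_le_mul_of_nonneg_right hab hη0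
    have e4 : (a * b) * D ≤ (3/2 * d * (a + b)) * D :=
      mul_le_mul_of_nonneg_right hab hD0
    linarith
  have h2 := le_of_mul_le_mul_left h1 hs
  have h3 : d * η ≤ Δ / 200 := by
    have := mul_le_mul_of_nonneg_left hη hd.le
    have e : d * (1 / 200 * (Δ / d)) = Δ / 200 := by field_simp
    linarith
  have h4 : d * (d * η) ≤ (1/64) * (Δ / 200) :=
    mul_le_mul hd' h3 (by positivity) (by norm_num)
  have hpi3 := Real.pi_gt_three
  have h5 : 3 * Δ ≤ π * Δ := mul_le_mul_of_nonneg_right hpi3.le hΔ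
  have h6 : Δ ≤ d * (150 * d * m + 2 * D) := by
    have e1 : 0 ≤ d ^ 2 * m := by positivity
    have e2 : 0 ≤ d * D := by positivity
    linarith
  rw [div_le_iff₀ hd]
  linarith

theorem K_arith2 {a b ρq ρp ρ₀ : ℝ} (ha : 0 < a) (hb : 0 < b) (ha1 : a ≤ 1) (hb1 : b ≤ 1)
    (hqb : |ρq - ρ₀| ≤ b) (hpa : |ρp - ρ₀| ≤ a) (hρ1 : 1 ≤ ρ₀) (hρ8 : ρ₀ ≤ 8)
    (hρq1 : 0 ≤ ρq) (hρq : ρq ≤ 8) (hρp1 : 0 ≤ ρp) (hρp : ρp ≤ 8) :
    |(a * (ρq ^ 2 - b ^ 2 - ρ₀ ^ 2) + b * (ρp ^ 2 - a ^ 2 - ρ₀ ^ 2)) / 2| ≤ 17 * (a * b) := by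
  have e1 : |ρq ^ 2 - b ^ 2 - ρ₀ ^ 2| ≤ 17 * b := by
    have h1 : |ρq ^ 2 - ρ₀ ^ 2| ≤ b * 16 := by
      have : ρq ^ 2 - ρ₀ ^ 2 = (ρq - ρ₀) * (ρq + ρ₀) := by ring
      rw [this, abs_mul]
      apply mul_le_mul hqb _ (abs_nonneg _) hb.le
      rw [abs_of_nonneg (by linarith)]; linarith
    have h2 : b ^ 2 ≤ b := by
      have := mul_le_mul_of_nonneg_left hb1 hb.le
      linarith
    have h3 := abs_le.1 h1
    have h4 : 0 ≤ b ^ 2 := sq_nonneg b
    rw [abs_le]
    constructor <;> linarith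
  have e2 : |ρp ^ 2 - a ^ 2 - ρ₀ ^ 2| ≤ 17 * a := by
    have h1 : |ρp ^ 2 - ρ₀ ^ 2| ≤ a * 16 := by
      have : ρp ^ 2 - ρ₀ ^ 2 = (ρp - ρ₀) * (ρp + ρ₀) := by ring
      rw [this, abs_mul]
      apply mul_le_mul hpa _ (abs_nonneg _) ha.le
      rw [abs_of_nonneg (by linarith)]; linarith
    have h2 : a ^ 2 ≤ a := by
      have := mul_le_mul_of_nonneg_left ha1 ha.le
      linarith
    have h3 := abs_le.1 h1
    have h4 : 0 ≤ a ^ 2 := sq_nonneg a
    rw [abs_le]
    constructor <;> linarith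
  have e3 : |(a * (ρq ^ 2 - b ^ 2 - ρ₀ ^ 2) + b * (ρp ^ 2 - a ^ 2 - ρ₀ ^ 2))|
      ≤ a * (17 * b) + b * (17 * a) := by
    refine (abs_add_le _ _).trans ?_
    rw [abs_mul, abs_mul, abs_of_pos ha, abs_of_pos hb]
    gcongr
  rw [abs_div, abs_two]
  linarith

set_option maxHeartbeats 400000 in
/-- the K lemma -/
theorem K_core (hg : ContDiff ℝ 1 g) {x : ℂ} {τ r d a b V Δ m ρ₀ : ℝ} (hτ : 1 ≤ τ) (hτ2 : τ ≤ 2)
    (hd : 0 < d) (hd' : d ≤ 1/64)
    (ha : 0 < a) (ha3 : a ≤ 3*d) (hb : 0 < b) (hb3 : b ≤ 3*d)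
    (hr1 : τ + 6*d ≤ r) (hr2 : r ≤ 4*τ - 6*d)
    (hmax : IsLocalMax (fun r => A g r x) r) (hV : A g r x = V) (hΔ : 0 ≤ Δ)
    (hq : ∀ ρ ∈ Icc τ (4*τ), A g ρ (x + b) ≤ V - Δ) (hp : ∀ ρ ∈ Icc τ (4*τ), A g ρ (x - a) ≤ V - Δ)
    (hρ₀ : |ρ₀ - r| ≤ 3*d) (hm : mass g x ρ₀ = m) (hm' : |m - mass g x r| ≤ (1/200) * (Δ/d)) :
    ∃ ρp ρq, ρp ∈ Icc (1:ℝ) 8 ∧ ρq ∈ Icc (1:ℝ) 8 ∧ mass g (x - a) ρp = m ∧ mass g (x + b) ρq = m ∧
      Δ/d ≤ 150*d*m + 2*(beta g (x + b) ρq - beta g (x - a) ρp) := by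
  have hpi := Real.pi_pos
  have hgc := hg.continuous
  have hρ₀' := abs_le.1 hρ₀
  have hρ1 : 1 ≤ ρ₀ := by linarith [hρ₀'.1]
  have hρ8 : ρ₀ ≤ 8 := by linarith [hρ₀'.2]
  -- the two radii
  have hdistb : dist x (x + b) = b := by
    rw [dist_eq_norm]; simp [abs_of_pos hb]
  have hdistb' : dist (x + b) x = b := by
    rw [dist_eq_norm]; simp [abs_of_pos hb]
  have hdista : dist x (x - a) = a := by
    rw [dist_eq_norm]; simp [abs_of_pos ha]
  have hdista' : dist (x - a) x = a := by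
    rw [dist_eq_norm]; simp [abs_of_pos ha]
  obtain ⟨ρq, hρq, hmq⟩ := exists_radius hg (x + b) (ρ₁ := ρ₀ - b) (ρ₂ := ρ₀ + b) (m := m)
    (by linarith) (by linarith)
    (by rw [← hm]; exact mass_subset hg (by rw [hdistb']; linarith))
    (by rw [← hm]; exact mass_subset hg (by rw [hdistb]))
  obtain ⟨ρp, hρp, hmp⟩ := exists_radius hg (x - a) (ρ₁ := ρ₀ - a) (ρ₂ := ρ₀ + a) (m := m)
    (by linarith) (by linarith)
    (by rw [← hm]; exact mass_subset hg (by rw [hdista']; linarith))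
    (by rw [← hm]; exact mass_subset hg (by rw [hdista]))
  have hqb : |ρq - ρ₀| ≤ b := abs_le.2 ⟨by linarith [hρq.1], by linarith [hρq.2]⟩
  have hpa : |ρp - ρ₀| ≤ a := abs_le.2 ⟨by linarith [hρp.1], by linarith [hρp.2]⟩
  have hq1 : τ ≤ ρq := by linarith [hρq.1, hρ₀'.1]
  have hq2 : ρq ≤ 4*τ := by linarith [hρq.2, hρ₀'.2]
  have hp1 : τ ≤ ρp := by linarith [hρp.1, hρ₀'.1]
  have hp2 : ρp ≤ 4*τ := by linarith [hρp.2, hρ₀'.2]
  refine ⟨ρp, ρq, ⟨by linarith, by linarith⟩, ⟨by linarith, by linarith⟩, hmp, hmq, ?_⟩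
  -- shift comparison
  have habsb : |b| = b := abs_of_pos hb
  have habsa : |-a| = a := by rw [abs_neg, abs_of_pos ha]
  have hcast : x + ((-a : ℝ) : ℂ) = x - a := by push_cast; ring
  obtain ⟨Eq, hEq, hJq⟩ := shift_compare hg (x := x) (b := b) (ρ := ρq) (ρ₀ := ρ₀) (V := V)
    (by rw [habsb]; linarith) hρ1 (by rw [habsb]; exact hqb) (by rw [hmq, hm])
  obtain ⟨Ep, hEp, hJp⟩ := shift_compare hg (x := x) (b := -a) (ρ := ρp) (ρ₀ := ρ₀) (V := V)
    (by rw [habsa]; linarith) hρ1 (by rw [habsa]; exact hpa) (by rw [hcast, hmp, hm])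
  rw [hcast] at hEp hJp
  set βq := beta g (x + b) ρq with hβq
  set βp := beta g (x - a) ρp with hβp
  set β0 := beta g x ρ₀ with hβ0
  set Jq := ∫ z in Metric.ball (x + (b:ℂ)) ρq, (g z - V) with hJq'
  set Jp := ∫ z in Metric.ball (x - (a:ℂ)) ρp, (g z - V) with hJp'
  set J0 := ∫ z in Metric.ball x ρ₀, (g z - V) with hJ0'
  set G : ℝ → ℝ := fun θ => g (pt x ρ₀ θ) - V with hG
  have hGc : Continuous G := by rw [hG]; fun_prop
  set M := ∫ θ in (-π)..π, G θ with hM
  set η := |m - mass g x r| with hη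
  have hη0 : 0 ≤ η := abs_nonneg _
  have hMle : |M| ≤ η := by
    rw [hM, hη, ← hm]
    exact circle_small hg (by linarith) hρ1 hmax hV
  have hJ0le : |J0| ≤ 24 * d * η := by
    have := ball_small hg (s := ρ₀) (by linarith) hρ1 (by linarith) hρ8 hmax hV
    rw [hm] at this
    refine this.trans ?_
    rw [← hη]
    have := mul_le_mul_of_nonneg_right hρ₀ hη0
    linarith
  have hJqle : Jq ≤ -π * Δ := ball_neg hg (by linarith) hΔ (hq ρq ⟨hq1, hq2⟩)
  have hJple : Jp ≤ -π * Δ := ball_neg hg (by linarith) hΔ (hp ρp ⟨hp1, hp2⟩)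
  have hbq : |b| < ρq := by rw [habsb]; linarith
  have hap : |-a| < ρp := by rw [habsa]; linarith
  -- weights
  set Sq := Sx b ρq with hSq
  set Sp := Sx (-a) ρp with hSp
  have hSqc : Continuous Sq := continuous_Sx b ρq
  have hSpc : Continuous Sp := continuous_Sx (-a) ρp
  set K₀ := a * (ρq ^ 2 - b ^ 2 - ρ₀ ^ 2) + b * (ρp ^ 2 - a ^ 2 - ρ₀ ^ 2) with hK₀
  have hw : ∀ θ, a * ((Sq θ ^ 2 - ρ₀ ^ 2) / 2) + b * ((Sp θ ^ 2 - ρ₀ ^ 2) / 2)
      = a * b * cos θ * (Sq θ - Sp θ) + K₀ / 2 := by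
    intro θ
    have e1 := Sx_sq hbq θ
    have e2 := Sx_sq hap θ
    rw [← hSq] at e1
    rw [← hSp] at e2
    rw [hK₀]
    linear_combination (a / 2) * e1 + (b / 2) * e2
  have hK₀le : |K₀ / 2| ≤ 17 * (a * b) :=
    K_arith2 ha hb (by linarith) (by linarith) hqb hpa hρ1 hρ8 (by linarith) (by linarith)
      (by linarith) (by linarith)
  have hκ : ∀ θ, |a * b * cos θ * (Sq θ - Sp θ)| ≤ 2 * (a * b * (a + b)) := by
    intro θ
    have e1 := abs_le.1 (Sx_dist hbq θ)
    have e2 := abs_le.1 (Sx_dist hap θ)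
    rw [← hSq, habsb] at e1
    rw [← hSp, habsa] at e2
    have q1 := abs_le.1 hqb
    have p1 := abs_le.1 hpa
    have e3 : |Sq θ - Sp θ| ≤ 2 * (a + b) := by
      rw [abs_le]
      constructor <;> linarith
    rw [abs_mul, abs_mul, abs_of_pos (mul_pos ha hb)]
    have e4 := abs_cos_le_one θ
    calc a * b * |cos θ| * |Sq θ - Sp θ| ≤ a * b * 1 * (2 * (a + b)) := by
          gcongr
      _ = _ := by ring
  have htr := trace_weight hg x (ρ := ρ₀) (by linarith) (κ := fun θ => a * b * cos θ * (Sq θ - Sp θ))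
    (by fun_prop) hκ V
  have hcomb : a * Jq + b * Jp = (a + b) * J0 + (∫ θ in (-π)..π, G θ * (a * b * cos θ * (Sq θ - Sp θ)))
      + (K₀ / 2) * M + (a * Eq + b * Ep) := by
    have e1 : a * (∫ θ in (-π)..π, G θ * ((Sq θ ^ 2 - ρ₀ ^ 2) / 2)) +
        b * (∫ θ in (-π)..π, G θ * ((Sp θ ^ 2 - ρ₀ ^ 2) / 2)) =
        (∫ θ in (-π)..π, G θ * (a * b * cos θ * (Sq θ - Sp θ))) + (K₀ / 2) * M := by
      rw [hM, ← intervalIntegral.integral_const_mul, ← intervalIntegral.integral_const_mul,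
        ← intervalIntegral.integral_const_mul, ← intervalIntegral.integral_add
          (Continuous.intervalIntegrable (by fun_prop) _ _)
          (Continuous.intervalIntegrable (by fun_prop) _ _), ← intervalIntegral.integral_add
          (Continuous.intervalIntegrable (by fun_prop) _ _)
          (Continuous.intervalIntegrable (by fun_prop) _ _)]
      apply intervalIntegral.integral_congr
      intro θ _
      simp only
      linear_combination (G θ) * (hw θ)
    linear_combination a * hJq + b * hJp + e1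
  -- collect
  have hD0 : 0 ≤ βq - βp := by
    have h1 : 0 ≤ 2 * b * (βq - β0) := (abs_nonneg _).trans hEq
    have h2 : 0 ≤ 2 * -a * (βp - β0) := (abs_nonneg _).trans hEp
    have h3 : 0 ≤ βq - β0 := nonneg_of_mul_nonneg_right h1 (by positivity)
    have h4 : 0 ≤ β0 - βp := by
      have : 0 ≤ 2 * a * (β0 - βp) := by linarith
      exact nonneg_of_mul_nonneg_right this (by positivity)
    linarith
  have hE : |a * Eq + b * Ep| ≤ 2 * (a * b) * (βq - βp) := by
    refine (abs_add_le _ _).trans ?_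
    rw [abs_mul, abs_mul, abs_of_pos ha, abs_of_pos hb]
    have h1 := mul_le_mul_of_nonneg_left hEq ha.le
    have h2 := mul_le_mul_of_nonneg_left hEp hb.le
    linarith
  have hm0 : 0 ≤ m := by rw [← hm]; exact mass_nonneg _ _
  have htr' : |∫ θ in (-π)..π, G θ * (a * b * cos θ * (Sq θ - Sp θ))| ≤
      2 * (a * b * (a + b)) * η + 34 * (a * b * (a + b)) * m := by
    refine htr.trans ?_
    rw [hm]
    have h1 : 2 * (a * b * (a + b)) * |∫ θ in (-π)..π, (g (pt x ρ₀ θ) - V)| ≤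
      2 * (a * b * (a + b)) * η := mul_le_mul_of_nonneg_left hMle (by positivity)
    have h2 : 17 * (2 * (a * b * (a + b))) / ρ₀ * m ≤ 34 * (a * b * (a + b)) * m := by
      apply mul_le_mul_of_nonneg_right _ hm0
      rw [div_le_iff₀ (by linarith)]
      have e0 : 0 ≤ 34 * (a * b * (a + b)) := by positivity
      have e1 := mul_le_mul_of_nonneg_left hρ1 e0
      linarith
    linarith
  have hKM : |(K₀ / 2) * M| ≤ 17 * (a * b) * η := by
    rw [abs_mul]
    exact mul_le_mul hK₀le hMle (abs_nonneg _) (by positivity)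
  have hmain : π * (a + b) * Δ ≤ (a + b) * (24 * d * η) + (2 * (a * b * (a + b)) * η
      + 34 * (a * b * (a + b)) * m) + 17 * (a * b) * η + 2 * (a * b) * (βq - βp) := by
    have h1 := mul_le_mul_of_nonneg_left hJqle ha.le
    have h2 := mul_le_mul_of_nonneg_left hJple hb.le
    have h3 := mul_le_mul_of_nonneg_left hJ0le (by positivity : 0 ≤ a + b)
    have h4 := mul_le_mul_of_nonneg_left (neg_abs_le J0) (by positivity : 0 ≤ a + b)
    have h5 := neg_abs_le (∫ θ in (-π)..π, G θ * (a * b * cos θ * (Sq θ - Sp θ)))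
    have h6 := neg_abs_le ((K₀ / 2) * M)
    have h7 := neg_abs_le (a * Eq + b * Ep)
    linarith
  exact K_arith hd hd' ha ha3 hb hb3 hΔ hη0 hm' hm0 hD0 hmain

end Crest.Agent.R112
end

-- ▼ part R112/KMain

/-!
# Row 112 (S0147): the K lemma for peaks; Proposition K_b
-/

set_option autoImplicit false

namespace Crest.Agent.R112

open MeasureTheory Metric Set Filter Topology

theorem kMainStmt : KMainStmt 150 2 := by
  intro g τ d x Δ a b r m ρ₀ h h1 h2 h3 h4 h5
  have hd := h.hd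
  have hmax : IsLocalMax (fun t => A g t x) r := by
    have h3 : ∀ᶠ t in 𝓝 r, t ∈ Ioo τ (4 * τ) := Ioo_mem_nhds (by linarith) (by linarith)
    filter_upwards [h3] with t ht
    rw [h.hr]
    exact A_le_U' h.hg (by linarith [h.hτ]) ht.1.le ht.2.le x
  exact K_core h.hg.1 h.hτ h.hτ' h.hd h.hd' h.a_pos h.ha2 h.b_pos h.hb2 h1 h2 hmax rfl h.hΔ.le
    (fun ρ hρ => h.Aq hρ.1 hρ.2) (fun ρ hρ => h.Ap hρ.1 hρ.2) h3 h4 h5


end Crest.Agent.R112
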