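import Mathlib
import Crest.Prelude.Def_MaximalSobolev
import Crest.Agent.R112.Defs
import Crest.Agent.R112.Basic
import Crest.Agent.R112.PlaneO1

-- ▼ part R112/Density
section

/-!
# R112: density of `C¹` compactly supported functions in `W^{1,1}(ℝ²)`
-/

set_option autoImplicit false

namespace Crest.Agent.R112

open MeasureTheory Set Metric Filter Topology
open scoped ENNReal NNReal ContDiff Convolution RealInnerProductSpace

section L1

variable {G : Type*} [NormedAddCommGroup G] [InnerProductSpace ℝ G] [FiniteDimensional ℝ G]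
  [MeasurableSpace G] [BorelSpace G]
variable {F : Type*} [NormedAddCommGroup F] [NormedSpace ℝ F] [CompleteSpace F]

omit [CompleteSpace F] in
open ContinuousLinearMap in
/-- the mollification does not increase the `L¹` norm -/
theorem Density.integral_norm_conv_le {ρ : G → ℝ} (hρ0 : ∀ x, 0 ≤ ρ x) (hρ : Integrable ρ)
    (hρ1 : ∫ x, ρ x = 1) {h : G → F} (hh : Integrable h) :
    ∫ x, ‖(ρ ⋆[lsmul ℝ ℝ, volume] h) x‖ ≤ ∫ x, ‖h x‖ := by
  have h1 : ∫ x, (ρ ⋆[lsmul ℝ ℝ, volume] (fun x => ‖h x‖)) x = ∫ x, ‖h x‖ := by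
    rw [integral_convolution (lsmul ℝ ℝ) hρ hh.norm, hρ1]
    simp
  rw [← h1]
  refine integral_mono_of_nonneg (Eventually.of_forall fun x => norm_nonneg _)
    (hρ.integrable_convolution _ hh.norm) (Eventually.of_forall fun x => ?_)
  simp only [convolution_def, lsmul_apply]
  refine (norm_integral_le_integral_norm _).trans (le_of_eq ?_)
  refine integral_congr_ae (Eventually.of_forall fun t => ?_)
  simp only [norm_smul, Real.norm_eq_abs, abs_of_nonneg (hρ0 t), smul_eq_mul]

open ContinuousLinearMap in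
/-- mollifications converge in `L¹` -/
theorem Density.exists_radius {h : G → F} (hh : Integrable h) {ε : ℝ} (hε : 0 < ε) :
    ∃ δ > 0, ∀ φ : ContDiffBump (0 : G), φ.rOut ≤ δ →
      ∫ x, ‖(φ.normed volume ⋆[lsmul ℝ ℝ, volume] h) x - h x‖ ≤ ε := by
  obtain ⟨k, hkc, hk1, hkcont, hkint⟩ :=
    hh.exists_hasCompactSupport_integral_sub_le (ε := ε / 3) (by positivity)
  obtain ⟨R, hR⟩ := hkc.isCompact.isBounded.subset_closedBall (0 : G)
  set V : ℝ := (volume (closedBall (0 : G) (R + 1))).toReal with hV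
  have hV0 : 0 ≤ V := ENNReal.toReal_nonneg
  have huc : UniformContinuous k := hkcont.uniformContinuous_of_tendsto_cocompact (x := 0) (by
    exact hkc.is_zero_at_infty)
  obtain ⟨δ, hδ, hδk⟩ := Metric.uniformContinuous_iff.1 huc (ε / (3 * (V + 1))) (by positivity)
  refine ⟨min (δ / 2) 1, by positivity, fun φ hφ => ?_⟩
  have hφ1 : φ.rOut ≤ 1 := hφ.trans (min_le_right _ _)
  have hφδ : φ.rOut ≤ δ / 2 := hφ.trans (min_le_left _ _)
  set ρ : G → ℝ := φ.normed volume with hρdef
  have hρ0 : ∀ x, 0 ≤ ρ x := φ.nonneg_normed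
  have hρi : Integrable ρ := φ.integrable_normed
  have hρ1 : ∫ x, ρ x = 1 := φ.integral_normed
  have hρc : HasCompactSupport ρ := φ.hasCompactSupport_normed
  have hρcont : Continuous ρ := φ.continuous_normed
  have hdec : ∀ x, (ρ ⋆[lsmul ℝ ℝ, volume] h) x - h x =
      (ρ ⋆[lsmul ℝ ℝ, volume] (fun x => h x - k x)) x + ((ρ ⋆[lsmul ℝ ℝ, volume] k) x - k x)
        + (k x - h x) := by
    intro x
    have e1 : ConvolutionExistsAt ρ (fun x => h x - k x) x (lsmul ℝ ℝ) volume :=
      (hρc.convolutionExists_left (lsmul ℝ ℝ) hρcont (hh.sub hkint).locallyIntegrable) x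
    have e2 : ConvolutionExistsAt ρ k x (lsmul ℝ ℝ) volume :=
      (hρc.convolutionExists_left (lsmul ℝ ℝ) hρcont hkint.locallyIntegrable) x
    have := e1.distrib_add e2
    have h3 : ((fun x => h x - k x) + k) = h := by ext y; simp
    rw [h3] at this
    rw [this]; abel
  have hi1 : Integrable (ρ ⋆[lsmul ℝ ℝ, volume] (fun x => h x - k x)) :=
    hρi.integrable_convolution _ (hh.sub hkint)
  have hi2 : Integrable (ρ ⋆[lsmul ℝ ℝ, volume] k) := hρi.integrable_convolution _ hkint
  have hmid : ∫ x, ‖(ρ ⋆[lsmul ℝ ℝ, volume] k) x - k x‖ ≤ ε / 3 := by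
    have hpt : ∀ x, ‖(ρ ⋆[lsmul ℝ ℝ, volume] k) x - k x‖ ≤
        (closedBall (0 : G) (R + 1)).indicator (fun _ => ε / (3 * (V + 1))) x := by
      intro x
      by_cases hx : x ∈ closedBall (0 : G) (R + 1)
      · rw [indicator_of_mem hx, ← dist_eq_norm]
        refine φ.dist_normed_convolution_le hkcont.aestronglyMeasurable fun y hy => ?_
        refine (hδk ?_).le
        have := mem_ball.1 hy
        linarith
      · rw [indicator_of_notMem hx]
        have hx' : R + 1 < ‖x‖ := by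
          simpa [mem_closedBall, dist_zero_right] using hx
        have hk0 : ∀ y ∈ ball x φ.rOut, k y = k x := by
          have hz : ∀ y, R < ‖y‖ → k y = 0 := fun y hy => by
            by_contra hne
            have := hR (subset_tsupport _ (Function.mem_support.2 hne))
            rw [mem_closedBall, dist_zero_right] at this
            linarith
          intro y hy
          have hy' : ‖x‖ ≤ ‖y‖ + 1 := by
            have h1 := mem_ball.1 hy
            rw [dist_comm, dist_eq_norm] at h1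
            have h2 : ‖x‖ ≤ ‖x - y‖ + ‖y‖ := by
              simpa using norm_add_le (x - y) y
            linarith
          rw [hz y (by linarith), hz x (by linarith)]
        rw [hρdef, φ.normed_convolution_eq_right hk0, sub_self, norm_zero]
    calc ∫ x, ‖(ρ ⋆[lsmul ℝ ℝ, volume] k) x - k x‖
        ≤ ∫ x, (closedBall (0 : G) (R + 1)).indicator (fun _ => ε / (3 * (V + 1))) x := by
          refine integral_mono_of_nonneg (Eventually.of_forall fun x => norm_nonneg _) ?_
            (Eventually.of_forall hpt)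
          exact (integrable_indicator_iff measurableSet_closedBall).2
            (integrableOn_const (isCompact_closedBall _ _).measure_lt_top.ne)
      _ = V * (ε / (3 * (V + 1))) := by
          rw [integral_indicator measurableSet_closedBall, setIntegral_const]
          simp [hV, Measure.real]
      _ ≤ ε / 3 := by
          rw [mul_div_assoc', div_le_div_iff₀ (by positivity) (by norm_num)]
          nlinarith
  have hfirst : ∫ x, ‖(ρ ⋆[lsmul ℝ ℝ, volume] (fun x => h x - k x)) x‖ ≤ ε / 3 :=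
    (Density.integral_norm_conv_le hρ0 hρi hρ1 (hh.sub hkint)).trans hk1
  have hlast : ∫ x, ‖k x - h x‖ ≤ ε / 3 := by
    simpa only [norm_sub_rev] using hk1
  calc ∫ x, ‖(ρ ⋆[lsmul ℝ ℝ, volume] h) x - h x‖
      ≤ ∫ x, (‖(ρ ⋆[lsmul ℝ ℝ, volume] (fun x => h x - k x)) x‖
          + ‖(ρ ⋆[lsmul ℝ ℝ, volume] k) x - k x‖ + ‖k x - h x‖) := by
        refine integral_mono_of_nonneg (Eventually.of_forall fun x => norm_nonneg _) ?_
          (Eventually.of_forall fun x => ?_)
        · exact (hi1.norm.add (hi2.sub hkint).norm).add (hkint.sub hh).norm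
        · simp only [hdec x]
          exact norm_add₃_le
    _ = (∫ x, ‖(ρ ⋆[lsmul ℝ ℝ, volume] (fun x => h x - k x)) x‖)
          + (∫ x, ‖(ρ ⋆[lsmul ℝ ℝ, volume] k) x - k x‖) + ∫ x, ‖k x - h x‖ := by
        rw [integral_add, integral_add]
        · exact hi1.norm
        · exact (hi2.sub hkint).norm
        · exact hi1.norm.add (hi2.sub hkint).norm
        · exact (hkint.sub hh).norm
    _ ≤ ε := by linarith

open ContinuousLinearMap in
theorem Density.aux1 {f : G → ℝ} {g : G → G}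
    (hfg : ∀ φ : G → ℝ, ContDiff ℝ ∞ φ → HasCompactSupport φ →
      ∀ v : G, ∫ x, f x * fderiv ℝ φ x v = -∫ x, ⟪g x, v⟫ * φ x)
    {ρ : G → ℝ} (hρc : HasCompactSupport ρ) (hρs : ContDiff ℝ ∞ ρ) (x v : G) :
    ∫ y, f y * fderiv ℝ ρ (x - y) v = ∫ y, ⟪g y, v⟫ * ρ (x - y) := by
  have hψ : ContDiff ℝ ∞ (fun y => ρ (x - y)) := hρs.comp (contDiff_const.sub contDiff_id)
  have hψc : HasCompactSupport (fun y => ρ (x - y)) :=
    hρc.comp_homeomorph (Homeomorph.subLeft x)
  have hψd : ∀ y, fderiv ℝ (fun y => ρ (x - y)) y v = - fderiv ℝ ρ (x - y) v := by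
    intro y
    have h1 : HasFDerivAt (fun y : G => x - y) (-(ContinuousLinearMap.id ℝ G)) y := by
      simpa using (hasFDerivAt_id y).const_sub x
    have h2 := ((hρs.differentiable (by simp) (x - y)).hasFDerivAt).comp y h1
    have h3 : fderiv ℝ (fun y => ρ (x - y)) y =
      (fderiv ℝ ρ (x - y)).comp (-(ContinuousLinearMap.id ℝ G)) := h2.fderiv
    rw [h3]; simp
  have key := hfg (fun y => ρ (x - y)) hψ hψc v
  simp only [hψd] at key
  have e3 : ∫ y, f y * -(fderiv ℝ ρ (x - y) v) = - ∫ y, f y * fderiv ℝ ρ (x - y) v := by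
    rw [← integral_neg]
    simp
  rw [e3] at key
  linarith

open ContinuousLinearMap in
/-- the gradient of the mollification is the mollification of the weak gradient -/
theorem Density.hasFDerivAt_conv {f : G → ℝ} {g : G → G}
    (hf : LocallyIntegrable f) (hg : LocallyIntegrable g)
    (hfg : ∀ φ : G → ℝ, ContDiff ℝ ∞ φ → HasCompactSupport φ →
      ∀ v : G, ∫ x, f x * fderiv ℝ φ x v = -∫ x, ⟪g x, v⟫ * φ x)
    {ρ : G → ℝ} (hρc : HasCompactSupport ρ) (hρs : ContDiff ℝ ∞ ρ) (x : G) :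
    HasFDerivAt (ρ ⋆[lsmul ℝ ℝ, volume] f) (innerSL ℝ ((ρ ⋆[lsmul ℝ ℝ, volume] g) x)) x := by
  have hρ1 : ContDiff ℝ 1 ρ := hρs.of_le (by simp)
  have h := hρc.hasFDerivAt_convolution_left (lsmul ℝ ℝ) hρ1 hf x
  refine h.congr_fderiv ?_
  ext v
  have hint := ((hρc.fderiv ℝ).convolutionExists_left
      (precompL G (lsmul ℝ ℝ : ℝ →L[ℝ] ℝ →L[ℝ] ℝ))
      (hρ1.continuous_fderiv one_ne_zero) hf) x
  have hint2 : Integrable (fun t => (lsmul ℝ ℝ) (ρ t) (g (x - t))) :=
    (hρc.convolutionExists_left (lsmul ℝ ℝ) hρ1.continuous hg) x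
  have e1 : ((fderiv ℝ ρ ⋆[precompL G (lsmul ℝ ℝ), volume] f) x) v =
      ∫ y, f y * fderiv ℝ ρ (x - y) v := by
    rw [convolution_def, integral_apply hint, ← integral_sub_left_eq_self _ volume x]
    refine integral_congr_ae (Eventually.of_forall fun t => ?_)
    simp [precompL_apply, mul_comm]
  have e2 : innerSL ℝ ((ρ ⋆[lsmul ℝ ℝ, volume] g) x) v = ∫ y, ⟪g y, v⟫ * ρ (x - y) := by
    rw [innerSL_apply_apply, convolution_def, real_inner_comm, ← integral_inner hint2,
      ← integral_sub_left_eq_self _ volume x]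
    refine integral_congr_ae (Eventually.of_forall fun t => ?_)
    simp [inner_smul_right, real_inner_comm, mul_comm]
  rw [e1, e2]
  exact Density.aux1 hfg hρc hρs x v

/-- density of `C^∞` functions with compact support in `W^{1,1}` -/
theorem Density.exists_smooth {f : G → ℝ} {g : G → G}
    (hf : Integrable f) (hg : Integrable g)
    (hfg : ∀ φ : G → ℝ, ContDiff ℝ ∞ φ → HasCompactSupport φ →
      ∀ v : G, ∫ x, f x * fderiv ℝ φ x v = -∫ x, ⟪g x, v⟫ * φ x) {ε : ℝ} (hε : 0 < ε) :
    ∃ φ : G → ℝ, ContDiff ℝ ∞ φ ∧ HasCompactSupport φ ∧ ∫ x, |φ x - f x| ≤ ε ∧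
      ∫ x, ‖fderiv ℝ φ x - innerSL ℝ (g x)‖ ≤ ε := by
  obtain ⟨δ₁, hδ₁, h₁⟩ := Density.exists_radius hf (ε := ε / 2) (by positivity)
  obtain ⟨δ₂, hδ₂, h₂⟩ := Density.exists_radius hg (ε := ε / 4) (by positivity)
  set δ := min δ₁ δ₂ with hδdef
  have hδ : 0 < δ := lt_min hδ₁ hδ₂
  let b : ContDiffBump (0 : G) := ⟨δ / 2, δ, by positivity, by linarith⟩
  have hb1 := h₁ b (min_le_left _ _)
  have hb2 := h₂ b (min_le_right _ _)
  set ρ : G → ℝ := b.normed volume with hρdef
  have hρi : Integrable ρ := b.integrable_normed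
  have hρc : HasCompactSupport ρ := b.hasCompactSupport_normed
  have hρs : ContDiff ℝ ∞ ρ := b.contDiff_normed
  set F : G → ℝ := (ρ ⋆[ContinuousLinearMap.lsmul ℝ ℝ, volume] f) with hF
  set Γ : G → G := (ρ ⋆[ContinuousLinearMap.lsmul ℝ ℝ, volume] g) with hΓ
  have hFi : Integrable F := hρi.integrable_convolution _ hf
  have hΓi : Integrable Γ := hρi.integrable_convolution _ hg
  have hFs : ContDiff ℝ ∞ F := hρc.contDiff_convolution_left _ hρs hf.locallyIntegrable
  have hFd : ∀ x, HasFDerivAt F (innerSL ℝ (Γ x)) x := fun x =>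
    Density.hasFDerivAt_conv hf.locallyIntegrable hg.locallyIntegrable hfg hρc hρs x
  -- the cut-off
  let c : ContDiffBump (0 : G) := ⟨1, 2, by norm_num, by norm_num⟩
  have hcs : ContDiff ℝ ∞ (c : G → ℝ) := c.contDiff
  have hcc : HasCompactSupport (c : G → ℝ) := c.hasCompactSupport
  obtain ⟨M, hM⟩ : ∃ M, ∀ x, ‖fderiv ℝ (c : G → ℝ) x‖ ≤ M :=
    (hcc.fderiv ℝ).exists_bound_of_continuous (hcs.continuous_fderiv (by simp))
  have hM0 : 0 ≤ M := (norm_nonneg _).trans (hM 0)
  let χ : ℕ → G → ℝ := fun n x => c (((n : ℝ) + 1)⁻¹ • x)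
  have hχs : ∀ n, ContDiff ℝ ∞ (χ n) := fun n => hcs.comp (contDiff_const_smul _)
  have hχc : ∀ n, HasCompactSupport (χ n) := fun n =>
    hcc.comp_smul (by positivity)
  have hχ0 : ∀ n x, 0 ≤ χ n x := fun n x => c.nonneg
  have hχ1 : ∀ n x, χ n x ≤ 1 := fun n x => c.le_one
  have hχd : ∀ n x, ‖fderiv ℝ (χ n) x‖ ≤ M * ((n : ℝ) + 1)⁻¹ := by
    intro n x
    have h1 : fderiv ℝ (χ n) x = ((n : ℝ) + 1)⁻¹ • fderiv ℝ (c : G → ℝ) (((n : ℝ) + 1)⁻¹ • x) := by
      have := ((hcs.differentiable (by simp) (((n : ℝ) + 1)⁻¹ • x)).hasFDerivAt).comp x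
        ((hasFDerivAt_id x).const_smul ((n : ℝ) + 1)⁻¹)
      have h2 := this.fderiv
      have h3 : fderiv ℝ (χ n) x = (fderiv ℝ (c : G → ℝ) (((n : ℝ) + 1)⁻¹ • x)).comp
        (((n : ℝ) + 1)⁻¹ • ContinuousLinearMap.id ℝ G) := h2
      rw [h3]; ext v; simp
    rw [h1, norm_smul, Real.norm_eq_abs, abs_of_nonneg (by positivity), mul_comm]
    exact mul_le_mul_of_nonneg_right (hM _) (by positivity)
  have hχlim : ∀ x, ∀ᶠ n : ℕ in atTop, χ n x = 1 := by
    intro x
    obtain ⟨N, hN⟩ := exists_nat_ge ‖x‖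
    filter_upwards [eventually_ge_atTop N] with n hn
    apply c.one_of_mem_closedBall
    rw [mem_closedBall, dist_zero_right, norm_smul, Real.norm_eq_abs, abs_of_nonneg (by positivity)]
    have : ‖x‖ ≤ (n : ℝ) + 1 := hN.trans (by
      have : (N : ℝ) ≤ n := by exact_mod_cast hn
      linarith)
    show _ ≤ (1 : ℝ)
    rw [inv_mul_le_iff₀ (by positivity)]
    linarith
  have hdct : ∀ h : G → ℝ, Integrable h → (∀ x, 0 ≤ h x) →
      Tendsto (fun n => ∫ x, (1 - χ n x) * h x) atTop (𝓝 0) := by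
    intro h hh hp
    have := tendsto_integral_of_dominated_convergence (μ := volume)
      (F := fun (n : ℕ) x => (1 - χ n x) * h x) (f := fun _ => (0 : ℝ)) h
      (fun n => ((continuous_const.sub (hχs n).continuous).aestronglyMeasurable.mul
        hh.aestronglyMeasurable)) hh
      (fun n => Eventually.of_forall fun x => by
        rw [Real.norm_eq_abs, abs_of_nonneg
          (mul_nonneg (by linarith [hχ1 n x]) (hp _))]
        have := hχ0 n x
        have := hp x
        nlinarith)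
      (Eventually.of_forall fun x => by
        refine tendsto_const_nhds.congr' ?_
        filter_upwards [hχlim x] with n hn
        rw [hn]; simp)
    simpa using this
  have hl1 := hdct (fun x => ‖f x‖) hf.norm (fun x => norm_nonneg _)
  have hl2 := hdct (fun x => ‖g x‖) hg.norm (fun x => norm_nonneg _)
  have hl3 : Tendsto (fun n : ℕ => (M * ((n : ℝ) + 1)⁻¹) * ∫ x, ‖F x‖) atTop (𝓝 0) := by
    have : Tendsto (fun n : ℕ => ((n : ℝ) + 1)⁻¹) atTop (𝓝 0) := by
      simpa using tendsto_one_div_add_atTop_nhds_zero_nat (𝕜 := ℝ)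
    simpa using (this.const_mul M).mul_const (∫ x, ‖F x‖)
  obtain ⟨n, hn1, hn2, hn3⟩ := ((hl1.eventually_le_const (show (0 : ℝ) < ε / 2 by positivity)).and
    ((hl2.eventually_le_const (show (0 : ℝ) < ε / 4 by positivity)).and
      (hl3.eventually_le_const (show (0 : ℝ) < ε / 4 by positivity)))).exists
  refine ⟨fun x => χ n x * F x, (hχs n).mul hFs, (hχc n).mul_right, ?_, ?_⟩
  · have hi1 : Integrable (fun x => ‖F x - f x‖) := (hFi.sub hf).norm
    have hi2 : Integrable (fun x => (1 - χ n x) * ‖f x‖) := by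
      refine hf.norm.mono' ((continuous_const.sub (hχs n).continuous).aestronglyMeasurable.mul
        hf.norm.aestronglyMeasurable) (Eventually.of_forall fun x => ?_)
      rw [Real.norm_eq_abs, abs_of_nonneg (mul_nonneg (by linarith [hχ1 n x]) (norm_nonneg _))]
      have := hχ0 n x
      have := norm_nonneg (f x)
      nlinarith
    calc ∫ x, |χ n x * F x - f x| ≤ ∫ x, (‖F x - f x‖ + (1 - χ n x) * ‖f x‖) := by
          refine integral_mono_of_nonneg (Eventually.of_forall fun x => abs_nonneg _) (hi1.add hi2)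
            (Eventually.of_forall fun x => ?_)
          have e : χ n x * F x - f x = χ n x * (F x - f x) + -((1 - χ n x) * f x) := by ring
          have h0 := hχ0 n x
          have h1 := hχ1 n x
          simp only [e]
          refine (abs_add_le _ _).trans ?_
          rw [abs_neg, abs_mul, abs_mul, abs_of_nonneg h0, abs_of_nonneg (by linarith : 0 ≤ 1 - χ n x)]
          simp only [Real.norm_eq_abs]
          have := abs_nonneg (F x - f x)
          nlinarith
      _ = (∫ x, ‖F x - f x‖) + ∫ x, (1 - χ n x) * ‖f x‖ := integral_add hi1 hi2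
      _ ≤ ε := by linarith
  · have hi1 : Integrable (fun x => ‖Γ x - g x‖) := (hΓi.sub hg).norm
    have hi2 : Integrable (fun x => (1 - χ n x) * ‖g x‖) := by
      refine hg.norm.mono' ((continuous_const.sub (hχs n).continuous).aestronglyMeasurable.mul
        hg.norm.aestronglyMeasurable) (Eventually.of_forall fun x => ?_)
      rw [Real.norm_eq_abs, abs_of_nonneg (mul_nonneg (by linarith [hχ1 n x]) (norm_nonneg _))]
      have := hχ0 n x
      have := norm_nonneg (g x)
      nlinarith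
    have hi3 : Integrable (fun x => (M * ((n : ℝ) + 1)⁻¹) * ‖F x‖) := hFi.norm.const_mul _
    have hd : ∀ x, fderiv ℝ (fun x => χ n x * F x) x =
        χ n x • innerSL ℝ (Γ x) + F x • fderiv ℝ (χ n) x := by
      intro x
      have := (((hχs n).differentiable (by simp) x).hasFDerivAt).mul (hFd x)
      exact this.fderiv
    calc ∫ x, ‖fderiv ℝ (fun x => χ n x * F x) x - innerSL ℝ (g x)‖
        ≤ ∫ x, (‖Γ x - g x‖ + (1 - χ n x) * ‖g x‖ + (M * ((n : ℝ) + 1)⁻¹) * ‖F x‖) := by
          refine integral_mono_of_nonneg (Eventually.of_forall fun x => norm_nonneg _)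
            ((hi1.add hi2).add hi3) (Eventually.of_forall fun x => ?_)
          have e : fderiv ℝ (fun x => χ n x * F x) x - innerSL ℝ (g x) =
              χ n x • innerSL ℝ (Γ x - g x) + (-((1 - χ n x) • innerSL ℝ (g x)))
                + F x • fderiv ℝ (χ n) x := by
            rw [hd x, map_sub]
            module
          have h0 := hχ0 n x
          have h1 := hχ1 n x
          simp only [e]
          refine (norm_add₃_le).trans ?_
          rw [norm_neg, norm_smul, norm_smul, norm_smul, innerSL_apply_norm, innerSL_apply_norm,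
            Real.norm_eq_abs, Real.norm_eq_abs, abs_of_nonneg h0,
            abs_of_nonneg (by linarith : 0 ≤ 1 - χ n x)]
          have h5 : ‖F x‖ * ‖fderiv ℝ (χ n) x‖ ≤ (M * ((n : ℝ) + 1)⁻¹) * ‖F x‖ := by
            rw [mul_comm]
            exact mul_le_mul_of_nonneg_right (hχd n x) (norm_nonneg _)
          have h6 := norm_nonneg (Γ x - g x)
          have h7 : χ n x * ‖Γ x - g x‖ ≤ ‖Γ x - g x‖ := by nlinarith
          linarith
      _ = (∫ x, ‖Γ x - g x‖) + (∫ x, (1 - χ n x) * ‖g x‖) +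
            ∫ x, (M * ((n : ℝ) + 1)⁻¹) * ‖F x‖ := by
          rw [← integral_add hi1 hi2]
          exact integral_add (hi1.add hi2) hi3
      _ ≤ ε := by
          rw [integral_const_mul]
          linarith

end L1

/-- the Euclidean plane -/
abbrev Density.E2 := EuclideanSpace ℝ (Fin 2)

/-- the standard isometry `ℂ ≃ EuclideanSpace ℝ (Fin 2)` -/
noncomputable abbrev Density.iso : ℂ ≃ₗᵢ[ℝ] Density.E2 := Complex.orthonormalBasisOneI.repr

open Crest.AnalysisR (IsWeakGradient)

/-- density in `W^{1,1}`, Euclidean version -/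
theorem Density.exists_nice_E2 {f : Density.E2 → ℝ} {g : Density.E2 → Density.E2}
    (hf : Integrable f) (hw : IsWeakGradient f g) (hg : Integrable g) {ε : ℝ} (hε : 0 < ε) :
    ∃ φ : Density.E2 → ℝ, ContDiff ℝ ∞ φ ∧ HasCompactSupport φ ∧ ∫ x, |φ x - f x| ≤ ε ∧
      ∫ x, ‖fderiv ℝ φ x - innerSL ℝ (g x)‖ ≤ ε :=
  Density.exists_smooth hf hg hw.2.2 hε


end Crest.Agent.R112
end

-- ▼ part R112/Cmf
section

/-!
# R112 (S0147), module Cmf: the frozen maximal function and the plane `ℂ`.
-/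

set_option autoImplicit false

namespace Crest.Agent.R112

open MeasureTheory Set Metric Filter Topology
open scoped ENNReal NNReal

open Crest.AnalysisR (centredMaximalFunction)

/-- the average of `‖F‖` on a disc, with values in `ℝ≥0∞` -/
noncomputable def avg (F : ℂ → ℝ) (r : ℝ) (z : ℂ) : ℝ≥0∞ :=
  (∫⁻ w in ball z r, ‖F w‖ₑ) / volume (ball z r)

/-- the centred disc maximal function on `ℂ` -/
noncomputable def Me (F : ℂ → ℝ) (z : ℂ) : ℝ≥0∞ :=
  ⨆ (r : ℝ) (_ : 0 < r), avg F r z

theorem cmf_iso (f : Density.E2 → ℝ) (z : ℂ) :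
    centredMaximalFunction f (Density.iso z) = Me (fun w => f (Density.iso w)) z := by
  have hmp : MeasurePreserving (Density.iso : ℂ → Density.E2) := Density.iso.measurePreserving
  have hme : MeasurableEmbedding (Density.iso : ℂ → Density.E2) :=
    Density.iso.toHomeomorph.measurableEmbedding
  unfold centredMaximalFunction Me avg
  congr 1
  ext r
  congr 1
  ext hr
  have h1 : ball z r = (Density.iso : ℂ → Density.E2) ⁻¹' ball (Density.iso z) r := by
    ext w
    simp [mem_ball]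
  rw [h1, hmp.setLIntegral_comp_preimage_emb hme (fun w => ‖f w‖ₑ), hmp.measure_preimage_emb hme]

theorem measurable_avg_numerator (F : ℂ → ℝ) (r : ℝ) :
    LowerSemicontinuous (fun z => ∫⁻ w in ball z r, ‖F w‖ₑ) := by
  intro z c hc
  -- choose a smaller ball
  have hmono : Monotone (fun n : ℕ => ball z (r - 1 / ((n : ℝ) + 1))) := by
    intro n m hnm
    apply ball_subset_ball
    have : (1 : ℝ) / ((m : ℝ) + 1) ≤ 1 / ((n : ℝ) + 1) := by
      apply one_div_le_one_div_of_le (by positivity)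
      have : (n : ℝ) ≤ m := by exact_mod_cast hnm
      linarith
    linarith
  have hun : (⋃ n : ℕ, ball z (r - 1 / ((n : ℝ) + 1))) = ball z r := by
    ext w
    simp only [mem_iUnion, mem_ball]
    constructor
    · rintro ⟨n, hn⟩
      have : (0 : ℝ) < 1 / ((n : ℝ) + 1) := by positivity
      linarith
    · intro hw
      obtain ⟨n, hn⟩ := exists_nat_one_div_lt (sub_pos.mpr hw)
      exact ⟨n, by linarith⟩
  have hsup := setLIntegral_iUnion_of_directed (μ := (volume : Measure ℂ)) (fun w => ‖F w‖ₑ)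
    (hmono.directed_le)
  rw [hun] at hsup
  have hc : c < ∫⁻ w in ball z r, ‖F w‖ₑ := hc
  rw [hsup, lt_iSup_iff] at hc
  obtain ⟨n, hn⟩ := hc
  have hpos : (0 : ℝ) < 1 / ((n : ℝ) + 1) := by positivity
  filter_upwards [ball_mem_nhds z hpos] with z' hz'
  refine lt_of_lt_of_le hn ?_
  apply lintegral_mono_set
  apply ball_subset_ball'
  rw [mem_ball, dist_comm] at hz'
  linarith

theorem lowerSemicontinuous_avg (F : ℂ → ℝ) {r : ℝ} (hr : 0 < r) :
    LowerSemicontinuous (fun z => avg F r z) := by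
  have h := measurable_avg_numerator F r
  have hv : ∀ z : ℂ, volume (ball z r) = volume (ball (0 : ℂ) r) := fun z =>
    Measure.addHaar_ball_center volume z r
  have hv0 : volume (ball (0 : ℂ) r) ≠ 0 := (measure_ball_pos volume _ hr).ne'
  have hv1 : volume (ball (0 : ℂ) r) ≠ ⊤ := measure_ball_lt_top.ne
  have hc : Continuous (fun a : ℝ≥0∞ => a / volume (ball (0 : ℂ) r)) :=
    ENNReal.continuous_div_const _ hv0
  have hm : Monotone (fun a : ℝ≥0∞ => a / volume (ball (0 : ℂ) r)) := fun a b hab =>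
    ENNReal.div_le_div_right hab _
  have := hc.comp_lowerSemicontinuous h hm
  unfold avg
  simp_rw [hv]
  exact this

theorem lowerSemicontinuous_Me (F : ℂ → ℝ) :
    LowerSemicontinuous (Me F) := by
  unfold Me
  apply lowerSemicontinuous_iSup
  intro r
  apply lowerSemicontinuous_iSup
  intro hr
  exact lowerSemicontinuous_avg F hr

theorem measurable_Me (F : ℂ → ℝ) : Measurable (Me F) :=
  (lowerSemicontinuous_Me F).measurable

theorem measurable_cmf (f : Density.E2 → ℝ) :
    Measurable (centredMaximalFunction f) := by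
  have h1 : Measurable (Me (fun w => f (Density.iso w))) := measurable_Me _
  have h2 : centredMaximalFunction f = fun x => Me (fun w => f (Density.iso w)) (Density.iso.symm x) := by
    ext x
    rw [← cmf_iso, LinearIsometryEquiv.apply_symm_apply]
  rw [h2]
  exact h1.comp Density.iso.symm.continuous.measurable

theorem volume_ball_eq (z : ℂ) {r : ℝ} (hr : 0 < r) :
    volume (ball z r) = ENNReal.ofReal (Real.pi * r ^ 2) := by
  rw [Complex.volume_ball, ENNReal.ofReal_mul Real.pi_pos.le, mul_comm]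
  congr 1
  · rw [← NNReal.coe_real_pi, ENNReal.ofReal_coe_nnreal]
  · rw [ENNReal.ofReal_pow hr.le]

/-- the real-valued form of the averages -/
theorem avg_eq_ofReal (F : ℂ → ℝ) (hF : LocallyIntegrable F) {r : ℝ} (hr : 0 < r) (z : ℂ) :
    avg F r z = ENNReal.ofReal (A (fun w => |F w|) r z) := by
  have hint : IntegrableOn F (ball z r) :=
    (hF.integrableOn_isCompact (isCompact_closedBall z r)).mono_set ball_subset_closedBall
  have h1 : ∫⁻ w in ball z r, ‖F w‖ₑ = ENNReal.ofReal (∫ w in ball z r, |F w|) := by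
    have := ofReal_integral_norm_eq_lintegral_enorm hint
    rw [← this]
    simp only [Real.norm_eq_abs]
  unfold avg
  rw [h1, volume_ball_eq z hr, A_eq hr, ← ENNReal.ofReal_div_of_pos (by positivity)]
  congr 1
  ring








end Crest.Agent.R112
end

-- ▼ part R112/Lines0
section

/-! R112: the maximal function `Mz` of a nice function, basic facts; shift estimates. -/

set_option autoImplicit false

namespace Crest.Agent.R112

open MeasureTheory Set Filter Topology Metric
open scoped ENNReal NNReal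

/-- centred maximal function of a nice function (the radius `0` gives `|f z|`) -/
noncomputable def Mz (f : ℂ → ℝ) (z : ℂ) : ℝ :=
  sSup ((fun r : ℝ => A (fun w => |f w|) r z) '' Set.Ici 0)

/-- centred maximal function of an integrable function -/
noncomputable def Mc (F : ℂ → ℝ) (z : ℂ) : ℝ≥0∞ :=
  ⨆ (r : ℝ) (_ : 0 < r), ENNReal.ofReal (A (fun w => |F w|) r z)

theorem A_abs_nonneg (F : ℂ → ℝ) (r : ℝ) (z : ℂ) : 0 ≤ A (fun w => |F w|) r z :=
  A_nonneg (fun _ => abs_nonneg _) r z

theorem Mz_bdd {f : ℂ → ℝ} (hf : Nice f) (z : ℂ) :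
    BddAbove ((fun r : ℝ => A (fun w => |f w|) r z) '' Set.Ici 0) := by
  obtain ⟨K, _, hK⟩ := hf.exists_bound
  refine ⟨K, ?_⟩
  rintro _ ⟨r, _, rfl⟩
  have h := abs_A_le (g := fun w => |f w|) hf.continuous.abs (K := K)
    (fun x => by rw [abs_abs]; exact hK x) r z
  exact (abs_le.1 h).2

theorem A_abs_le_Mz {f : ℂ → ℝ} (hf : Nice f) {r : ℝ} (hr : 0 ≤ r) (z : ℂ) :
    A (fun w => |f w|) r z ≤ Mz f z :=
  le_csSup (Mz_bdd hf z) ⟨r, hr, rfl⟩

theorem abs_le_Mz {f : ℂ → ℝ} (hf : Nice f) (z : ℂ) : |f z| ≤ Mz f z := by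
  have h := A_abs_le_Mz hf le_rfl z
  rwa [A_zero] at h

theorem Mz_nonneg {f : ℂ → ℝ} (hf : Nice f) (z : ℂ) : 0 ≤ Mz f z :=
  (abs_nonneg _).trans (abs_le_Mz hf z)

theorem Mz_le {f : ℂ → ℝ} {z : ℂ} {K : ℝ} (h : ∀ r, 0 ≤ r → A (fun w => |f w|) r z ≤ K) :
    Mz f z ≤ K := by
  apply csSup_le ((Set.nonempty_Ici).image _)
  rintro _ ⟨r, hr, rfl⟩
  exact h r hr

theorem abs_abs_lip {f : ℂ → ℝ} {K : ℝ≥0} (hK : LipschitzWith K f) (x y : ℂ) :
    abs (|f x| - |f y|) ≤ K * ‖x - y‖ := by
  have h1 := abs_abs_sub_abs_le_abs_sub (f x) (f y)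
  have h2 := hK.dist_le_mul x y
  rw [Real.dist_eq, dist_eq_norm] at h2
  linarith

theorem A_abs_sub_le {f : ℂ → ℝ} (hf : Nice f) {K : ℝ≥0} (hK : LipschitzWith K f)
    (r r' : ℝ) (z z' : ℂ) :
    |A (fun w => |f w|) r z - A (fun w => |f w|) r' z'| ≤ K * (‖z - z'‖ + |r - r'|) := by
  have hc : Continuous f := hf.continuous
  have h1 : A (fun w => |f w|) r z - A (fun w => |f w|) r' z'
      = (1 / Real.pi) * ∫ ξ in ball (0 : ℂ) 1, (|f (z + r * ξ)| - |f (z' + r' * ξ)|) := by
    unfold A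
    rw [integral_sub, mul_sub]
    · exact integrableOn_disc (F := fun ξ => |f (z + r * ξ)|) (by fun_prop)
    · exact integrableOn_disc (F := fun ξ => |f (z' + r' * ξ)|) (by fun_prop)
  rw [h1, abs_mul, abs_of_pos (by positivity : (0:ℝ) < 1 / Real.pi)]
  have h2 : ‖∫ ξ in ball (0 : ℂ) 1, (|f (z + r * ξ)| - |f (z' + r' * ξ)|)‖
      ≤ (K * (‖z - z'‖ + |r - r'|)) * (volume : Measure ℂ).real (ball (0 : ℂ) 1) := by
    apply norm_setIntegral_le_of_norm_le_const
    · rw [volume_unitBall]; exact ENNReal.ofReal_lt_top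
    · intro ξ hξ
      rw [Real.norm_eq_abs]
      refine (abs_abs_lip hK _ _).trans ?_
      gcongr
      have : z + r * ξ - (z' + r' * ξ) = (z - z') + ((r - r' : ℝ) : ℂ) * ξ := by
        push_cast; ring
      rw [this]
      refine (norm_add_le _ _).trans ?_
      gcongr
      rw [norm_mul, Complex.norm_real, Real.norm_eq_abs]
      have h3 : ‖ξ‖ ≤ 1 := by
        rw [mem_ball, dist_zero_right] at hξ
        exact hξ.le
      exact mul_le_of_le_one_right (abs_nonneg _) h3
  rw [volume_real_unitBall, Real.norm_eq_abs] at h2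
  have hpi := Real.pi_pos
  calc 1 / Real.pi * |∫ ξ in ball (0 : ℂ) 1, (|f (z + r * ξ)| - |f (z' + r' * ξ)|)|
      ≤ 1 / Real.pi * ((K * (‖z - z'‖ + |r - r'|)) * Real.pi) := by gcongr
    _ = K * (‖z - z'‖ + |r - r'|) := by field_simp

theorem lipschitz_Mz {f : ℂ → ℝ} (hf : Nice f) {K : ℝ≥0} (hK : LipschitzWith K f) :
    LipschitzWith K (Mz f) := by
  have key : ∀ z z', Mz f z ≤ Mz f z' + K * ‖z - z'‖ := by
    intro z z'
    apply Mz_le
    intro r hr
    have h1 := (abs_le.1 (A_abs_sub_le hf hK r r z z')).2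
    have h2 := A_abs_le_Mz hf hr z'
    simp only [sub_self, abs_zero, add_zero] at h1
    linarith
  apply LipschitzWith.of_dist_le_mul
  intro z z'
  rw [Real.dist_eq, dist_eq_norm, abs_le]
  have h1 := key z z'
  have h2 := key z' z
  rw [norm_sub_rev] at h2
  constructor <;> linarith

theorem continuous_Mz {f : ℂ → ℝ} (hf : Nice f) : Continuous (Mz f) := by
  obtain ⟨K, hK⟩ := hf.lipschitz
  exact (lipschitz_Mz hf hK).continuous

theorem Nice.integrable {f : ℂ → ℝ} (hf : Nice f) : Integrable f :=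
  hf.continuous.integrable_of_hasCompactSupport hf.2

theorem Nice.sub {f g : ℂ → ℝ} (hf : Nice f) (hg : Nice g) : Nice (fun z => f z - g z) :=
  ⟨hf.1.sub hg.1, hf.2.sub hg.2⟩

/-- `L¹` bound of disc averages -/
theorem A_abs_int_le {F : ℂ → ℝ} (hF : Integrable F) {r : ℝ} (hr : 0 < r) (z : ℂ) :
    A (fun w => |F w|) r z ≤ (1 / (Real.pi * r ^ 2)) * ∫ w, |F w| := by
  rw [A_eq hr]
  apply mul_le_mul_of_nonneg_left _ (by positivity)
  exact setIntegral_le_integral hF.abs (Eventually.of_forall fun _ => abs_nonneg _)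

theorem A_abs_diff {F G : ℂ → ℝ} (hF : Integrable F) (hG : Integrable G) {r : ℝ} (hr : 0 < r)
    (z : ℂ) : |A (fun w => |F w|) r z - A (fun w => |G w|) r z| ≤
      A (fun w => |F w - G w|) r z := by
  rw [A_eq hr, A_eq hr, A_eq hr, ← mul_sub, abs_mul, abs_of_pos (by positivity)]
  gcongr
  rw [← integral_sub hF.abs.integrableOn hG.abs.integrableOn]
  refine (abs_integral_le_integral_abs).trans ?_
  apply integral_mono
  · exact (hF.abs.sub hG.abs).abs.integrableOn
  · exact (hF.sub hG).abs.integrableOn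
  · intro w
    exact abs_abs_sub_abs_le_abs_sub (F w) (G w)

/-- the maximal function tends to zero along horizontal lines -/
theorem Mz_tendsto {f : ℂ → ℝ} (hf : Nice f) (y : ℝ) :
    Tendsto (fun s : ℝ => Mz f ⟨s, y⟩) atTop (𝓝 0) := by
  obtain ⟨R, hR0, hR⟩ : ∃ R : ℝ, 0 < R ∧ ∀ x, R ≤ ‖x‖ → f x = 0 := by
    obtain ⟨R, hR⟩ := hf.2.isCompact.isBounded.subset_ball 0
    refine ⟨max R 1, by positivity, fun x hx => ?_⟩
    by_contra h
    have h2 := hR (subset_tsupport f h)
    rw [mem_ball, dist_zero_right] at h2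
    linarith [le_max_left R 1]
  set I := ∫ w, |f w| with hI
  have hI0 : 0 ≤ I := integral_nonneg fun _ => abs_nonneg _
  have hbound : ∀ s : ℝ, R < s → Mz f ⟨s, y⟩ ≤ (1 / Real.pi) * I * ((s - R) ^ 2)⁻¹ := by
    intro s hs
    have hpi := Real.pi_pos
    have hsR : 0 < s - R := by linarith
    apply Mz_le
    intro r hr
    rcases le_or_gt r (s - R) with h | h
    · have hz : A (fun w => |f w|) r ⟨s, y⟩ = 0 := by
        unfold A
        rw [setIntegral_congr_fun (g := fun _ => (0:ℝ)) measurableSet_ball]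
        · simp
        · intro ξ hξ
          simp only
          rw [hR, abs_zero]
          rw [mem_ball, dist_zero_right] at hξ
          have h1 : s ≤ ‖(⟨s, y⟩ : ℂ)‖ := by
            have := Complex.abs_re_le_norm (⟨s, y⟩ : ℂ)
            simp only at this
            exact (le_abs_self s).trans this
          have h2 : ‖(r : ℂ) * ξ‖ ≤ r := by
            rw [norm_mul, Complex.norm_real, Real.norm_eq_abs, abs_of_nonneg hr]
            exact mul_le_of_le_one_right hr hξ.le
          have h3 := norm_sub_le ((⟨s, y⟩ : ℂ) + (r : ℂ) * ξ) ((r : ℂ) * ξ)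
          rw [add_sub_cancel_right] at h3
          linarith
      rw [hz]
      positivity
    · have hr0 : 0 < r := by linarith
      refine (A_abs_int_le hf.integrable hr0 _).trans ?_
      rw [← hI]
      have h4 : (s - R) ^ 2 ≤ r ^ 2 := by
        apply pow_le_pow_left₀ hsR.le h.le
      have h5 : (r ^ 2)⁻¹ ≤ ((s - R) ^ 2)⁻¹ := inv_anti₀ (by positivity) h4
      calc 1 / (Real.pi * r ^ 2) * I = (1 / Real.pi) * I * (r ^ 2)⁻¹ := by field_simp
        _ ≤ _ := by gcongr
  have hlim : Tendsto (fun s : ℝ => (1 / Real.pi) * I * ((s - R) ^ 2)⁻¹) atTop (𝓝 0) := by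
    have h1 : Tendsto (fun s : ℝ => (s - R) ^ 2) atTop atTop := by
      apply (tendsto_pow_atTop (two_ne_zero)).comp
      exact tendsto_atTop_add_const_right _ _ tendsto_id
    have h2 := (tendsto_inv_atTop_zero.comp h1).const_mul ((1 / Real.pi) * I)
    rw [mul_zero] at h2
    exact h2
  apply squeeze_zero' (Eventually.of_forall fun s => Mz_nonneg hf _) _ hlim
  filter_upwards [eventually_gt_atTop R] with s hs
  exact hbound s hs

/-- sup along a line is at most the variation -/
theorem Mz_le_eVar {f : ℂ → ℝ} (hf : Nice f) (y s : ℝ) :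
    ENNReal.ofReal (Mz f ⟨s, y⟩) ≤ eVariationOn (fun s : ℝ => Mz f ⟨s, y⟩) univ := by
  have h1 : ∀ t : ℝ, edist (Mz f ⟨s, y⟩) (Mz f ⟨t, y⟩)
      ≤ eVariationOn (fun s : ℝ => Mz f ⟨s, y⟩) univ := by
    intro t
    exact eVariationOn.edist_le (fun s : ℝ => Mz f ⟨s, y⟩) (mem_univ s) (mem_univ t)
  have h2 : Tendsto (fun t : ℝ => edist (Mz f ⟨s, y⟩) (Mz f ⟨t, y⟩)) atTop
      (𝓝 (edist (Mz f ⟨s, y⟩) 0)) :=
    tendsto_const_nhds.edist (Mz_tendsto hf y)
  have h3 := le_of_tendsto' h2 h1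
  rw [edist_zero_right, Real.enorm_eq_ofReal (Mz_nonneg hf _)] at h3
  exact h3

/-- shift estimate for a nice function -/
theorem A_abs_shift {φ : ℂ → ℝ} (hφ : Nice φ) {r : ℝ} (hr : 0 < r) (z z' : ℂ) :
    |A (fun w => |φ w|) r z - A (fun w => |φ w|) r z'| ≤
      ‖z - z'‖ * ((1 / (Real.pi * r ^ 2)) * ∫ w, ‖fderiv ℝ φ w‖) := by
  have hpi := Real.pi_pos
  have hc := hφ.continuous
  have hdc := hφ.continuous_fderiv
  set J := ∫ w, ‖fderiv ℝ φ w‖ with hJ
  have hJ0 : 0 ≤ J := integral_nonneg fun _ => norm_nonneg _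
  have hJl : ∫⁻ w, ‖fderiv ℝ φ w‖ₑ = ENNReal.ofReal J := by
    rw [hJ, ← ofReal_integral_norm_eq_lintegral_enorm hφ.integrable_fderiv]
  -- pointwise bound
  have hpt : ∀ ξ : ℂ, ‖φ (z + r * ξ) - φ (z' + r * ξ)‖ₑ ≤
      ∫⁻ t in Icc (0:ℝ) 1, ‖z - z'‖ₑ * ‖fderiv ℝ φ (z' + t * (z - z') + r * ξ)‖ₑ := by
    intro ξ
    have hder : ∀ t : ℝ, HasDerivAt (fun t : ℝ => φ (z' + t * (z - z') + r * ξ))
        (fderiv ℝ φ (z' + t * (z - z') + r * ξ) (z - z')) t := by
      intro t
      have h1 : HasDerivAt (fun t : ℝ => z' + (t : ℂ) * (z - z') + r * ξ) (z - z') t := by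
        have h0 : HasDerivAt (fun t : ℝ => (t : ℂ)) 1 t := Complex.ofRealCLM.hasDerivAt
        have := ((h0.mul_const (z - z')).const_add z').add_const (r * ξ)
        simpa using this
      exact ((hφ.differentiable _).hasFDerivAt).comp_hasDerivAt t h1
    have hcont : Continuous (fun t : ℝ => fderiv ℝ φ (z' + t * (z - z') + r * ξ) (z - z')) := by
      fun_prop
    have h2 : φ (z + r * ξ) - φ (z' + r * ξ)
        = ∫ t in (0:ℝ)..1, fderiv ℝ φ (z' + t * (z - z') + r * ξ) (z - z') := by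
      rw [intervalIntegral.integral_eq_sub_of_hasDerivAt (fun t _ => hder t)
        (hcont.intervalIntegrable _ _)]
      simp
    rw [h2, intervalIntegral.integral_of_le zero_le_one]
    refine (enorm_integral_le_lintegral_enorm _).trans ?_
    rw [restrict_Ioc_eq_restrict_Icc]
    apply lintegral_mono
    intro t
    show ‖(fderiv ℝ φ (z' + t * (z - z') + r * ξ)) (z - z')‖ₑ ≤
      ‖z - z'‖ₑ * ‖fderiv ℝ φ (z' + t * (z - z') + r * ξ)‖ₑ
    have h3 := (fderiv ℝ φ (z' + t * (z - z') + r * ξ)).le_opNorm (z - z')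
    rw [← ofReal_norm, ← ofReal_norm, ← ofReal_norm, ← ENNReal.ofReal_mul (norm_nonneg _)]
    apply ENNReal.ofReal_le_ofReal
    linarith
  have hball : ∀ t : ℝ, ∫⁻ ξ in ball (0:ℂ) 1, ‖fderiv ℝ φ (z' + t * (z - z') + r * ξ)‖ₑ
      ≤ ENNReal.ofReal ((r ^ 2)⁻¹ * J) := by
    intro t
    have hrc : (r : ℂ) ≠ 0 := by exact_mod_cast hr.ne'
    have h1 := lint_aff (z' + t * (z - z')) hrc (fun w => ‖fderiv ℝ φ w‖ₑ)
    rw [hJl, Complex.norm_real, Real.norm_eq_abs, sq_abs] at h1
    have h2 : ∫⁻ ξ, ‖fderiv ℝ φ (z' + t * (z - z') + r * ξ)‖ₑ = ENNReal.ofReal ((r ^ 2)⁻¹ * J) := by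
      have hne : ENNReal.ofReal (r ^ 2) ≠ 0 := by
        rw [Ne, ENNReal.ofReal_eq_zero, not_le]; positivity
      rw [ENNReal.ofReal_mul (by positivity), ENNReal.ofReal_inv_of_pos (by positivity), ← h1,
        ← mul_assoc, ENNReal.inv_mul_cancel hne ENNReal.ofReal_ne_top, one_mul]
    rw [← h2]
    exact setLIntegral_le_lintegral _ _
  have hmain : ∫⁻ ξ in ball (0:ℂ) 1, ‖φ (z + r * ξ) - φ (z' + r * ξ)‖ₑ
      ≤ ENNReal.ofReal (‖z - z'‖ * ((r ^ 2)⁻¹ * J)) := by
    calc ∫⁻ ξ in ball (0:ℂ) 1, ‖φ (z + r * ξ) - φ (z' + r * ξ)‖ₑ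
        ≤ ∫⁻ ξ in ball (0:ℂ) 1, ∫⁻ t in Icc (0:ℝ) 1,
            ‖z - z'‖ₑ * ‖fderiv ℝ φ (z' + t * (z - z') + r * ξ)‖ₑ := lintegral_mono hpt
      _ = ∫⁻ t in Icc (0:ℝ) 1, ∫⁻ ξ in ball (0:ℂ) 1,
            ‖z - z'‖ₑ * ‖fderiv ℝ φ (z' + t * (z - z') + r * ξ)‖ₑ := by
          apply lintegral_lintegral_swap
          apply Measurable.aemeasurable
          apply Measurable.const_mul
          apply Continuous.measurable
          have : Continuous (fun p : ℂ × ℝ => fderiv ℝ φ (z' + p.2 * (z - z') + r * p.1)) := by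
            fun_prop
          exact this.enorm
      _ ≤ ∫⁻ t in Icc (0:ℝ) 1, ENNReal.ofReal (‖z - z'‖ * ((r ^ 2)⁻¹ * J)) := by
          apply lintegral_mono
          intro t
          simp only
          rw [lintegral_const_mul' _ _ enorm_ne_top, ENNReal.ofReal_mul (norm_nonneg _), ofReal_norm]
          gcongr
          exact hball t
      _ = ENNReal.ofReal (‖z - z'‖ * ((r ^ 2)⁻¹ * J)) := by simp
  have h1 : A (fun w => |φ w|) r z - A (fun w => |φ w|) r z'
      = (1 / Real.pi) * ∫ ξ in ball (0 : ℂ) 1, (|φ (z + r * ξ)| - |φ (z' + r * ξ)|) := by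
    unfold A
    rw [integral_sub, mul_sub]
    · exact integrableOn_disc (F := fun ξ => |φ (z + r * ξ)|) (by fun_prop)
    · exact integrableOn_disc (F := fun ξ => |φ (z' + r * ξ)|) (by fun_prop)
  rw [h1, abs_mul, abs_of_pos (by positivity : (0:ℝ) < 1 / Real.pi)]
  have h2 : |∫ ξ in ball (0 : ℂ) 1, (|φ (z + r * ξ)| - |φ (z' + r * ξ)|)|
      ≤ ‖z - z'‖ * ((r ^ 2)⁻¹ * J) := by
    rw [← Real.norm_eq_abs, ← ENNReal.ofReal_le_ofReal_iff (by positivity), ofReal_norm]
    refine le_trans (enorm_integral_le_lintegral_enorm _) (le_trans ?_ hmain)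
    apply lintegral_mono
    intro ξ
    show ‖|φ (z + r * ξ)| - |φ (z' + r * ξ)|‖ₑ ≤ ‖φ (z + r * ξ) - φ (z' + r * ξ)‖ₑ
    rw [← ofReal_norm, ← ofReal_norm]
    apply ENNReal.ofReal_le_ofReal
    rw [Real.norm_eq_abs, Real.norm_eq_abs]
    exact abs_abs_sub_abs_le_abs_sub _ _
  calc 1 / Real.pi * |∫ ξ in ball (0 : ℂ) 1, (|φ (z + r * ξ)| - |φ (z' + r * ξ)|)|
      ≤ 1 / Real.pi * (‖z - z'‖ * ((r ^ 2)⁻¹ * J)) := by gcongr
    _ = ‖z - z'‖ * ((1 / (Real.pi * r ^ 2)) * J) := by field_simp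

end Crest.Agent.R112
end

-- ▼ part R112/WeakA
section

/-!
# R112 (S0147), module WeakA: one-dimensional facts for functions of bounded variation
* `lintegral_abs_deriv_le_eVariationOn` : `∫ |h'| ≤ Var h`.
* `abs_le_eVariationOn_of_tendsto` : `|h| ≤ Var h` if `h → 0` at `+∞`.
-/

set_option autoImplicit false

namespace Crest.Agent.R112

open MeasureTheory Set Filter Topology
open scoped ENNReal NNReal

/-- for a function of bounded variation `∫_a^b |h'| ≤ Var(h, [a,b])` (total variation form) -/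
theorem lintegral_Icc_abs_deriv_le {h : ℝ → ℝ} (hbv : BoundedVariationOn h univ) {a b : ℝ}
    (hab : a ≤ b) :
    ∫⁻ s in Icc a b, ENNReal.ofReal |deriv h s| ≤ eVariationOn h univ := by
  have hl : LocallyBoundedVariationOn h univ := hbv.locallyBoundedVariationOn
  set V : ℝ → ℝ := variationOnFromTo h univ a with hV
  have hmon : Monotone V := fun x y hxy =>
    variationOnFromTo.monotoneOn hl (mem_univ a) (mem_univ x) (mem_univ y) hxy
  have hd : ∀ᵐ s : ℝ, |deriv h s| ≤ deriv V s := by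
    filter_upwards [hl.ae_differentiableAt, hmon.ae_differentiableAt] with s h1 h2
    have t1 : Tendsto (fun t => |slope h s t|) (𝓝[>] s) (𝓝 |deriv h s|) :=
      ((h1.hasDerivAt.tendsto_slope).mono_left
        (nhdsWithin_mono _ (fun t ht => (ne_of_gt ht : t ≠ s)))).abs
    have t2 : Tendsto (fun t => slope V s t) (𝓝[>] s) (𝓝 (deriv V s)) :=
      (h2.hasDerivAt.tendsto_slope).mono_left
        (nhdsWithin_mono _ (fun t ht => (ne_of_gt ht : t ≠ s)))
    refine le_of_tendsto_of_tendsto t1 t2 ?_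
    filter_upwards [self_mem_nhdsWithin] with t ht
    have ht' : s < t := ht
    have hpos : 0 < t - s := sub_pos.mpr ht'
    rw [slope_def_field, slope_def_field, abs_div, abs_of_pos hpos]
    exact div_le_div_of_nonneg_right
      (variationOnFromTo.abs_sub_le_sub_of_le hl (mem_univ a) (mem_univ s) (mem_univ t) ht'.le)
      hpos.le
  have hVm : MonotoneOn V (uIcc a b) := hmon.monotoneOn _
  have hint : IntervalIntegrable (deriv V) volume a b := hVm.intervalIntegrable_deriv
  have hint' : IntegrableOn (deriv V) (Icc a b) :=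
    (intervalIntegrable_iff_integrableOn_Icc_of_le hab).mp hint
  have hnn : ∀ᵐ s ∂(volume.restrict (Icc a b)), 0 ≤ deriv V s :=
    ae_restrict_of_ae (hd.mono fun s hs => le_trans (abs_nonneg _) hs)
  calc ∫⁻ s in Icc a b, ENNReal.ofReal |deriv h s|
      ≤ ∫⁻ s in Icc a b, ENNReal.ofReal (deriv V s) := by
        apply lintegral_mono_ae
        exact ae_restrict_of_ae (hd.mono fun s hs => ENNReal.ofReal_le_ofReal hs)
    _ = ENNReal.ofReal (∫ s in Icc a b, deriv V s) :=
        (ofReal_integral_eq_lintegral_ofReal hint' hnn).symm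
    _ ≤ ENNReal.ofReal (V b - V a) := by
        apply ENNReal.ofReal_le_ofReal
        have := hVm.intervalIntegral_deriv_mem_uIcc
        rw [uIcc_of_le (sub_nonneg.mpr (hmon hab))] at this
        rw [integral_Icc_eq_integral_Ioc, ← intervalIntegral.integral_of_le hab]
        exact this.2
    _ ≤ eVariationOn h univ := by
        have hVa : V a = 0 := variationOnFromTo.self _ _ _
        rw [hVa, sub_zero, hV, variationOnFromTo.eq_of_le h univ hab]
        refine le_trans ENNReal.ofReal_toReal_le ?_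
        exact eVariationOn.mono _ inter_subset_left

theorem lintegral_abs_deriv_le_eVariationOn (h : ℝ → ℝ) :
    ∫⁻ s, ENNReal.ofReal |deriv h s| ≤ eVariationOn h univ := by
  by_cases hbv : eVariationOn h univ = ⊤
  · rw [hbv]; exact le_top
  have hbv' : BoundedVariationOn h univ := hbv
  have hcov : ∫⁻ s, ENNReal.ofReal |deriv h s| =
      ⨆ n : ℕ, ∫⁻ s in Icc (-(n : ℝ)) n, ENNReal.ofReal |deriv h s| := by
    have h1 := setLIntegral_iUnion_of_directed (μ := volume)
      (fun s => ENNReal.ofReal |deriv h s|) (s := fun n : ℕ => Icc (-(n : ℝ)) n) ?_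
    · rw [← h1]
      have : (⋃ n : ℕ, Icc (-(n : ℝ)) n) = univ := by
        apply eq_univ_of_forall
        intro x
        obtain ⟨n, hn⟩ := exists_nat_ge |x|
        exact mem_iUnion.mpr ⟨n, by rw [mem_Icc]; exact ⟨by linarith [neg_abs_le x], by
          linarith [le_abs_self x]⟩⟩
      rw [this, Measure.restrict_univ]
    · apply Monotone.directed_le
      intro m n hmn x hx
      have : (m : ℝ) ≤ n := by exact_mod_cast hmn
      exact ⟨by linarith [hx.1], by linarith [hx.2]⟩
  rw [hcov]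
  apply iSup_le
  intro n
  exact lintegral_Icc_abs_deriv_le hbv' (by linarith [Nat.cast_nonneg (α := ℝ) n])

theorem ofReal_abs_le_eVariationOn_of_tendsto {h : ℝ → ℝ} (h0 : Tendsto h atTop (𝓝 0)) (s : ℝ) :
    ENNReal.ofReal |h s| ≤ eVariationOn h univ := by
  have h1 : Tendsto (fun t => ENNReal.ofReal |h s - h t|) atTop (𝓝 (ENNReal.ofReal |h s|)) := by
    have : Tendsto (fun t => |h s - h t|) atTop (𝓝 |h s - 0|) := (tendsto_const_nhds.sub h0).abs
    rw [sub_zero] at this
    exact (ENNReal.continuous_ofReal.tendsto _).comp this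
  refine le_of_tendsto h1 (Eventually.of_forall fun t => ?_)
  have := eVariationOn.edist_le h (mem_univ s) (mem_univ t)
  rwa [edist_dist, Real.dist_eq] at this

end Crest.Agent.R112
end

-- ▼ part R112/WeakB
section

/-!
# R112 (S0147), module WeakB: weak derivative in the second variable of a function on `ℝ × ℝ`
which is absolutely continuous on almost every line `{y} × ℝ`, with integrable line variation.
-/

set_option autoImplicit false

namespace Crest.Agent.R112

open MeasureTheory Set Filter Topology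
open scoped ENNReal NNReal

/-- hypothesis on one line -/
def GoodLine (h : ℝ → ℝ) : Prop :=
  (∀ a b, AbsolutelyContinuousOnInterval h a b) ∧ Tendsto h atTop (𝓝 0)

theorem exists_line_deriv (W : ℝ × ℝ → ℝ) (hW : Measurable W)
    (hl : ∀ᵐ y : ℝ, GoodLine fun s => W (y, s)) :
    ∃ D : ℝ × ℝ → ℝ, Measurable D ∧ ∀ᵐ y : ℝ, ∀ᵐ s : ℝ, D (y, s) = deriv (fun s => W (y, s)) s := by
  set F : ℕ → ℝ × ℝ → ℝ := fun n p => ((n : ℝ) + 1) * (W (p.1, p.2 + 1 / ((n : ℝ) + 1)) - W p) with hF
  have hFm : ∀ n, Measurable (F n) := by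
    intro n
    apply Measurable.const_mul
    apply Measurable.sub _ hW
    apply hW.comp
    exact Measurable.prodMk measurable_fst (measurable_snd.add_const _)
  have hconv : ∀ᵐ y : ℝ, ∀ᵐ s : ℝ,
      Tendsto (fun n => F n (y, s)) atTop (𝓝 (deriv (fun s => W (y, s)) s)) := by
    filter_upwards [hl] with y hy
    have hbv : LocallyBoundedVariationOn (fun s => W (y, s)) univ := by
      intro a b _ _
      by_cases hab : a ≤ b
      · have := (hy.1 a b).boundedVariationOn
        rw [uIcc_of_le hab] at this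
        rwa [univ_inter]
      · rw [Icc_eq_empty hab, inter_empty]
        simp
    filter_upwards [hbv.ae_differentiableAt] with s hs
    have h1 := hs.hasDerivAt.tendsto_slope
    have h2 : Tendsto (fun n : ℕ => s + 1 / ((n : ℝ) + 1)) atTop (𝓝[≠] s) := by
      apply tendsto_nhdsWithin_of_tendsto_nhds_of_eventually_within
      · have := (tendsto_one_div_add_atTop_nhds_zero_nat (𝕜 := ℝ)).const_add s
        simpa using this
      · exact Eventually.of_forall fun n => by
          have : (0 : ℝ) < 1 / ((n : ℝ) + 1) := by positivity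
          simp only [mem_compl_iff, mem_singleton_iff]
          linarith
    have h3 := h1.comp h2
    refine h3.congr fun n => ?_
    have hn : (0 : ℝ) < (n : ℝ) + 1 := by positivity
    simp only [Function.comp, slope_def_field, hF]
    field_simp
    ring
  have hae : ∀ᵐ p : ℝ × ℝ, ∃ l, Tendsto (fun n => F n p) atTop (𝓝 l) := by
    have hms : MeasurableSet {p : ℝ × ℝ | ∃ l, Tendsto (fun n => F n p) atTop (𝓝 l)} :=
      measurableSet_exists_tendsto hFm
    rw [Measure.volume_eq_prod, Measure.ae_prod_iff_ae_ae hms]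
    filter_upwards [hconv] with y hy
    filter_upwards [hy] with s hs
    exact ⟨_, hs⟩
  obtain ⟨D, hD, hDlim⟩ := measurable_limit_of_tendsto_metrizable_ae
    (fun n => (hFm n).aemeasurable) hae
  refine ⟨D, hD, ?_⟩
  rw [Measure.volume_eq_prod] at hDlim
  have h2 := Measure.ae_ae_of_ae_prod hDlim
  filter_upwards [hconv, h2] with y hy hy2
  filter_upwards [hy, hy2] with s hs hs2
  exact tendsto_nhds_unique hs2 hs

theorem lintegral_line_deriv_le (W : ℝ × ℝ → ℝ) (D : ℝ × ℝ → ℝ) (hD : Measurable D)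
    (hDd : ∀ᵐ y : ℝ, ∀ᵐ s : ℝ, D (y, s) = deriv (fun s => W (y, s)) s) :
    ∫⁻ p, ENNReal.ofReal |D p| ≤ ∫⁻ y, eVariationOn (fun s => W (y, s)) univ := by
  rw [Measure.volume_eq_prod, lintegral_prod _ (by fun_prop)]
  apply lintegral_mono_ae
  filter_upwards [hDd] with y hy
  have : ∫⁻ s, ENNReal.ofReal |D (y, s)| = ∫⁻ s, ENNReal.ofReal |deriv (fun s => W (y, s)) s| := by
    apply lintegral_congr_ae
    filter_upwards [hy] with s hs
    rw [hs]
  rw [this]
  exact lintegral_abs_deriv_le_eVariationOn _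

/-- local integrability on strips -/
theorem lintegral_strip_le (W : ℝ × ℝ → ℝ) (hW : Measurable W)
    (hl : ∀ᵐ y : ℝ, GoodLine fun s => W (y, s)) (R : ℝ) :
    ∫⁻ p in (univ ×ˢ Icc (-R) R), ENNReal.ofReal |W p| ≤
      (∫⁻ y, eVariationOn (fun s => W (y, s)) univ) * ENNReal.ofReal (2 * R) := by
  rw [Measure.volume_eq_prod, ← Measure.prod_restrict, Measure.restrict_univ,
    lintegral_prod _ (by fun_prop)]
  calc ∫⁻ y, ∫⁻ s in Icc (-R) R, ENNReal.ofReal |W (y, s)|
      ≤ ∫⁻ y, ∫⁻ s in Icc (-R) R, eVariationOn (fun s => W (y, s)) univ := by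
        apply lintegral_mono_ae
        filter_upwards [hl] with y hy
        exact lintegral_mono fun s => ofReal_abs_le_eVariationOn_of_tendsto hy.2 s
    _ = ∫⁻ y, eVariationOn (fun s => W (y, s)) univ * ENNReal.ofReal (2 * R) := by
        congr 1
        ext y
        rw [setLIntegral_const, Real.volume_Icc]
        congr 2
        ring
    _ = _ := by
        rw [lintegral_mul_const' _ _ ENNReal.ofReal_ne_top]

theorem integrableOn_of_isCompact (W : ℝ × ℝ → ℝ) (hW : Measurable W)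
    (hl : ∀ᵐ y : ℝ, GoodLine fun s => W (y, s))
    (hvar : ∫⁻ y, eVariationOn (fun s => W (y, s)) univ ≠ ⊤) (k : Set (ℝ × ℝ)) (hk : IsCompact k) :
    IntegrableOn W k := by
  obtain ⟨R, hR⟩ := hk.isBounded.subset_closedBall (0 : ℝ × ℝ)
  have hsub : k ⊆ univ ×ˢ Icc (-R) R := by
    intro p hp
    have := hR hp
    rw [mem_closedBall_zero_iff, Prod.norm_def] at this
    have h2 : |p.2| ≤ R := le_trans (le_max_right _ _) this
    exact ⟨mem_univ _, abs_le.mp h2⟩
  refine IntegrableOn.mono_set ?_ hsub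
  refine ⟨hW.aestronglyMeasurable, ?_⟩
  rw [hasFiniteIntegral_iff_norm]
  refine lt_of_le_of_lt (lintegral_strip_le W hW hl R) ?_
  exact ENNReal.mul_lt_top (lt_top_iff_ne_top.mpr hvar) ENNReal.ofReal_lt_top

/-- integration by parts on the plane, in the second variable -/
theorem integral_mul_deriv_snd (W D : ℝ × ℝ → ℝ) (hW : Measurable W) (hD : Measurable D)
    (hl : ∀ᵐ y : ℝ, GoodLine fun s => W (y, s))
    (hvar : ∫⁻ y, eVariationOn (fun s => W (y, s)) univ ≠ ⊤)
    (hDd : ∀ᵐ y : ℝ, ∀ᵐ s : ℝ, D (y, s) = deriv (fun s => W (y, s)) s)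
    (φ φ' : ℝ × ℝ → ℝ) (hφ : Continuous φ) (hφc : HasCompactSupport φ) (hφ' : Continuous φ')
    (hφ'c : HasCompactSupport φ')
    (hd : ∀ y s, HasDerivAt (fun s => φ (y, s)) (φ' (y, s)) s) :
    ∫ p, W p * φ' p = -∫ p, D p * φ p := by
  have hDint : Integrable D := by
    refine ⟨hD.aestronglyMeasurable, ?_⟩
    rw [hasFiniteIntegral_iff_norm]
    exact lt_of_le_of_lt (lintegral_line_deriv_le W D hD hDd) (lt_top_iff_ne_top.mpr hvar)
  have hWloc : LocallyIntegrable W := locallyIntegrable_iff.mpr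
    (integrableOn_of_isCompact W hW hl hvar)
  have i1 : Integrable (fun p => W p * φ' p) := by
    have := hWloc.integrable_smul_right_of_hasCompactSupport hφ' hφ'c
    simpa [smul_eq_mul] using this
  have i2 : Integrable (fun p => D p * φ p) := by
    have := hDint.locallyIntegrable.integrable_smul_right_of_hasCompactSupport hφ hφc
    simpa [smul_eq_mul] using this
  obtain ⟨R, hR⟩ := hφc.isBounded.subset_closedBall (0 : ℝ × ℝ)
  have hzero : ∀ y s : ℝ, R < |s| → φ (y, s) = 0 := by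
    intro y s hs
    by_contra hne
    have h1 : (y, s) ∈ tsupport φ := subset_tsupport _ (by simpa [Function.mem_support] using hne)
    have h2 := hR h1
    rw [mem_closedBall_zero_iff, Prod.norm_def] at h2
    have h3 : |s| ≤ R := le_trans (le_max_right _ _) h2
    linarith
  have hzero' : ∀ y s : ℝ, R < |s| → φ' (y, s) = 0 := by
    intro y s hs
    have h1 : (fun s => φ (y, s)) =ᶠ[𝓝 s] fun _ => (0 : ℝ) := by
      have : ∀ᶠ t in 𝓝 s, R < |t| := (continuous_abs.tendsto s).eventually (lt_mem_nhds hs)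
      filter_upwards [this] with t ht
      exact hzero y t ht
    have h2 := (hd y s).congr_of_eventuallyEq h1.symm
    have h3 : HasDerivAt (fun _ : ℝ => (0 : ℝ)) 0 s := hasDerivAt_const s 0
    exact h2.unique h3
  rw [Measure.volume_eq_prod] at *
  rw [integral_prod _ i1, integral_prod _ i2, ← integral_neg]
  apply integral_congr_ae
  filter_upwards [hl, hDd] with y hy hyD
  set R' : ℝ := max R 0 + 1 with hR'
  have hR'R : R < R' := by rw [hR']; linarith [le_max_left R 0]
  have hR'0 : 0 < R' := by rw [hR']; linarith [le_max_right R 0]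
  have e1 : ∫ s, W (y, s) * φ' (y, s) = ∫ s in (-R')..R', W (y, s) * φ' (y, s) := by
    rw [intervalIntegral.integral_of_le (by linarith), ← integral_Icc_eq_integral_Ioc]
    symm
    apply setIntegral_eq_integral_of_forall_compl_eq_zero
    intro s hs
    rw [hzero' y s, mul_zero]
    by_contra hcon
    push Not at hcon
    exact hs ⟨by linarith [neg_abs_le s], by linarith [le_abs_self s]⟩
  have e2 : ∫ s, D (y, s) * φ (y, s) = ∫ s in (-R')..R', D (y, s) * φ (y, s) := by
    rw [intervalIntegral.integral_of_le (by linarith), ← integral_Icc_eq_integral_Ioc]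
    symm
    apply setIntegral_eq_integral_of_forall_compl_eq_zero
    intro s hs
    rw [hzero y s, mul_zero]
    by_contra hcon
    push Not at hcon
    exact hs ⟨by linarith [neg_abs_le s], by linarith [le_abs_self s]⟩
  have hcl : Continuous fun s => φ' (y, s) := hφ'.comp (by fun_prop)
  have hφAC : AbsolutelyContinuousOnInterval (fun s => φ (y, s)) (-R') R' := by
    obtain ⟨M, hM⟩ := hφ'c.exists_bound_of_continuous hφ'
    have hlip : LipschitzWith (Real.toNNReal M) (fun s => φ (y, s)) := by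
      apply lipschitzWith_of_nnnorm_deriv_le (fun s => (hd y s).differentiableAt)
      intro s
      rw [(hd y s).deriv]
      rw [← NNReal.coe_le_coe, coe_nnnorm]
      exact le_trans (hM _) (Real.le_coe_toNNReal M)
    exact (hlip.lipschitzOnWith (s := uIcc (-R') R')).absolutelyContinuousOnInterval
  have key := (hy.1 (-R') R').integral_mul_deriv_eq_deriv_mul hφAC
  have hb1 : φ (y, R') = 0 := hzero y R' (by rw [abs_of_pos hR'0]; exact hR'R)
  have hb2 : φ (y, -R') = 0 := hzero y (-R') (by rw [abs_neg, abs_of_pos hR'0]; exact hR'R)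
  simp only [hb1, hb2, mul_zero, sub_zero, zero_sub] at key
  rw [e1, e2]
  have k1 : ∫ s in (-R')..R', W (y, s) * deriv (fun s => φ (y, s)) s =
      ∫ s in (-R')..R', W (y, s) * φ' (y, s) := by
    congr 1
    ext s
    rw [(hd y s).deriv]
  have k2 : ∫ s in (-R')..R', deriv (fun s => W (y, s)) s * φ (y, s) =
      ∫ s in (-R')..R', D (y, s) * φ (y, s) := by
    apply intervalIntegral.integral_congr_ae
    filter_upwards [hyD] with s hs _
    rw [hs]
  rw [← k1, ← k2]
  exact key

end Crest.Agent.R112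
end

-- ▼ part R112/Weak
section

/-!
# R112 (S0147), module Weak: weak gradient of a function on the Euclidean plane which is absolutely
continuous on almost every line parallel to the axes, with integrable line variation.
-/

set_option autoImplicit false

namespace Crest.Agent.R112

open MeasureTheory Set Filter Topology
open scoped ENNReal NNReal RealInnerProductSpace ContDiff

/-- the Euclidean plane -/
abbrev E2 := EuclideanSpace ℝ (Fin 2)

/-- `(y, s) ↦ !₂[y, s]`, as a continuous linear equivalence -/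
noncomputable def iota1 : (ℝ × ℝ) ≃L[ℝ] E2 :=
  (ContinuousLinearEquiv.finTwoArrow ℝ ℝ).symm.trans (PiLp.continuousLinearEquiv 2 ℝ (fun _ : Fin 2 => ℝ)).symm

/-- `(y, s) ↦ !₂[s, y]`, as a continuous linear equivalence -/
noncomputable def iota0 : (ℝ × ℝ) ≃L[ℝ] E2 :=
  (ContinuousLinearEquiv.prodComm ℝ ℝ ℝ).trans iota1

theorem iota1_apply (p : ℝ × ℝ) : iota1 p = !₂[p.1, p.2] := rfl

theorem iota0_apply (p : ℝ × ℝ) : iota0 p = !₂[p.2, p.1] := rfl

theorem iota1_mp : MeasurePreserving iota1 (volume : Measure (ℝ × ℝ)) volume := by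
  have h1 := (volume_preserving_finTwoArrow ℝ).symm
  have h2 := PiLp.volume_preserving_toLp (Fin 2)
  exact h2.comp h1

theorem iota0_mp : MeasurePreserving iota0 (volume : Measure (ℝ × ℝ)) volume := by
  have h : MeasurePreserving (Prod.swap : ℝ × ℝ → ℝ × ℝ) (volume : Measure (ℝ × ℝ)) volume := by
    have := Measure.measurePreserving_swap (μ := (volume : Measure ℝ)) (ν := (volume : Measure ℝ))
    exact this
  exact iota1_mp.comp h

/-- one direction -/
theorem weak_dir (L : (ℝ × ℝ) ≃L[ℝ] E2) (hL : MeasurePreserving L (volume : Measure (ℝ × ℝ)) volume)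
    (u : E2 → ℝ) (hu : Measurable u) (K : ℝ)
    (hl : ∀ᵐ y : ℝ, GoodLine fun s => u (L (y, s)))
    (hvar : ∫⁻ y, eVariationOn (fun s => u (L (y, s))) univ ≤ ENNReal.ofReal K) :
    LocallyIntegrable u ∧ ∃ D : E2 → ℝ, Measurable D ∧ ∫⁻ x, ENNReal.ofReal |D x| ≤ ENNReal.ofReal K ∧
      ∀ φ : E2 → ℝ, ContDiff ℝ ∞ φ → HasCompactSupport φ →
        ∫ x, u x * fderiv ℝ φ x (L (0, 1)) = -∫ x, D x * φ x := by
  set W : ℝ × ℝ → ℝ := fun p => u (L p) with hW
  have hWm : Measurable W := hu.comp L.continuous.measurable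
  have hvar' : ∫⁻ y, eVariationOn (fun s => W (y, s)) univ ≠ ⊤ := ne_top_of_le_ne_top
    ENNReal.ofReal_ne_top hvar
  have hemb : MeasurableEmbedding L := L.toHomeomorph.measurableEmbedding
  obtain ⟨D, hD, hDd⟩ := exists_line_deriv W hWm hl
  constructor
  · rw [locallyIntegrable_iff]
    intro k hk
    have hk' : IsCompact (L ⁻¹' k) := L.toHomeomorph.isCompact_preimage.mpr hk
    have := integrableOn_of_isCompact W hWm hl hvar' _ hk'
    exact (hL.integrableOn_comp_preimage hemb).mp this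
  refine ⟨fun x => D (L.symm x), hD.comp L.symm.continuous.measurable, ?_, ?_⟩
  · rw [← hL.lintegral_comp_emb hemb]
    simp only [ContinuousLinearEquiv.symm_apply_apply]
    exact (lintegral_line_deriv_le W D hD hDd).trans hvar
  · intro φ hφ hφc
    have e1 : ∫ x, u x * fderiv ℝ φ x (L (0, 1)) =
        ∫ p, W p * fderiv ℝ φ (L p) (L (0, 1)) :=
      (hL.integral_comp hemb (fun x => u x * fderiv ℝ φ x (L (0, 1)))).symm
    have e2 : ∫ x, D (L.symm x) * φ x = ∫ p, D p * φ (L p) := by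
      rw [← hL.integral_comp hemb (fun x => D (L.symm x) * φ x)]
      simp only [ContinuousLinearEquiv.symm_apply_apply]
    rw [e1, e2]
    have hc1 : Continuous φ := hφ.continuous
    have hc2 : Continuous (fun x => fderiv ℝ φ x (L (0, 1))) :=
      (hφ.continuous_fderiv (by simp)).clm_apply continuous_const
    have hcs2 : HasCompactSupport (fun x => fderiv ℝ φ x (L (0, 1))) := hφc.fderiv_apply (𝕜 := ℝ) _
    apply integral_mul_deriv_snd W D hWm hD hl hvar' hDd (fun p => φ (L p))
      (fun p => fderiv ℝ φ (L p) (L (0, 1))) (hc1.comp L.continuous)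
      (hφc.comp_homeomorph L.toHomeomorph) (hc2.comp L.continuous)
      (hcs2.comp_homeomorph L.toHomeomorph)
    intro y s
    have h1 : HasDerivAt (fun s : ℝ => L (y, s)) (L (0, 1)) s := by
      have h2 : HasDerivAt (fun s : ℝ => ((y, s) : ℝ × ℝ)) ((0, 1) : ℝ × ℝ) s :=
        (hasDerivAt_const s y).prodMk (hasDerivAt_id s)
      exact (L : (ℝ × ℝ) →L[ℝ] E2).hasFDerivAt.comp_hasDerivAt s h2
    have h3 : HasFDerivAt φ (fderiv ℝ φ (L (y, s))) (L (y, s)) :=
      (hφ.differentiable (by simp) _).hasFDerivAt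
    exact h3.comp_hasDerivAt s h1

theorem weak_of_lines (u : E2 → ℝ) (hu : Measurable u) (K : ℝ) (hK : 0 ≤ K)
    (hl0 : ∀ᵐ y : ℝ, GoodLine fun s => u !₂[s, y])
    (hl1 : ∀ᵐ y : ℝ, GoodLine fun s => u !₂[y, s])
    (hv0 : ∫⁻ y, eVariationOn (fun s => u !₂[s, y]) univ ≤ ENNReal.ofReal K)
    (hv1 : ∫⁻ y, eVariationOn (fun s => u !₂[y, s]) univ ≤ ENNReal.ofReal K) :
    LocallyIntegrable u ∧ ∃ G : E2 → E2, Crest.AnalysisR.IsWeakGradient u G ∧ Integrable G ∧
      ∫ x, ‖G x‖ ≤ 2 * K := by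
  obtain ⟨hloc, D0, hD0, hD0i, h0⟩ := weak_dir iota0 iota0_mp u hu K hl0 hv0
  obtain ⟨-, D1, hD1, hD1i, h1⟩ := weak_dir iota1 iota1_mp u hu K hl1 hv1
  refine ⟨hloc, fun x => !₂[D0 x, D1 x], ?_⟩
  have hint : ∀ D : E2 → ℝ, Measurable D → ∫⁻ x, ENNReal.ofReal |D x| ≤ ENNReal.ofReal K →
      Integrable D ∧ ∫ x, |D x| ≤ K := by
    intro D hD hDi
    constructor
    · refine ⟨hD.aestronglyMeasurable, ?_⟩
      rw [hasFiniteIntegral_iff_norm]
      exact lt_of_le_of_lt hDi ENNReal.ofReal_lt_top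
    · rw [integral_eq_lintegral_of_nonneg_ae (Eventually.of_forall fun _ => abs_nonneg _)
        hD.abs.aestronglyMeasurable]
      exact ENNReal.toReal_le_of_le_ofReal hK hDi
  obtain ⟨i0, j0⟩ := hint D0 hD0 hD0i
  obtain ⟨i1, j1⟩ := hint D1 hD1 hD1i
  have hnorm : ∀ x, ‖(!₂[D0 x, D1 x] : E2)‖ ≤ |D0 x| + |D1 x| := by
    intro x
    rw [EuclideanSpace.norm_eq]
    simp only [Fin.sum_univ_two, Real.norm_eq_abs]
    apply Real.sqrt_le_iff.mpr
    constructor
    · positivity
    · simp only [Matrix.cons_val_zero, Matrix.cons_val_one, Matrix.cons_val_fin_one]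
      nlinarith [abs_nonneg (D0 x), abs_nonneg (D1 x), mul_nonneg (abs_nonneg (D0 x)) (abs_nonneg (D1 x))]
  have hGm : Measurable (fun x => (!₂[D0 x, D1 x] : E2)) := by
    have : Measurable (fun x => iota1 (D0 x, D1 x)) :=
      iota1.continuous.measurable.comp (hD0.prodMk hD1)
    exact this
  have hGi : Integrable (fun x => (!₂[D0 x, D1 x] : E2)) := by
    refine (i0.abs.add i1.abs).mono' hGm.aestronglyMeasurable ?_
    exact Eventually.of_forall fun x => hnorm x
  refine ⟨⟨hloc, hGi.locallyIntegrable, ?_⟩, hGi, ?_⟩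
  · intro φ hφ hφc v
    have hc1 : Continuous φ := hφ.continuous
    have a0 := h0 φ hφ hφc
    have a1 := h1 φ hφ hφc
    have hv : v = v 0 • iota0 (0, 1) + v 1 • iota1 (0, 1) := by
      rw [iota0_apply, iota1_apply]
      ext i
      fin_cases i <;> simp
    have hfd : ∀ w : E2, Integrable (fun x => u x * fderiv ℝ φ x w) := by
      intro w
      have hc2 : Continuous (fun x => fderiv ℝ φ x w) :=
        (hφ.continuous_fderiv (by simp)).clm_apply continuous_const
      have hcs2 : HasCompactSupport (fun x => fderiv ℝ φ x w) := hφc.fderiv_apply (𝕜 := ℝ) _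
      have := hloc.integrable_smul_right_of_hasCompactSupport hc2 hcs2
      simpa [smul_eq_mul] using this
    have hDi : ∀ D : E2 → ℝ, Integrable D → Integrable (fun x => D x * φ x) := by
      intro D hD
      have := hD.locallyIntegrable.integrable_smul_right_of_hasCompactSupport hc1 hφc
      simpa [smul_eq_mul] using this
    have e1 : ∀ x, u x * fderiv ℝ φ x v = v 0 * (u x * fderiv ℝ φ x (iota0 (0, 1))) +
        v 1 * (u x * fderiv ℝ φ x (iota1 (0, 1))) := by
      intro x
      conv_lhs => rw [hv]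
      rw [map_add, map_smul, map_smul, smul_eq_mul, smul_eq_mul]
      ring
    have e2 : ∀ x, ⟪(!₂[D0 x, D1 x] : E2), v⟫ * φ x = v 0 * (D0 x * φ x) + v 1 * (D1 x * φ x) := by
      intro x
      rw [PiLp.inner_apply]
      simp only [Fin.sum_univ_two]
      simp
      ring
    simp_rw [e1, e2]
    rw [integral_add ((hfd _).const_mul _) ((hfd _).const_mul _), integral_const_mul,
      integral_const_mul, a0, a1, integral_add ((hDi _ i0).const_mul _) ((hDi _ i1).const_mul _),
      integral_const_mul, integral_const_mul]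
    ring
  · calc ∫ x, ‖(!₂[D0 x, D1 x] : E2)‖ ≤ ∫ x, (|D0 x| + |D1 x|) :=
        integral_mono hGi.norm (i0.abs.add i1.abs) hnorm
      _ = (∫ x, |D0 x|) + ∫ x, |D1 x| := integral_add i0.abs i1.abs
      _ ≤ 2 * K := by linarith

end Crest.Agent.R112
end

-- ▼ part R112/Final
section

/-!
# R112 (S0147), module Final: the weak gradient of the maximal function of a `W^{1,1}` function,
from the statement about horizontal lines in `ℂ`.
-/

set_option autoImplicit false

namespace Crest.Agent.R112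

open MeasureTheory Set Metric Filter Topology
open scoped ENNReal NNReal RealInnerProductSpace

open Crest.AnalysisR (centredMaximalFunction IsWeakGradient)

/-- what is proved on horizontal lines -/
def LinesProp (C : ℝ≥0) : Prop := ∀ (F : ℂ → ℝ) (G : ℂ → (ℂ →L[ℝ] ℝ)), Integrable F → Integrable G →
  (∀ ε > 0, ∃ φ : ℂ → ℝ, Nice φ ∧ ∫ z, |φ z - F z| ≤ ε ∧ ∫ z, ‖fderiv ℝ φ z - G z‖ ≤ ε) →
  (∀ᵐ y : ℝ, (∀ s : ℝ, Mc F ⟨s, y⟩ < ⊤) ∧ GoodLine (fun s : ℝ => (Mc F ⟨s, y⟩).toReal)) ∧
  ∫⁻ y : ℝ, eVariationOn (fun s : ℝ => (Mc F ⟨s, y⟩).toReal) univ ≤ C * ∫⁻ z, ‖G z‖ₑ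

theorem Mc_eq_Me {F : ℂ → ℝ} (hF : LocallyIntegrable F) (z : ℂ) : Mc F z = Me F z := by
  unfold Mc Me
  congr 1
  ext r
  congr 1
  ext hr
  exact (avg_eq_ofReal F hF hr z).symm

theorem cmf_iso' (κ : ℂ ≃ₗᵢ[ℝ] Density.E2) (f : Density.E2 → ℝ) (z : ℂ) :
    centredMaximalFunction f (κ z) = Me (fun w => f (κ w)) z := by
  have hmp : MeasurePreserving (κ : ℂ → Density.E2) := κ.measurePreserving
  have hme : MeasurableEmbedding (κ : ℂ → Density.E2) := κ.toHomeomorph.measurableEmbedding
  unfold centredMaximalFunction Me avg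
  congr 1
  ext r
  congr 1
  ext hr
  have h1 : ball z r = (κ : ℂ → Density.E2) ⁻¹' ball (κ z) r := by
    ext w
    simp [mem_ball]
  rw [h1, hmp.setLIntegral_comp_preimage_emb hme (fun w => ‖f w‖ₑ), hmp.measure_preimage_emb hme]

/-- the lines theorem for an arbitrary isometry `κ : ℂ ≃ E2` -/
theorem lines_iso {C : ℝ≥0} (hC : LinesProp C) (κ : ℂ ≃ₗᵢ[ℝ] Density.E2) {f : Density.E2 → ℝ}
    {g : Density.E2 → Density.E2} (hf : Integrable f) (hw : IsWeakGradient f g)
    (hg : Integrable g) :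
    (∀ᵐ y : ℝ, (∀ s : ℝ, centredMaximalFunction f (κ ⟨s, y⟩) < ⊤) ∧
      GoodLine (fun s : ℝ => (centredMaximalFunction f (κ ⟨s, y⟩)).toReal)) ∧
    ∫⁻ y : ℝ, eVariationOn (fun s : ℝ => (centredMaximalFunction f (κ ⟨s, y⟩)).toReal) univ ≤
      C * ∫⁻ x, ‖g x‖ₑ := by
  have hmp : MeasurePreserving (κ : ℂ → Density.E2) := κ.measurePreserving
  have hme : MeasurableEmbedding (κ : ℂ → Density.E2) := κ.toHomeomorph.measurableEmbedding
  set F : ℂ → ℝ := fun z => f (κ z) with hFdef
  set G : ℂ → (ℂ →L[ℝ] ℝ) := fun z => (innerSL ℝ (g (κ z))).comp (κ : ℂ →L[ℝ] Density.E2) with hGdef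
  have hnorm : ∀ L : Density.E2 →L[ℝ] ℝ, ‖L.comp (κ : ℂ →L[ℝ] Density.E2)‖ = ‖L‖ := fun L =>
    ContinuousLinearMap.opNorm_comp_linearIsometryEquiv _ _
  have hF : Integrable F := (hmp.integrable_comp_emb hme).mpr hf
  have hG : Integrable G := by
    have h1 : Integrable (fun z => g (κ z)) := (hmp.integrable_comp_emb hme).mpr hg
    have h2 : Integrable (fun z => innerSL ℝ (g (κ z))) :=
      (innerSL ℝ : Density.E2 →L[ℝ] _).integrable_comp h1
    exact (((ContinuousLinearMap.compL ℝ ℂ Density.E2 ℝ).flip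
      (κ : ℂ →L[ℝ] Density.E2)).integrable_comp h2)
  have happ : ∀ ε > 0, ∃ φ : ℂ → ℝ, Nice φ ∧ ∫ z, |φ z - F z| ≤ ε ∧
      ∫ z, ‖fderiv ℝ φ z - G z‖ ≤ ε := by
    intro ε hε
    obtain ⟨φ, hφs, hφc, h1, h2⟩ := Density.exists_nice_E2 hf hw hg hε
    refine ⟨fun z => φ (κ z), ⟨(hφs.of_le (by simp)).comp
      κ.toContinuousLinearEquiv.contDiff, hφc.comp_homeomorph κ.toHomeomorph⟩, ?_, ?_⟩
    · have := hmp.integral_comp hme (fun x => |φ x - f x|)
      rw [hFdef, this]
      exact h1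
    · refine le_trans (le_of_eq ?_) h2
      rw [← hmp.integral_comp hme (fun x => ‖fderiv ℝ φ x - innerSL ℝ (g x)‖)]
      refine integral_congr_ae (Eventually.of_forall fun z => ?_)
      have hd : fderiv ℝ (fun z => φ (κ z)) z =
          (fderiv ℝ φ (κ z)).comp (κ : ℂ →L[ℝ] Density.E2) :=
        (((hφs.differentiable (by simp) (κ z)).hasFDerivAt).comp z
          (κ.toContinuousLinearEquiv : ℂ →L[ℝ] Density.E2).hasFDerivAt).fderiv
      simp only [hd, hGdef, ← ContinuousLinearMap.sub_comp]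
      exact hnorm _
  obtain ⟨h1, h2⟩ := hC F G hF hG happ
  have hcmf : ∀ z, centredMaximalFunction f (κ z) = Mc F z := fun z => by
    rw [cmf_iso', Mc_eq_Me hF.locallyIntegrable]
  have hGn : ∫⁻ z, ‖G z‖ₑ = ∫⁻ x, ‖g x‖ₑ := by
    rw [← hmp.lintegral_comp_emb hme (fun x => ‖g x‖ₑ)]
    apply lintegral_congr
    intro z
    rw [← ofReal_norm, ← ofReal_norm, hGdef]
    simp only
    rw [hnorm, innerSL_apply_norm]
  simp_rw [hcmf]
  rw [← hGn]
  exact ⟨h1, h2⟩

/-- the isometry `⟨s, y⟩ ↦ !₂[s, y]` -/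
theorem iso_apply (s y : ℝ) : Density.iso (⟨s, y⟩ : ℂ) = !₂[s, y] := by
  ext i
  fin_cases i <;> simp

/-- the reflection `⟨s, y⟩ ↦ ⟨y, s⟩` -/
noncomputable def swapC : ℂ ≃ₗᵢ[ℝ] ℂ :=
  Complex.conjLIE.trans (rotation ⟨Complex.I, by simp [Submonoid.unitSphere]⟩)

theorem swapC_apply (s y : ℝ) : swapC (⟨s, y⟩ : ℂ) = ⟨y, s⟩ := by
  have h : swapC (⟨s, y⟩ : ℂ) = Complex.I * (starRingEnd ℂ) ⟨s, y⟩ := rfl
  rw [h]
  apply Complex.ext <;> simp

/-- the isometry `⟨s, y⟩ ↦ !₂[y, s]` -/
noncomputable def iso1 : ℂ ≃ₗᵢ[ℝ] Density.E2 := swapC.trans Density.iso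

theorem iso1_apply (s y : ℝ) : iso1 (⟨s, y⟩ : ℂ) = !₂[y, s] := by
  unfold iso1
  rw [LinearIsometryEquiv.trans_apply, swapC_apply, iso_apply]

theorem final {C : ℝ≥0} (hC : LinesProp C) {f : Density.E2 → ℝ}
    {g : Density.E2 → Density.E2} (hf : Integrable f) (hw : IsWeakGradient f g)
    (hg : Integrable g) :
    (∀ᵐ x, centredMaximalFunction f x < ⊤) ∧
    LocallyIntegrable (fun x => (centredMaximalFunction f x).toReal) ∧
    ∃ G : Density.E2 → Density.E2,
      IsWeakGradient (fun x => (centredMaximalFunction f x).toReal) G ∧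
      Integrable G ∧ ∫ x, ‖G x‖ ≤ (2 * C : ℝ) * ∫ x, ‖g x‖ := by
  have hm := measurable_cmf f
  obtain ⟨a1, a2⟩ := lines_iso hC Density.iso hf hw hg
  obtain ⟨b1, b2⟩ := lines_iso hC iso1 hf hw hg
  simp_rw [iso_apply] at a1 a2
  simp_rw [iso1_apply] at b1 b2
  have hK : (C : ℝ≥0∞) * ∫⁻ x, ‖g x‖ₑ = ENNReal.ofReal (C * ∫ x, ‖g x‖) := by
    rw [ENNReal.ofReal_mul C.coe_nonneg, ENNReal.ofReal_coe_nnreal,
      ofReal_integral_norm_eq_lintegral_enorm hg]
  rw [hK] at a2 b2
  have hfin : ∀ᵐ x, centredMaximalFunction f x < ⊤ := by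
    have hms : MeasurableSet {x | centredMaximalFunction f x < ⊤} := measurableSet_lt hm measurable_const
    rw [← iota0_mp.map_eq, ae_map_iff iota0.continuous.measurable.aemeasurable hms]
    have hms' : MeasurableSet {p : ℝ × ℝ | centredMaximalFunction f (iota0 p) < ⊤} :=
      iota0.continuous.measurable hms
    rw [Measure.volume_eq_prod, Measure.ae_prod_iff_ae_ae hms']
    filter_upwards [a1] with y hy
    exact Eventually.of_forall fun s => hy.1 s
  have hmain := weak_of_lines (fun x => (centredMaximalFunction f x).toReal) hm.ennreal_toReal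
    (C * ∫ x, ‖g x‖) (mul_nonneg C.coe_nonneg (integral_nonneg fun _ => norm_nonneg _))
    (a1.mono fun y hy => hy.2) (b1.mono fun y hy => hy.2) a2 b2
  obtain ⟨h1, G, h2, h3, h4⟩ := hmain
  exact ⟨hfin, h1, G, h2, h3, by linarith⟩

end Crest.Agent.R112
end

-- ▼ part R112/AC1D
section

set_option autoImplicit false

open MeasureTheory Set Filter Topology
open scoped NNReal ENNReal

namespace Crest.Agent.R112

/-- Composition of an absolutely continuous function with a Lipschitz one. -/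
theorem ac_comp_lip {f : ℝ → ℝ} {a b : ℝ} (hf : AbsolutelyContinuousOnInterval f a b)
    {K : ℝ≥0} {φ : ℝ → ℝ} (hφ : LipschitzWith K φ) :
    AbsolutelyContinuousOnInterval (fun t => φ (f t)) a b := by
  have h := Tendsto.const_mul (K : ℝ) hf
  rw [mul_zero] at h
  refine squeeze_zero (fun t ↦ ?_) (fun t ↦ ?_) h
  · exact Finset.sum_nonneg (fun _ _ ↦ dist_nonneg)
  · rw [Finset.mul_sum]
    exact Finset.sum_le_sum fun i _ => hφ.dist_le_mul _ _

/-- One-dimensional upgrade: `v ≥ h` continuous, `h` absolutely continuous, `v` locally Lipschitz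
where `v > h`, and `v'` locally integrable. Then `v` is absolutely continuous. -/
theorem ac_upgrade {v h : ℝ → ℝ} (hv : Continuous v)
    (hh : ∀ a b, AbsolutelyContinuousOnInterval h a b) (hle : ∀ t, h t ≤ v t)
    (hloc : ∀ t, h t < v t → ∃ δ > 0, ∃ K : ℝ≥0, LipschitzOnWith K v (Icc (t - δ) (t + δ)))
    (hint : ∀ a b, IntervalIntegrable (deriv v) volume a b) :
    ∀ a b, AbsolutelyContinuousOnInterval v a b := by
  classical
  have hhc : Continuous h := by
    rw [continuous_iff_continuousAt]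
    intro t
    have := (hh (t - 1) (t + 1)).continuousOn
    rw [uIcc_of_le (by linarith)] at this
    exact this.continuousAt (Icc_mem_nhds (by linarith) (by linarith))
  set g : ℝ → ℝ := fun t => v t - h t with hgdef
  have hgc : Continuous g := hv.sub hhc
  have hg0 : ∀ t, 0 ≤ g t := fun t => sub_nonneg.2 (hle t)
  set ψ : ℝ → ℝ → ℝ := fun ε t => if ε < g t then deriv v t - deriv h t else 0 with hψdef
  have hψeq : ∀ ε, ψ ε = Set.indicator {t | ε < g t} (fun t => deriv v t - deriv h t) := by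
    intro ε
    ext t
    simp only [hψdef, Set.indicator_apply, Set.mem_ofPred_eq]
  have hopen : ∀ ε, IsOpen {t | ε < g t} := fun ε => isOpen_lt continuous_const hgc
  have hdint : ∀ a b, IntervalIntegrable (fun t => deriv v t - deriv h t) volume a b := fun a b =>
    (hint a b).sub (hh a b).intervalIntegrable_deriv
  have hψint : ∀ ε a b, IntervalIntegrable (ψ ε) volume a b := by
    intro ε a b
    rw [hψeq, intervalIntegrable_iff]
    exact ((hdint a b).def').indicator (hopen ε).measurableSet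
  -- step 1
  have step1 : ∀ ε > 0, ∀ a b, max (g b - ε) 0 - max (g a - ε) 0 = ∫ t in a..b, ψ ε t := by
    intro ε hε a b
    set G : ℝ → ℝ := fun t => max (g t - ε) 0 with hG
    have hloc2 : ∀ t0, ∃ δ > 0, ∀ t ∈ Icc (t0 - δ) (t0 + δ), G t - G t0 = ∫ s in t0..t, ψ ε s := by
      intro t0
      rcases lt_or_ge (g t0) ε with hlt | hge
      · have hU : {t | g t < ε} ∈ 𝓝 t0 := (isOpen_lt hgc continuous_const).mem_nhds hlt
        rw [Metric.mem_nhds_iff] at hU
        obtain ⟨δ, hδ, hsub⟩ := hU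
        refine ⟨δ / 2, by positivity, fun t ht => ?_⟩
        have hz : ∀ s ∈ uIcc t0 t, g s < ε := by
          intro s hs
          apply hsub
          rw [Metric.mem_ball, Real.dist_eq, abs_lt]
          rw [mem_uIcc] at hs
          rcases hs with hs | hs <;> constructor <;> linarith [hs.1, hs.2, ht.1, ht.2]
        have h1 : G t = 0 := max_eq_right (by linarith [hz t right_mem_uIcc])
        have h2 : G t0 = 0 := max_eq_right (by linarith [hz t0 left_mem_uIcc])
        rw [h1, h2, sub_zero]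
        symm
        rw [intervalIntegral.integral_congr (g := fun _ => (0:ℝ))]
        · simp
        · intro s hs
          simp only [hψdef]
          rw [if_neg (not_lt.2 (hz s hs).le)]
      · have hlt : h t0 < v t0 := by
          have : 0 < g t0 := lt_of_lt_of_le hε hge
          simp only [hgdef] at this
          linarith
        obtain ⟨δ, hδ, K, hK⟩ := hloc t0 hlt
        refine ⟨δ, hδ, fun t ht => ?_⟩
        have hsubu : uIcc t0 t ⊆ Icc (t0 - δ) (t0 + δ) := by
          intro s hs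
          rw [mem_uIcc] at hs
          rcases hs with hs | hs <;> constructor <;> linarith [hs.1, hs.2, ht.1, ht.2]
        have hvac : AbsolutelyContinuousOnInterval v t0 t :=
          (hK.mono hsubu).absolutelyContinuousOnInterval
        have hgac : AbsolutelyContinuousOnInterval g t0 t := by
          have := hvac.sub (hh t0 t)
          exact this
        have hlip : LipschitzWith 1 (fun x : ℝ => max (x - ε) 0) := by
          intro x y
          rw [edist_dist, edist_dist, ENNReal.coe_one, one_mul]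
          apply ENNReal.ofReal_le_ofReal
          rw [Real.dist_eq, Real.dist_eq]
          have h7 := abs_max_sub_max_le_abs (x - ε) (y - ε) 0
          have h8 : x - ε - (y - ε) = x - y := by ring
          rw [h8] at h7
          exact h7
        have hGac : AbsolutelyContinuousOnInterval G t0 t := by
          have h9 := ac_comp_lip (K := 1) (φ := fun x : ℝ => max (x - ε) 0) hgac hlip
          exact h9
        rw [← hGac.integral_deriv_eq_sub]
        apply intervalIntegral.integral_congr_ae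
        filter_upwards [hvac.ae_differentiableAt, (hh t0 t).ae_differentiableAt] with s hs1 hs2 hs3
        have hs4 : s ∈ uIcc t0 t := uIoc_subset_uIcc hs3
        have hvd := hs1 hs4
        have hhd := hs2 hs4
        simp only [hψdef]
        rcases lt_trichotomy (g s) ε with h1 | h1 | h1
        · rw [if_neg (not_lt.2 h1.le)]
          have : G =ᶠ[𝓝 s] fun _ => (0:ℝ) := by
            filter_upwards [(isOpen_lt hgc continuous_const).mem_nhds h1] with x hx
            exact max_eq_right (by have : g x < ε := hx; linarith)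
          rw [this.deriv_eq]
          simp
        · rw [if_neg (not_lt.2 h1.le)]
          apply IsLocalMin.deriv_eq_zero
          filter_upwards with x
          have : G s = 0 := max_eq_right (by linarith)
          rw [this]
          exact le_max_right _ _
        · rw [if_pos h1]
          have : G =ᶠ[𝓝 s] fun x => (v x - h x) - ε := by
            filter_upwards [(isOpen_lt continuous_const hgc).mem_nhds h1] with x hx
            exact max_eq_left (by have : ε < g x := hx; linarith)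
          rw [this.deriv_eq, deriv_sub_const, deriv_fun_sub hvd hhd]
    -- locally constant
    set F : ℝ → ℝ := fun t => G t - ∫ s in (0:ℝ)..t, ψ ε s with hF
    have hFlc : IsLocallyConstant F := by
      rw [IsLocallyConstant.iff_eventually_eq]
      intro t0
      obtain ⟨δ, hδ, hd⟩ := hloc2 t0
      filter_upwards [Icc_mem_nhds (show t0 - δ < t0 by linarith) (show t0 < t0 + δ by linarith)] with t ht
      have h1 := hd t ht
      have h2 : (∫ s in (0:ℝ)..t, ψ ε s) = (∫ s in (0:ℝ)..t0, ψ ε s) + ∫ s in t0..t, ψ ε s :=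
        (intervalIntegral.integral_add_adjacent_intervals (hψint _ _ _) (hψint _ _ _)).symm
      simp only [hF]
      rw [h2]
      linarith
    have hFab : F b = F a := hFlc.apply_eq_of_preconnectedSpace b a
    have h2 : (∫ s in (0:ℝ)..b, ψ ε s) = (∫ s in (0:ℝ)..a, ψ ε s) + ∫ s in a..b, ψ ε s :=
      (intervalIntegral.integral_add_adjacent_intervals (hψint _ _ _) (hψint _ _ _)).symm
    simp only [hF, hG] at hFab
    rw [h2] at hFab
    linarith
  -- step 2
  have step2 : ∀ a b, g b - g a = ∫ t in a..b, ψ 0 t := by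
    intro a b
    have hlim1 : Tendsto (fun n : ℕ => max (g b - 1 / ((n:ℝ) + 1)) 0 - max (g a - 1 / ((n:ℝ) + 1)) 0)
        atTop (𝓝 (g b - g a)) := by
      have h0 : Tendsto (fun n : ℕ => 1 / ((n:ℝ) + 1)) atTop (𝓝 0) :=
        tendsto_one_div_add_atTop_nhds_zero_nat
      have : ∀ t, Tendsto (fun n : ℕ => max (g t - 1 / ((n:ℝ) + 1)) 0) atTop (𝓝 (g t)) := by
        intro t
        have h1 : Tendsto (fun n : ℕ => max (g t - 1 / ((n:ℝ) + 1)) 0) atTop (𝓝 (max (g t - 0) 0)) :=
          (tendsto_const_nhds.sub h0).max tendsto_const_nhds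
        rwa [sub_zero, max_eq_left (hg0 t)] at h1
      exact (this b).sub (this a)
    have hlim2 : Tendsto (fun n : ℕ => ∫ t in a..b, ψ (1 / ((n:ℝ) + 1)) t) atTop
        (𝓝 (∫ t in a..b, ψ 0 t)) := by
      apply intervalIntegral.tendsto_integral_filter_of_dominated_convergence
        (fun t => ‖deriv v t - deriv h t‖)
      · filter_upwards with n
        have := (hψint (1 / ((n:ℝ) + 1)) a b).def'
        exact this.aestronglyMeasurable
      · filter_upwards with n
        filter_upwards with t _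
        simp only [hψdef]
        split_ifs
        · exact le_rfl
        · simp
      · exact (hdint a b).norm
      · filter_upwards with t _
        rcases (hg0 t).eq_or_lt with h0 | h0
        · have : ∀ n : ℕ, ψ (1 / ((n:ℝ) + 1)) t = ψ 0 t := by
            intro n
            simp only [hψdef]
            rw [if_neg, if_neg]
            · rw [← h0]; exact lt_irrefl _
            · rw [← h0, not_lt]; positivity
          simp only [this]
          exact tendsto_const_nhds
        · have h1 : ∀ᶠ n : ℕ in atTop, ψ (1 / ((n:ℝ) + 1)) t = ψ 0 t := by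
            have h2 : ∀ᶠ n : ℕ in atTop, 1 / ((n:ℝ) + 1) < g t :=
              (tendsto_one_div_add_atTop_nhds_zero_nat).eventually (gt_mem_nhds h0)
            filter_upwards [h2] with n hn
            simp only [hψdef]
            rw [if_pos hn, if_pos h0]
          exact tendsto_nhds_of_eventually_eq h1
    have heq : ∀ n : ℕ, max (g b - 1 / ((n:ℝ) + 1)) 0 - max (g a - 1 / ((n:ℝ) + 1)) 0
        = ∫ t in a..b, ψ (1 / ((n:ℝ) + 1)) t := fun n => step1 _ (by positivity) a b
    simp only [heq] at hlim1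
    exact tendsto_nhds_unique hlim1 hlim2
  intro a b
  have h1 : AbsolutelyContinuousOnInterval (fun t => ∫ s in a..t, ψ 0 s) a b :=
    (hψint 0 a b).absolutelyContinuousOnInterval_intervalIntegral left_mem_uIcc
  have h2 : AbsolutelyContinuousOnInterval (fun _ : ℝ => g a) a b :=
    (LipschitzWith.const (g a)).lipschitzOnWith.absolutelyContinuousOnInterval
  have h3 := ((hh a b).fun_add (h1.fun_add h2))
  have : (fun t => h t + ((∫ s in a..t, ψ 0 s) + g a)) = v := by
    ext t
    rw [← step2 a t]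
    simp only [hgdef]
    ring
  rwa [this] at h3

end Crest.Agent.R112
end

-- ▼ part R112/Lines1
section

/-! R112: one good horizontal line. -/

set_option autoImplicit false

namespace Crest.Agent.R112

open MeasureTheory Set Filter Topology Metric
open scoped ENNReal NNReal

/-- the statement of CORE2 -/
def CORE2 (C : ℝ≥0) : Prop := ∀ f, Nice f → ∃ W : ℝ → ℝ≥0∞, Measurable W ∧
  (∀ y, eVariationOn (fun s : ℝ => Mz f ⟨s, y⟩) univ ≤ W y) ∧
  ∫⁻ y, W y ≤ C * ∫⁻ z, ‖fderiv ℝ f z‖ₑ

theorem tendsto_A_abs {F : ℂ → ℝ} (hF : Integrable F) {φ : ℕ → ℂ → ℝ} (hφ : ∀ n, Nice (φ n))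
    (hFφ : Tendsto (fun n => ∫ z, |φ n z - F z|) atTop (𝓝 0)) {r : ℝ} (hr : 0 < r) (z : ℂ) :
    Tendsto (fun n => A (fun w => |φ n w|) r z) atTop (𝓝 (A (fun w => |F w|) r z)) := by
  rw [tendsto_iff_dist_tendsto_zero]
  have h1 := hFφ.const_mul (1 / (Real.pi * r ^ 2))
  rw [mul_zero] at h1
  apply squeeze_zero (fun _ => dist_nonneg) (fun n => ?_) h1
  rw [Real.dist_eq]
  refine (A_abs_diff (hφ n).integrable hF hr z).trans ?_
  exact A_abs_int_le ((hφ n).integrable.sub hF) hr z

theorem A_abs_shift_lim {F : ℂ → ℝ} (hF : Integrable F) {φ : ℕ → ℂ → ℝ} (hφ : ∀ n, Nice (φ n))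
    (hFφ : Tendsto (fun n => ∫ z, |φ n z - F z|) atTop (𝓝 0)) {K : ℝ}
    (hK : ∀ n, ∫ z, ‖fderiv ℝ (φ n) z‖ ≤ K) {r : ℝ} (hr : 0 < r) (z z' : ℂ) :
    |A (fun w => |F w|) r z - A (fun w => |F w|) r z'| ≤
      ‖z - z'‖ * ((1 / (Real.pi * r ^ 2)) * K) := by
  have h1 := ((tendsto_A_abs hF hφ hFφ hr z).sub (tendsto_A_abs hF hφ hFφ hr z')).abs
  apply le_of_tendsto' h1
  intro n
  refine (A_abs_shift (hφ n) hr z z').trans ?_
  have := hK n
  gcongr

/-- limit of nice functions on a line -/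
theorem ac_limit {q : ℕ → ℝ → ℝ} {D : ℕ → ℝ → ℝ} (hD : ∀ k, Continuous (D k))
    (hint : ∀ k, Integrable (D k)) (hder : ∀ k a b, q k b - q k a = ∫ s in a..b, D k s)
    (hsum : Summable fun k => ∫ s, |D k s|) (hq : ∀ s, Summable fun k => q k s) (a b : ℝ) :
    AbsolutelyContinuousOnInterval (fun s => ∑' k, q k s) a b := by
  set H : ℝ → ℝ := fun s => ∑' k, D k s with hH
  have hfin : ∫⁻ s, ∑' k, ‖D k s‖ₑ ≠ ⊤ := by
    rw [lintegral_tsum (fun k => (hD k).measurable.enorm.aemeasurable)]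
    have h1 : ∀ k, ∫⁻ s, ‖D k s‖ₑ = ENNReal.ofReal (∫ s, |D k s|) := by
      intro k
      rw [← ofReal_integral_norm_eq_lintegral_enorm (hint k)]
      rfl
    simp only [h1]
    rw [← ENNReal.ofReal_tsum_of_nonneg (fun k => integral_nonneg fun _ => abs_nonneg _) hsum]
    exact ENNReal.ofReal_ne_top
  have hHint : Integrable H := by
    have hm : Measurable (fun s => ∑' k, ‖D k s‖ₑ) := by
      apply Measurable.tsum
      intro k
      exact (hD k).measurable.enorm
    have hae : ∀ᵐ s, Summable fun k => D k s := by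
      filter_upwards [ae_lt_top hm hfin] with s hs
      have h2 : Summable fun k => ‖D k s‖ := by
        have h3 : (∑' k, ENNReal.ofReal ‖D k s‖) ≠ ⊤ := by
          simp only [ofReal_norm]
          exact hs.ne
        have h4 := ENNReal.summable_toReal h3
        simpa only [ENNReal.toReal_ofReal (norm_nonneg _)] using h4
      exact h2.of_norm
    constructor
    · apply aestronglyMeasurable_of_tendsto_ae atTop
        (f := fun n : ℕ => fun s => ∑ k ∈ Finset.range n, D k s)
      · intro n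
        exact (continuous_finsetSum _ fun k _ => hD k).aestronglyMeasurable
      · filter_upwards [hae] with s hs
        exact hs.hasSum.tendsto_sum_nat
    · rw [hasFiniteIntegral_iff_enorm]
      refine lt_of_le_of_lt (lintegral_mono fun s => ?_) hfin.lt_top
      exact enorm_tsum_le_tsum_enorm
  have hkey : ∀ a b : ℝ, a ≤ b → (∑' k, q k b) - (∑' k, q k a) = ∫ s in a..b, H s := by
    intro a b hab
    rw [← (hq b).tsum_sub (hq a)]
    have h1 : HasSum (fun k => ∫ s in Ioc a b, D k s) (∫ s in Ioc a b, ∑' k, D k s) := by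
      apply hasSum_integral_of_summable_integral_norm
      · intro k
        exact (hint k).integrableOn
      · apply Summable.of_nonneg_of_le (fun k => integral_nonneg fun _ => norm_nonneg _) _ hsum
        intro k
        exact setIntegral_le_integral (hint k).norm (Eventually.of_forall fun _ => norm_nonneg _)
    rw [intervalIntegral.integral_of_le hab, ← h1.tsum_eq]
    congr 1
    ext k
    rw [hder k a b, intervalIntegral.integral_of_le hab]
  have hkey2 : ∀ s, (∑' k, q k s) = (∑' k, q k 0) + ∫ t in (0:ℝ)..s, H t := by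
    intro s
    rcases le_total 0 s with h | h
    · rw [← hkey 0 s h]; ring
    · rw [intervalIntegral.integral_symm, ← hkey s 0 h]; ring
  set R := |a| + |b| with hR
  have hRa : -R ≤ a ∧ a ≤ R := by
    constructor
    · have := neg_abs_le a; have := abs_nonneg b; linarith
    · have := le_abs_self a; have := abs_nonneg b; linarith
  have hRb : -R ≤ b ∧ b ≤ R := by
    constructor
    · have := neg_abs_le b; have := abs_nonneg a; linarith
    · have := le_abs_self b; have := abs_nonneg a; linarith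
  have hR0 : 0 ≤ R := by positivity
  have h1 : AbsolutelyContinuousOnInterval (fun s => ∫ t in (0:ℝ)..s, H t) (-R) R := by
    apply (hHint.intervalIntegrable).absolutelyContinuousOnInterval_intervalIntegral
    rw [uIcc_of_le (by linarith)]
    constructor <;> linarith
  have h2 : AbsolutelyContinuousOnInterval (fun s => ∫ t in (0:ℝ)..s, H t) a b := by
    apply h1.mono
    apply uIcc_subset_uIcc
    · rw [uIcc_of_le (by linarith)]; exact hRa
    · rw [uIcc_of_le (by linarith)]; exact hRb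
  have h3 : AbsolutelyContinuousOnInterval (fun _ : ℝ => ∑' k, q k 0) a b :=
    (LipschitzWith.const _).lipschitzOnWith.absolutelyContinuousOnInterval
  have h4 := h3.fun_add h2
  have h5 : (fun s => ∑' k, q k s) = fun s => (∑' k, q k 0) + ∫ t in (0:ℝ)..s, H t := by
    ext s
    exact hkey2 s
  rw [h5]
  exact h4

end Crest.Agent.R112
end

-- ▼ part R112/Lines2
section

/-! R112: one good horizontal line, main lemma. -/

set_option autoImplicit false

namespace Crest.Agent.R112

open MeasureTheory Set Filter Topology Metric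
open scoped ENNReal NNReal

theorem line_good {F : ℂ → ℝ} (hF : Integrable F) {φ : ℕ → ℂ → ℝ} (hφ : ∀ n, Nice (φ n))
    (hFφ : Tendsto (fun n => ∫ z, |φ n z - F z|) atTop (𝓝 0)) {K : ℝ}
    (hK : ∀ n, ∫ z, ‖fderiv ℝ (φ n) z‖ ≤ K) (y : ℝ) {w : ℕ → ℝ} (hw : Summable w)
    (hwM : ∀ n s, Mz (fun z => φ (n + 1) z - φ n z) ⟨s, y⟩ ≤ w n)
    (hJ : Summable fun n => ∫ s : ℝ, |fderiv ℝ (fun z => φ (n + 1) z - φ n z) ⟨s, y⟩ 1|)
    (hV : liminf (fun n => eVariationOn (fun s : ℝ => Mz (φ n) ⟨s, y⟩) univ) atTop < ⊤) :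
    (∀ s : ℝ, Mc F ⟨s, y⟩ < ⊤) ∧ GoodLine (fun s => (Mc F ⟨s, y⟩).toReal) ∧
    eVariationOn (fun s => (Mc F ⟨s, y⟩).toReal) univ ≤
      liminf (fun n => eVariationOn (fun s : ℝ => Mz (φ n) ⟨s, y⟩) univ) atTop := by
  have hpi := Real.pi_pos
  set g : ℕ → ℂ → ℝ := fun n z => φ (n + 1) z - φ n z with hgdef
  have hg : ∀ n, Nice (g n) := fun n => (hφ (n + 1)).sub (hφ n)
  have hw0 : ∀ n, 0 ≤ w n := fun n => (Mz_nonneg (hg n) _).trans (hwM n 0)
  set η : ℕ → ℝ := fun n => ∑' k, w (k + n) with hη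
  have hηlim : Tendsto η atTop (𝓝 0) := tendsto_sum_nat_add w
  have hη0 : ∀ n, 0 ≤ η n := fun n => tsum_nonneg fun k => hw0 _
  have hηsum : ∀ n m, ∑ k ∈ Finset.range m, w (k + n) ≤ η n := by
    intro n m
    exact Summable.sum_le_tsum _ (fun k _ => hw0 _) ((summable_nat_add_iff n).2 hw)
  have hcont : ∀ n, Continuous (φ n) := fun n => (hφ n).continuous
  have hline : Continuous (fun s : ℝ => (⟨s, y⟩ : ℂ)) := by
    have : (fun s : ℝ => (⟨s, y⟩ : ℂ)) = fun s : ℝ => (s : ℂ) + y * Complex.I := by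
      ext s
      exact Complex.mk_eq_add_mul_I s y
    rw [this]
    fun_prop
  have hdist : ∀ s t : ℝ, ‖(⟨s, y⟩ : ℂ) - ⟨t, y⟩‖ = |s - t| := by
    intro s t
    have : (⟨s, y⟩ : ℂ) - ⟨t, y⟩ = ((s - t : ℝ) : ℂ) := by
      apply Complex.ext <;> simp
    rw [this, Complex.norm_real, Real.norm_eq_abs]
  -- (c1)
  have c1 : ∀ n (r : ℝ), 0 < r → ∀ s : ℝ,
      |A (fun w => |F w|) r ⟨s, y⟩ - A (fun w => |φ n w|) r ⟨s, y⟩| ≤ η n := by
    intro n r hr s
    have step : ∀ m, |A (fun w => |φ (m + n) w|) r ⟨s, y⟩ - A (fun w => |φ n w|) r ⟨s, y⟩|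
        ≤ ∑ k ∈ Finset.range m, w (k + n) := by
      intro m
      induction m with
      | zero => simp
      | succ m ih =>
        rw [Finset.sum_range_succ]
        have h1 := A_abs_diff (hφ (m + n + 1)).integrable (hφ (m + n)).integrable hr (⟨s, y⟩ : ℂ)
        have h2 := A_abs_le_Mz (hg (m + n)) hr.le (⟨s, y⟩ : ℂ)
        have h3 := hwM (m + n) s
        have h4 : m + 1 + n = m + n + 1 := by ring
        rw [h4]
        simp only [hgdef] at h2
        have h5 := abs_sub_le (A (fun w => |φ (m + n + 1) w|) r ⟨s, y⟩)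
          (A (fun w => |φ (m + n) w|) r ⟨s, y⟩) (A (fun w => |φ n w|) r ⟨s, y⟩)
        linarith
    have h1 : Tendsto (fun m => |A (fun w => |φ (m + n) w|) r ⟨s, y⟩ -
        A (fun w => |φ n w|) r ⟨s, y⟩|) atTop
        (𝓝 |A (fun w => |F w|) r ⟨s, y⟩ - A (fun w => |φ n w|) r ⟨s, y⟩|) := by
      apply Tendsto.abs
      apply Tendsto.sub _ tendsto_const_nhds
      exact (tendsto_A_abs hF hφ hFφ hr _).comp (tendsto_add_atTop_nat n)
    exact le_of_tendsto' h1 fun m => (step m).trans (hηsum n m)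
  -- (c2)
  have c2a : ∀ n s, Mc F ⟨s, y⟩ ≤ ENNReal.ofReal (Mz (φ n) ⟨s, y⟩ + η n) := by
    intro n s
    apply iSup₂_le
    intro r hr
    apply ENNReal.ofReal_le_ofReal
    have h1 := (abs_le.1 (c1 n r hr s)).2
    have h2 := A_abs_le_Mz (hφ n) hr.le (⟨s, y⟩ : ℂ)
    linarith
  have hfin : ∀ s : ℝ, Mc F ⟨s, y⟩ < ⊤ := fun s =>
    lt_of_le_of_lt (c2a 0 s) ENNReal.ofReal_lt_top
  set v : ℝ → ℝ := fun s => (Mc F ⟨s, y⟩).toReal with hv
  have hv0 : ∀ s, 0 ≤ v s := fun s => ENNReal.toReal_nonneg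
  have hAv : ∀ (r : ℝ), 0 < r → ∀ s, A (fun w => |F w|) r ⟨s, y⟩ ≤ v s := by
    intro r hr s
    have h1 : ENNReal.ofReal (A (fun w => |F w|) r ⟨s, y⟩) ≤ Mc F ⟨s, y⟩ :=
      le_iSup₂ (f := fun (r : ℝ) (_ : 0 < r) => ENNReal.ofReal (A (fun w => |F w|) r ⟨s, y⟩)) r hr
    have h2 := ENNReal.toReal_mono (hfin s).ne h1
    rwa [ENNReal.toReal_ofReal (A_abs_nonneg _ _ _)] at h2
  have hvle : ∀ s B, (∀ r : ℝ, 0 < r → A (fun w => |F w|) r ⟨s, y⟩ ≤ B) → v s ≤ B := by
    intro s B hB
    have hB0 : 0 ≤ B := (A_abs_nonneg F 1 _).trans (hB 1 one_pos)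
    apply ENNReal.toReal_le_of_le_ofReal hB0
    apply iSup₂_le
    intro r hr
    exact ENNReal.ofReal_le_ofReal (hB r hr)
  have c2b : ∀ n s, v s ≤ Mz (φ n) ⟨s, y⟩ + η n := by
    intro n s
    apply hvle
    intro r hr
    have h1 := (abs_le.1 (c1 n r hr s)).2
    have h2 := A_abs_le_Mz (hφ n) hr.le (⟨s, y⟩ : ℂ)
    linarith
  have c2c : ∀ n s, Mz (φ n) ⟨s, y⟩ ≤ v s + η n := by
    intro n s
    obtain ⟨Kn, hKn⟩ := (hφ n).lipschitz
    apply Mz_le
    intro r hr
    rcases hr.eq_or_lt with h0 | h0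
    · rw [← h0]
      apply le_of_forall_pos_le_add
      intro ε hε
      set r' : ℝ := ε / (Kn + 1) with hr'
      have hKn0 : (0:ℝ) ≤ Kn := Kn.2
      have hr'0 : 0 < r' := by positivity
      have h1 := (abs_le.1 (A_abs_sub_le (hφ n) hKn 0 r' (⟨s, y⟩ : ℂ) ⟨s, y⟩)).2
      have h2 := (abs_le.1 (c1 n r' hr'0 s)).1
      have h3 := hAv r' hr'0 s
      rw [sub_self, norm_zero, zero_add, zero_sub, abs_neg, abs_of_pos hr'0] at h1
      have h4 : (Kn : ℝ) * r' ≤ ε := by
        rw [hr']
        have : (Kn : ℝ) * (ε / (Kn + 1)) = ε * (Kn / (Kn + 1)) := by ring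
        rw [this]
        apply mul_le_of_le_one_right hε.le
        rw [div_le_one (by positivity)]
        linarith
      linarith
    · have h2 := (abs_le.1 (c1 n r h0 s)).1
      have h3 := hAv r h0 s
      linarith
  have c2 : ∀ n s, |v s - Mz (φ n) ⟨s, y⟩| ≤ η n := by
    intro n s
    rw [abs_le]
    constructor
    · linarith [c2c n s]
    · linarith [c2b n s]
  -- (c3)
  have hunif : TendstoUniformly (fun n (s : ℝ) => Mz (φ n) ⟨s, y⟩) v atTop := by
    rw [Metric.tendstoUniformly_iff]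
    intro ε hε
    filter_upwards [hηlim.eventually (gt_mem_nhds hε)] with n hn s
    rw [Real.dist_eq]
    exact lt_of_le_of_lt (c2 n s) hn
  have hvc : Continuous v := by
    apply hunif.continuous
    apply Frequently.of_forall
    intro n
    exact (continuous_Mz (hφ n)).comp hline
  have hvlim : Tendsto v atTop (𝓝 0) := by
    rw [Metric.tendsto_nhds]
    intro ε hε
    obtain ⟨n, hn⟩ := (hηlim.eventually (gt_mem_nhds (half_pos hε))).exists
    have h1 := (Mz_tendsto (hφ n) y).eventually (gt_mem_nhds (half_pos hε))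
    filter_upwards [h1] with s hs
    rw [Real.dist_eq, sub_zero, abs_of_nonneg (hv0 s)]
    linarith [c2b n s]
  have hvar : eVariationOn v univ ≤
      liminf (fun n => eVariationOn (fun s : ℝ => Mz (φ n) ⟨s, y⟩) univ) atTop := by
    apply le_of_forall_lt
    intro c hc
    obtain ⟨c', hc', hc''⟩ := exists_between hc
    have h1 : ∀ᶠ n in atTop, c' < eVariationOn (fun s : ℝ => Mz (φ n) ⟨s, y⟩) univ := by
      apply eVariationOn.lowerSemicontinuous_aux _ hc''
      intro s _
      exact hunif.tendsto_at s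
    refine lt_of_lt_of_le hc' ?_
    apply le_liminf_of_le
    · isBoundedDefault
    · filter_upwards [h1] with n hn
      exact hn.le
  refine ⟨hfin, ⟨?_, hvlim⟩, hvar⟩
  -- (c4)
  have hgw : ∀ n (s : ℝ), |g n ⟨s, y⟩| ≤ w n := fun n s => (abs_le_Mz (hg n) _).trans (hwM n s)
  have hsumg : ∀ s : ℝ, Summable fun n => g n ⟨s, y⟩ := by
    intro s
    apply Summable.of_norm_bounded hw
    intro n
    rw [Real.norm_eq_abs]
    exact hgw n s
  set p : ℝ → ℝ := fun s => φ 0 ⟨s, y⟩ + ∑' n, g n ⟨s, y⟩ with hp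
  have hpφ : ∀ n s, |p s - φ n ⟨s, y⟩| ≤ η n := by
    intro n s
    have h1 : φ n ⟨s, y⟩ = φ 0 ⟨s, y⟩ + ∑ k ∈ Finset.range n, g k ⟨s, y⟩ := by
      rw [Finset.sum_range_sub (fun k => φ k ⟨s, y⟩)]
      ring
    have h2 : p s - φ n ⟨s, y⟩ = ∑' k, g (k + n) ⟨s, y⟩ := by
      rw [h1, hp]
      have := (hsumg s).sum_add_tsum_nat_add n
      simp only
      linarith
    rw [h2]
    have h3 : Summable fun k => w (k + n) := (summable_nat_add_iff n).2 hw
    have h4 : Summable fun k => ‖g (k + n) ⟨s, y⟩‖ := by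
      apply Summable.of_nonneg_of_le (fun _ => norm_nonneg _) (fun k => ?_) h3
      exact hgw _ _
    calc |∑' k, g (k + n) ⟨s, y⟩| = ‖∑' k, g (k + n) ⟨s, y⟩‖ := rfl
      _ ≤ ∑' k, ‖g (k + n) ⟨s, y⟩‖ := norm_tsum_le_tsum_norm h4
      _ ≤ ∑' k, w (k + n) := h4.tsum_le_tsum (fun k => hgw _ _) h3
  have hder : ∀ k (a b : ℝ), g k ⟨b, y⟩ - g k ⟨a, y⟩ =
      ∫ s in a..b, fderiv ℝ (g k) ⟨s, y⟩ 1 := by
    intro k a b
    have hd : ∀ s : ℝ, HasDerivAt (fun s : ℝ => g k ⟨s, y⟩) (fderiv ℝ (g k) ⟨s, y⟩ 1) s := by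
      intro s
      have h1 : HasDerivAt (fun s : ℝ => (⟨s, y⟩ : ℂ)) 1 s := by
        have : (fun s : ℝ => (⟨s, y⟩ : ℂ)) = fun s : ℝ => (s : ℂ) + y * Complex.I := by
          ext s
          exact Complex.mk_eq_add_mul_I s y
        rw [this]
        exact (Complex.ofRealCLM.hasDerivAt).add_const _
      exact (((hg k).differentiable _).hasFDerivAt).comp_hasDerivAt s h1
    have hc : Continuous (fun s : ℝ => fderiv ℝ (g k) ⟨s, y⟩ 1) :=
      ((hg k).continuous_fderiv.comp hline).clm_apply continuous_const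
    exact (intervalIntegral.integral_eq_sub_of_hasDerivAt (fun t _ => hd t)
      (hc.intervalIntegrable _ _)).symm
  have hDc : ∀ k, Continuous (fun s : ℝ => fderiv ℝ (g k) ⟨s, y⟩ 1) := fun k =>
    ((hg k).continuous_fderiv.comp hline).clm_apply continuous_const
  have hDint : ∀ k, Integrable (fun s : ℝ => fderiv ℝ (g k) ⟨s, y⟩ 1) := by
    intro k
    apply (hDc k).integrable_of_hasCompactSupport
    obtain ⟨R, hR⟩ := (hg k).hasCompactSupport_fderiv.isCompact.isBounded.subset_ball 0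
    apply HasCompactSupport.of_support_subset_isCompact (isCompact_Icc (a := -R) (b := R))
    intro s hs
    have h1 : fderiv ℝ (g k) ⟨s, y⟩ ≠ 0 := by
      intro h
      apply hs
      simp [h]
    have h2 := hR (subset_tsupport _ h1)
    rw [mem_ball, dist_zero_right] at h2
    have h3 := Complex.abs_re_le_norm (⟨s, y⟩ : ℂ)
    simp only at h3
    rw [mem_Icc, ← abs_le]
    linarith
  have hpac : ∀ a b, AbsolutelyContinuousOnInterval p a b := by
    intro a b
    have h1 := ac_limit (q := fun k s => g k ⟨s, y⟩) (D := fun k s => fderiv ℝ (g k) ⟨s, y⟩ 1)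
      hDc hDint hder hJ hsumg a b
    obtain ⟨K0, hK0⟩ := (hφ 0).lipschitz
    have h2 : LipschitzWith K0 (fun s : ℝ => φ 0 ⟨s, y⟩) := by
      apply LipschitzWith.of_dist_le_mul
      intro s t
      have := hK0.dist_le_mul ⟨s, y⟩ ⟨t, y⟩
      rw [dist_eq_norm, dist_eq_norm, hdist] at this
      rw [Real.dist_eq, Real.dist_eq]
      exact this
    exact (h2.lipschitzOnWith.absolutelyContinuousOnInterval).fun_add h1
  set h : ℝ → ℝ := fun s => |p s| with hh
  have hhac : ∀ a b, AbsolutelyContinuousOnInterval h a b := by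
    intro a b
    have hlip : LipschitzWith 1 (fun x : ℝ => |x|) := by
      intro x y
      rw [edist_dist, edist_dist, ENNReal.coe_one, one_mul]
      apply ENNReal.ofReal_le_ofReal
      rw [Real.dist_eq, Real.dist_eq]
      exact abs_abs_sub_abs_le_abs_sub x y
    have h9 := ac_comp_lip (K := 1) (φ := fun x : ℝ => |x|) (hpac a b) hlip
    exact h9
  have hhφ : ∀ n s, abs (h s - |φ n ⟨s, y⟩|) ≤ η n := by
    intro n s
    exact (abs_abs_sub_abs_le_abs_sub _ _).trans (hpφ n s)
  have hle : ∀ s, h s ≤ v s := by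
    intro s
    have h1 : ∀ n, h s ≤ v s + 2 * η n := by
      intro n
      have := (abs_le.1 (hhφ n s)).2
      have h2 := abs_le_Mz (hφ n) (⟨s, y⟩ : ℂ)
      linarith [c2c n s]
    have h2 : Tendsto (fun n => v s + 2 * η n) atTop (𝓝 (v s + 2 * 0)) :=
      tendsto_const_nhds.add (hηlim.const_mul 2)
    rw [mul_zero, add_zero] at h2
    exact ge_of_tendsto' h2 h1
  have hhc : Continuous h := by
    rw [continuous_iff_continuousAt]
    intro t
    have := (hhac (t - 1) (t + 1)).continuousOn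
    rw [uIcc_of_le (by linarith)] at this
    exact this.continuousAt (Icc_mem_nhds (by linarith) (by linarith))
  have hK0 : 0 ≤ K := (integral_nonneg fun _ => norm_nonneg _).trans (hK 0)
  -- (c5)
  have hloc : ∀ t, h t < v t → ∃ δ > 0, ∃ K' : ℝ≥0, LipschitzOnWith K' v (Icc (t - δ) (t + δ)) := by
    intro t0 ht0
    set γ := (v t0 - h t0) / 8 with hγ
    have hγ0 : 0 < γ := by rw [hγ]; linarith
    obtain ⟨n, hn⟩ := (hηlim.eventually (gt_mem_nhds hγ0)).exists
    obtain ⟨Kn, hKn⟩ := (hφ n).lipschitz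
    have hKn0 : (0:ℝ) ≤ Kn := Kn.2
    set r0 : ℝ := γ / (Kn + 1) with hr0
    have hr00 : 0 < r0 := by positivity
    have hKr : ∀ r, 0 < r → r < r0 → (Kn : ℝ) * r ≤ γ := by
      intro r _ hr
      have h1 : (Kn : ℝ) * r ≤ Kn * r0 := by gcongr
      have h2 : (Kn : ℝ) * r0 ≤ γ := by
        rw [hr0]
        have : (Kn : ℝ) * (γ / (Kn + 1)) = γ * (Kn / (Kn + 1)) := by ring
        rw [this]
        apply mul_le_of_le_one_right hγ0.le
        rw [div_le_one (by positivity)]
        linarith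
      linarith
    have hc1 := Metric.continuous_iff.1 hvc t0 γ hγ0
    have hc2 := Metric.continuous_iff.1 hhc t0 γ hγ0
    obtain ⟨δ1, hδ1, hd1⟩ := hc1
    obtain ⟨δ2, hδ2, hd2⟩ := hc2
    set δ := min δ1 δ2 / 2 with hδ
    have hδ0 : 0 < δ := by positivity
    have hnear : ∀ t ∈ Icc (t0 - δ) (t0 + δ), h t + 3 * γ ≤ v t - 2 * γ := by
      intro t ht
      have h1 : dist t t0 ≤ δ := by
        rw [Real.dist_eq, abs_le]
        constructor <;> linarith [ht.1, ht.2]
      have h2 := hd1 t (lt_of_le_of_lt h1 (by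
        rw [hδ]; have := min_le_left δ1 δ2; linarith))
      have h3 := hd2 t (lt_of_le_of_lt h1 (by
        rw [hδ]; have := min_le_right δ1 δ2; linarith))
      rw [Real.dist_eq, abs_lt] at h2 h3
      have h4 : v t0 - h t0 = 8 * γ := by rw [hγ]; ring
      linarith [h2.1, h3.2]
    set K' : ℝ := (1 / (Real.pi * r0 ^ 2)) * K with hK'
    have hK'0 : 0 ≤ K' := by positivity
    have hmain : ∀ t ∈ Icc (t0 - δ) (t0 + δ), ∀ t' : ℝ, v t ≤ v t' + K' * |t - t'| := by
      intro t ht t'
      have h1 : v t ≤ max (v t - 2 * γ) (v t' + K' * |t - t'|) := by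
        apply hvle
        intro r hr
        rcases lt_or_ge r r0 with h | h'
        · apply le_max_of_le_left
          refine le_trans ?_ (hnear t ht)
          have e1 := (abs_le.1 (c1 n r hr t)).2
          have e2 := (abs_le.1 (A_abs_sub_le (hφ n) hKn r 0 (⟨t, y⟩ : ℂ) ⟨t, y⟩)).2
          rw [sub_self, norm_zero, zero_add, sub_zero, abs_of_pos hr, A_zero] at e2
          have e3 := hKr r hr h
          have e4 := (abs_le.1 (hhφ n t)).1
          linarith
        · apply le_max_of_le_right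
          have e1 := (abs_le.1 (A_abs_shift_lim hF hφ hFφ hK hr (⟨t, y⟩ : ℂ) ⟨t', y⟩)).2
          rw [hdist] at e1
          have e2 := hAv r hr t'
          have e3 : |t - t'| * (1 / (Real.pi * r ^ 2) * K) ≤ K' * |t - t'| := by
            rw [mul_comm, hK']
            gcongr
          linarith
      rcases le_max_iff.1 h1 with h2 | h2
      · linarith
      · exact h2
    refine ⟨δ, hδ0, K'.toNNReal, ?_⟩
    apply LipschitzOnWith.of_dist_le_mul
    intro t ht t' ht'
    rw [Real.coe_toNNReal _ hK'0, Real.dist_eq, Real.dist_eq, abs_le]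
    have h1 := hmain t ht t'
    have h2 := hmain t' ht' t
    rw [abs_sub_comm] at h2
    constructor <;> linarith
  -- (c6)
  have hbv : BoundedVariationOn v univ := (lt_of_le_of_lt hvar hV).ne
  have hint : ∀ a b, IntervalIntegrable (deriv v) volume a b := fun a b =>
    (hbv.mono (subset_univ _)).intervalIntegrable_deriv
  exact ac_upgrade hvc hhac hle hloc hint

end Crest.Agent.R112
end

-- ▼ part R112/Lines

/-! R112: the horizontal lines theorem. -/

set_option autoImplicit false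

namespace Crest.Agent.R112

open MeasureTheory Set Filter Topology Metric
open scoped ENNReal NNReal

theorem lines {C : ℝ≥0} (hC : CORE2 C) {F : ℂ → ℝ} {G : ℂ → (ℂ →L[ℝ] ℝ)} (hF : Integrable F)
    (hG : Integrable G)
    (happ : ∀ ε : ℝ, 0 < ε → ∃ φ : ℂ → ℝ, Nice φ ∧ ∫ z, |φ z - F z| ≤ ε ∧
      ∫ z, ‖fderiv ℝ φ z - G z‖ ≤ ε) :
    (∀ᵐ y : ℝ, (∀ s : ℝ, Mc F ⟨s, y⟩ < ⊤) ∧ GoodLine (fun s => (Mc F ⟨s, y⟩).toReal)) ∧
    ∫⁻ y : ℝ, eVariationOn (fun s => (Mc F ⟨s, y⟩).toReal) univ ≤ C * ∫⁻ z, ‖G z‖ₑ := by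
  choose φ hφ hφF hφG using fun n : ℕ => happ ((1 / 2 : ℝ) ^ n) (by positivity)
  have hpow : Tendsto (fun n : ℕ => (1 / 2 : ℝ) ^ n) atTop (𝓝 0) :=
    tendsto_pow_atTop_nhds_zero_of_lt_one (by norm_num) (by norm_num)
  have hFφ : Tendsto (fun n => ∫ z, |φ n z - F z|) atTop (𝓝 0) :=
    squeeze_zero (fun n => integral_nonneg fun _ => abs_nonneg _) hφF hpow
  set K : ℝ := (∫ z, ‖G z‖) + 1 with hK
  have hKn : ∀ n, ∫ z, ‖fderiv ℝ (φ n) z‖ ≤ (∫ z, ‖G z‖) + (1 / 2 : ℝ) ^ n := by
    intro n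
    have h1 : ∫ z, ‖fderiv ℝ (φ n) z‖ ≤ ∫ z, (‖G z‖ + ‖fderiv ℝ (φ n) z - G z‖) := by
      apply integral_mono (hφ n).integrable_fderiv.norm
        (hG.norm.add ((hφ n).integrable_fderiv.sub hG).norm)
      intro z
      have := norm_add_le (G z) (fderiv ℝ (φ n) z - G z)
      rw [add_sub_cancel] at this
      exact this
    have i2 : Integrable (fun z => ‖fderiv ℝ (φ n) z - G z‖) :=
      ((hφ n).integrable_fderiv.sub hG).norm
    rw [integral_add hG.norm i2] at h1
    linarith [hφG n]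
  have hKK : ∀ n, ∫ z, ‖fderiv ℝ (φ n) z‖ ≤ K := by
    intro n
    have : (1 / 2 : ℝ) ^ n ≤ 1 := pow_le_one₀ (by norm_num) (by norm_num)
    linarith [hKn n]
  set g : ℕ → ℂ → ℝ := fun n z => φ (n + 1) z - φ n z with hgdef
  have hg : ∀ n, Nice (g n) := fun n => (hφ (n + 1)).sub (hφ n)
  have hgd : ∀ n z, fderiv ℝ (g n) z = fderiv ℝ (φ (n + 1)) z - fderiv ℝ (φ n) z := by
    intro n z
    exact fderiv_sub ((hφ (n + 1)).differentiable z) ((hφ n).differentiable z)
  have hgint : ∀ n, ∫⁻ z, ‖fderiv ℝ (g n) z‖ₑ ≤ ENNReal.ofReal (2 * (1 / 2 : ℝ) ^ n) := by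
    intro n
    rw [← ofReal_integral_norm_eq_lintegral_enorm (hg n).integrable_fderiv]
    apply ENNReal.ofReal_le_ofReal
    have i1 : Integrable (fun z => ‖fderiv ℝ (φ (n + 1)) z - G z‖) :=
      ((hφ (n + 1)).integrable_fderiv.sub hG).norm
    have i2 : Integrable (fun z => ‖fderiv ℝ (φ n) z - G z‖) :=
      ((hφ n).integrable_fderiv.sub hG).norm
    have h1 : ∫ z, ‖fderiv ℝ (g n) z‖ ≤
        ∫ z, (‖fderiv ℝ (φ (n + 1)) z - G z‖ + ‖fderiv ℝ (φ n) z - G z‖) := by
      apply integral_mono (hg n).integrable_fderiv.norm (i1.add i2)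
      intro z
      simp only [hgd]
      have := norm_sub_le (fderiv ℝ (φ (n + 1)) z - G z) (fderiv ℝ (φ n) z - G z)
      rw [sub_sub_sub_cancel_right] at this
      exact this
    rw [integral_add i1 i2] at h1
    have h2 := hφG (n + 1)
    have h3 := hφG n
    have h4 : (1 / 2 : ℝ) ^ (n + 1) = (1 / 2 : ℝ) ^ n * (1 / 2) := pow_succ _ _
    have h5 : 0 < (1 / 2 : ℝ) ^ n := by positivity
    linarith
  have hsum2 : Summable fun n : ℕ => 2 * (1 / 2 : ℝ) ^ n :=
    (summable_geometric_of_lt_one (by norm_num) (by norm_num)).mul_left 2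
  have hsumE : ∑' n : ℕ, ENNReal.ofReal (2 * (1 / 2 : ℝ) ^ n) ≠ ⊤ := by
    rw [← ENNReal.ofReal_tsum_of_nonneg (fun n => by positivity) hsum2]
    exact ENNReal.ofReal_ne_top
  choose W hWm hWv hWi using fun n => hC (g n) (hg n)
  choose W' hWm' hWv' hWi' using fun n => hC (φ n) (hφ n)
  -- (1)
  have h1 : ∫⁻ y, ∑' n, W n y ≠ ⊤ := by
    rw [lintegral_tsum fun n => (hWm n).aemeasurable]
    have : ∑' n, ∫⁻ y, W n y ≤ ∑' n : ℕ, C * ENNReal.ofReal (2 * (1 / 2 : ℝ) ^ n) := by
      apply ENNReal.tsum_le_tsum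
      intro n
      exact (hWi n).trans (by gcongr; exact hgint n)
    refine ne_top_of_le_ne_top ?_ this
    rw [ENNReal.tsum_mul_left]
    exact ENNReal.mul_ne_top ENNReal.coe_ne_top hsumE
  have ae1 : ∀ᵐ y, ∑' n, W n y < ⊤ := ae_lt_top (Measurable.tsum hWm) h1
  -- (2)
  have hmeasJ : ∀ n, Measurable fun z => ‖fderiv ℝ (g n) z‖ₑ := fun n =>
    (hg n).continuous_fderiv.measurable.enorm
  have hmk : Measurable (fun p : ℝ × ℝ => (⟨p.2, p.1⟩ : ℂ)) := by
    have : (fun p : ℝ × ℝ => (⟨p.2, p.1⟩ : ℂ)) = fun p : ℝ × ℝ => (p.2 : ℂ) + p.1 * Complex.I := by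
      ext p
      exact Complex.mk_eq_add_mul_I p.2 p.1
    rw [this]
    fun_prop
  have hmJ : ∀ n, Measurable fun y : ℝ => ∫⁻ s : ℝ, ‖fderiv ℝ (g n) ⟨s, y⟩‖ₑ := by
    intro n
    exact Measurable.lintegral_prod_right' (f := fun p : ℝ × ℝ => ‖fderiv ℝ (g n) ⟨p.2, p.1⟩‖ₑ)
      ((hmeasJ n).comp hmk)
  have h2 : ∫⁻ y, ∑' n, ∫⁻ s : ℝ, ‖fderiv ℝ (g n) ⟨s, y⟩‖ₑ ≠ ⊤ := by
    rw [lintegral_tsum fun n => (hmJ n).aemeasurable]
    refine ne_top_of_le_ne_top hsumE (ENNReal.tsum_le_tsum fun n => ?_)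
    rw [← lint_slice (hmeasJ n)]
    exact hgint n
  have ae2 : ∀ᵐ y, ∑' n, ∫⁻ s : ℝ, ‖fderiv ℝ (g n) ⟨s, y⟩‖ₑ < ⊤ :=
    ae_lt_top (Measurable.tsum hmJ) h2
  -- (3)
  have hWlim : ∫⁻ y, liminf (fun n => W' n y) atTop ≤ C * ∫⁻ z, ‖G z‖ₑ := by
    refine (lintegral_liminf_le hWm').trans ?_
    have hb : ∀ n, ∫⁻ y, W' n y ≤ C * (ENNReal.ofReal (∫ z, ‖G z‖) + ENNReal.ofReal ((1 / 2 : ℝ) ^ n)) := by
      intro n
      refine (hWi' n).trans ?_
      gcongr
      rw [← ofReal_integral_norm_eq_lintegral_enorm (hφ n).integrable_fderiv,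
        ← ENNReal.ofReal_add (integral_nonneg fun _ => norm_nonneg _) (by positivity)]
      exact ENNReal.ofReal_le_ofReal (hKn n)
    have hlim : Tendsto (fun n : ℕ => (C : ℝ≥0∞) * (ENNReal.ofReal (∫ z, ‖G z‖) +
        ENNReal.ofReal ((1 / 2 : ℝ) ^ n))) atTop (𝓝 (C * (ENNReal.ofReal (∫ z, ‖G z‖) + 0))) := by
      apply ENNReal.Tendsto.const_mul _ (Or.inr ENNReal.coe_ne_top)
      apply Tendsto.add tendsto_const_nhds
      have := ENNReal.tendsto_ofReal hpow
      rwa [ENNReal.ofReal_zero] at this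
    rw [add_zero] at hlim
    calc liminf (fun n => ∫⁻ y, W' n y) atTop
        ≤ liminf (fun n : ℕ => (C : ℝ≥0∞) * (ENNReal.ofReal (∫ z, ‖G z‖) +
            ENNReal.ofReal ((1 / 2 : ℝ) ^ n))) atTop := by
          apply liminf_le_liminf (Eventually.of_forall hb)
      _ = C * ∫⁻ z, ‖G z‖ₑ := by
          rw [hlim.liminf_eq, ofReal_integral_norm_eq_lintegral_enorm hG]
  have hGfin : (C : ℝ≥0∞) * ∫⁻ z, ‖G z‖ₑ ≠ ⊤ := by
    apply ENNReal.mul_ne_top ENNReal.coe_ne_top
    exact hG.hasFiniteIntegral.ne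
  have hWlm : Measurable fun y => liminf (fun n => W' n y) atTop := Measurable.liminf hWm'
  have ae3 : ∀ᵐ y, liminf (fun n => W' n y) atTop < ⊤ :=
    ae_lt_top hWlm (ne_top_of_le_ne_top hGfin hWlim)
  have hlw : ∀ y, liminf (fun n => eVariationOn (fun s : ℝ => Mz (φ n) ⟨s, y⟩) univ) atTop ≤
      liminf (fun n => W' n y) atTop := fun y =>
    liminf_le_liminf (Eventually.of_forall fun n => hWv' n y)
  have main : ∀ᵐ y : ℝ, (∀ s : ℝ, Mc F ⟨s, y⟩ < ⊤) ∧ GoodLine (fun s => (Mc F ⟨s, y⟩).toReal) ∧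
      eVariationOn (fun s => (Mc F ⟨s, y⟩).toReal) univ ≤
      liminf (fun n => eVariationOn (fun s : ℝ => Mz (φ n) ⟨s, y⟩) univ) atTop := by
    filter_upwards [ae1, ae2, ae3] with y hy1 hy2 hy3
    apply line_good hF hφ hFφ hKK y (w := fun n => (W n y).toReal)
    · exact ENNReal.summable_toReal hy1.ne
    · intro n s
      have hne : W n y ≠ ⊤ := ne_top_of_le_ne_top hy1.ne (ENNReal.le_tsum n)
      have h3 := (Mz_le_eVar (hg n) y s).trans (hWv n y)
      have h4 := ENNReal.toReal_mono hne h3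
      rwa [ENNReal.toReal_ofReal (Mz_nonneg (hg n) _)] at h4
    · have h5 := ENNReal.summable_toReal hy2.ne
      apply Summable.of_nonneg_of_le (fun n => integral_nonneg fun _ => abs_nonneg _) _ h5
      intro n
      have hne : ∫⁻ s : ℝ, ‖fderiv ℝ (g n) ⟨s, y⟩‖ₑ ≠ ⊤ :=
        ne_top_of_le_ne_top hy2.ne (ENNReal.le_tsum n)
      rw [← ENNReal.ofReal_le_ofReal_iff ENNReal.toReal_nonneg, ENNReal.ofReal_toReal hne]
      calc ENNReal.ofReal (∫ s : ℝ, |fderiv ℝ (g n) ⟨s, y⟩ 1|)
          ≤ ∫⁻ s : ℝ, ENNReal.ofReal |fderiv ℝ (g n) ⟨s, y⟩ 1| := by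
            rw [integral_eq_lintegral_of_nonneg_ae (Eventually.of_forall fun _ => abs_nonneg _)]
            · exact ENNReal.ofReal_toReal_le
            · have hline : Continuous (fun s : ℝ => (⟨s, y⟩ : ℂ)) := by
                have : (fun s : ℝ => (⟨s, y⟩ : ℂ)) = fun s : ℝ => (s : ℂ) + y * Complex.I := by
                  ext s
                  exact Complex.mk_eq_add_mul_I s y
                rw [this]
                fun_prop
              exact (((hg n).continuous_fderiv.comp hline).clm_apply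
                continuous_const).abs.aestronglyMeasurable
        _ ≤ ∫⁻ s : ℝ, ‖fderiv ℝ (g n) ⟨s, y⟩‖ₑ := by
            apply lintegral_mono
            intro s
            show ENNReal.ofReal |fderiv ℝ (g n) ⟨s, y⟩ 1| ≤ ‖fderiv ℝ (g n) ⟨s, y⟩‖ₑ
            rw [← ofReal_norm]
            exact ENNReal.ofReal_le_ofReal (abs_apply_one_le _)
    · exact lt_of_le_of_lt (hlw y) hy3
  constructor
  · filter_upwards [main] with y hy
    exact ⟨hy.1, hy.2.1⟩
  · calc ∫⁻ y : ℝ, eVariationOn (fun s => (Mc F ⟨s, y⟩).toReal) univ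
        ≤ ∫⁻ y, liminf (fun n => W' n y) atTop := by
          apply lintegral_mono_ae
          filter_upwards [main] with y hy
          exact hy.2.2.trans (hlw y)
      _ ≤ _ := hWlim

end Crest.Agent.R112
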