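import Crest.Agent.R112.Basic
import Crest.Agent.R112.Interface
import Crest.Agent.R112.OneDim

-- ▼ part R112/UnitCmp
section

/-! R112, section 3: comparison of `U f` and `U (A f s)`. -/

set_option autoImplicit false

namespace Crest.Agent.R112

open MeasureTheory Metric Set Filter Topology

theorem apply_real_mul (L : ℂ →L[ℝ] ℝ) (t : ℝ) (v : ℂ) : L (t * v) = t * L v := by
  rw [← smul_eq_mul, Complex.coe_smul, map_smul, smul_eq_mul]

/-- drop lemma -/
theorem unit_drop {g : ℂ → ℝ} (hg : Nice g) {r t c : ℝ} {x ξ : ℂ} (hr : 1 ≤ r) (hr' : r ≤ 8)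
    (ht : 0 ≤ t) (hc : 0 ≤ c) (hc' : c ≤ 9 / 10) (hξ : ‖ξ‖ ≤ 1) (hx : ‖x‖ + 2 * t ≤ 32) :
    A g r x ≤ A g r (x + t * (1 + c * ξ)) + t * BB g := by
  have hc0 := hg.continuous_fderiv
  have hn : ‖(t : ℂ) * (1 + c * ξ)‖ ≤ 2 * t := by
    rw [norm_mul, Complex.norm_real, Real.norm_eq_abs, abs_of_nonneg ht]
    have h1 : ‖(1 : ℂ) + c * ξ‖ ≤ 1 + c * 1 := by
      refine le_trans (norm_add_le _ _) ?_
      rw [norm_one, norm_mul, Complex.norm_real, Real.norm_eq_abs, abs_of_nonneg hc]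
      gcongr
    nlinarith
  set h : ℂ := t * (1 + c * ξ) with hh
  have hder := fun u : ℝ => hasDerivAt_A_path hg x h r 0 u
  simp only [mul_zero, add_zero, Complex.ofReal_zero, zero_mul] at hder
  have hφ : ∀ u : ℝ, HasDerivAt (fun u : ℝ => A g r (x + u * h) + u * (t * BB g))
      ((1 / Real.pi) * (∫ ξ in ball (0 : ℂ) 1, fderiv ℝ g (x + u * h + r * ξ) h) +
        1 * (t * BB g)) u := fun u => (hder u).add ((hasDerivAt_id u).mul_const _)
  have hmono : MonotoneOn (fun u : ℝ => A g r (x + u * h) + u * (t * BB g)) (Icc 0 1) := by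
    apply monotoneOn_of_deriv_nonneg (convex_Icc 0 1)
    · exact fun u _ => (hφ u).continuousAt.continuousWithinAt
    · exact fun u _ => (hφ u).differentiableAt.differentiableWithinAt
    · intro u hu
      rw [interior_Icc] at hu
      rw [(hφ u).deriv, one_mul]
      have hsub : ball (x + u * h) r ⊆ ball 0 40 := by
        intro z hz
        rw [mem_ball, dist_eq_norm] at hz
        rw [mem_ball_zero_iff]
        have h1 : ‖(u : ℂ) * h‖ ≤ 2 * t := by
          rw [norm_mul, Complex.norm_real, Real.norm_eq_abs, abs_of_pos hu.1]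
          nlinarith [hu.2, hu.1, norm_nonneg h]
        have h2 : z = (z - (x + u * h)) + (x + u * h) := by ring
        calc ‖z‖ = ‖(z - (x + u * h)) + (x + u * h)‖ := by rw [← h2]
          _ ≤ ‖z - (x + u * h)‖ + ‖x + u * h‖ := norm_add_le _ _
          _ ≤ ‖z - (x + u * h)‖ + (‖x‖ + ‖(u : ℂ) * h‖) := by gcongr; exact norm_add_le _ _
          _ < 40 := by linarith
      have h1 := disc_bb_le hg (show 0 < r by linarith) hsub
      have h2 : 1 / (Real.pi * r ^ 2) ≤ 1 := by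
        rw [div_le_one (by positivity)]
        have := Real.pi_gt_three
        nlinarith
      have h3 : -(∫ ξ in ball (0 : ℂ) 1, fderiv ℝ g (x + u * h + r * ξ) h) ≤
          ∫ ξ in ball (0 : ℂ) 1, t * bb (fderiv ℝ g (x + u * h + r * ξ)) := by
        rw [← integral_neg]
        have hbc : Continuous fun η : ℂ => bb (fderiv ℝ g (x + u * h + r * η)) :=
          hg.continuous_bb_fderiv.comp (by fun_prop)
        apply setIntegral_mono_on (integrableOn_disc (by fun_prop))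
          (integrableOn_disc (continuous_const.mul hbc)) measurableSet_ball
        intro η _
        have h4 := neg_apply_le' (fderiv ℝ g (x + u * h + r * η)) hξ hc hc'
        have h5 : fderiv ℝ g (x + u * h + r * η) h =
            t * fderiv ℝ g (x + u * h + r * η) (1 + c * ξ) := by
          rw [← apply_real_mul, ← hh]
        rw [h5]
        have h6 := mul_le_mul_of_nonneg_left h4 ht
        show _ ≤ t * bb (fderiv ℝ g (x + u * h + r * η))
        linarith
      rw [integral_const_mul] at h3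
      have h4 := mul_le_mul_of_nonneg_left h3 (show 0 ≤ 1 / Real.pi by positivity)
      have h5 := mul_le_mul_of_nonneg_left h1 ht
      have h6 : 1 / (Real.pi * r ^ 2) * BB g ≤ BB g :=
        mul_le_of_le_one_left (BB_nonneg g) h2
      have h7 := mul_le_mul_of_nonneg_left h6 ht
      have h8 : 1 / Real.pi * (t * ∫ η in ball (0 : ℂ) 1, bb (fderiv ℝ g (x + u * h + r * η))) =
        t * (1 / Real.pi * ∫ η in ball (0 : ℂ) 1, bb (fderiv ℝ g (x + u * h + r * η))) := by ring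
      rw [h8] at h4
      linarith
  have := hmono (left_mem_Icc.mpr zero_le_one) (right_mem_Icc.mpr zero_le_one) zero_le_one
  simpa using this

/-- disc averages commute -/
theorem A_A_eq {g : ℂ → ℝ} (hg : Nice g) (r s : ℝ) (y : ℂ) :
    A (A g s) r y = (1 / Real.pi) * ∫ θ in ball (0 : ℂ) 1, A g r (y + s * θ) := by
  unfold A
  congr 1
  rw [integral_const_mul, integral_const_mul]
  congr 1
  obtain ⟨K, hK0, hK⟩ := hg.exists_bound
  have hc := hg.continuous
  rw [integral_integral_swap]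
  · refine integral_congr_ae (Eventually.of_forall fun θ => ?_)
    refine integral_congr_ae (Eventually.of_forall fun η => ?_)
    simp only
    congr 1
    ring
  · have hcont : Continuous (Function.uncurry fun (ξ η : ℂ) => g (y + r * ξ + s * η)) := by
      unfold Function.uncurry
      fun_prop
    have : IsFiniteMeasure ((volume : Measure ℂ).restrict (ball 0 1)) :=
      ⟨by rw [Measure.restrict_apply_univ]; exact measure_ball_lt_top⟩
    refine Integrable.of_bound hcont.aestronglyMeasurable K ?_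
    exact Eventually.of_forall fun p => hK _

theorem continuous_A_shift {g : ℂ → ℝ} (hg : Nice g) (r s : ℝ) (y : ℂ) :
    Continuous fun θ : ℂ => A g r (y + s * θ) := by
  have := continuous_A_right hg r
  fun_prop

theorem disc_avg_le_const {F : ℂ → ℝ} (hF : Continuous F) {K : ℝ}
    (h : ∀ ξ ∈ ball (0 : ℂ) 1, F ξ ≤ K) : (1 / Real.pi) * ∫ ξ in ball (0 : ℂ) 1, F ξ ≤ K := by
  rw [← disc_const K]
  apply mul_le_mul_of_nonneg_left _ (by positivity)
  exact setIntegral_mono_on (integrableOn_disc (by fun_prop)) (integrableOn_disc (by fun_prop))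
    measurableSet_ball h

theorem const_le_disc_avg {F : ℂ → ℝ} (hF : Continuous F) {K : ℝ}
    (h : ∀ ξ ∈ ball (0 : ℂ) 1, K ≤ F ξ) : K ≤ (1 / Real.pi) * ∫ ξ in ball (0 : ℂ) 1, F ξ := by
  rw [← disc_const K]
  apply mul_le_mul_of_nonneg_left _ (by positivity)
  exact setIntegral_mono_on (integrableOn_disc (by fun_prop)) (integrableOn_disc (by fun_prop))
    measurableSet_ball h

theorem cmpA1 {g : ℂ → ℝ} (hg : Nice g) {r s : ℝ} {y : ℂ} (hr : 1 ≤ r) (hr' : r ≤ 8)
    (hs : 0 ≤ s) (hy : ‖y‖ + 4 * s ≤ 32) :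
    A g r y ≤ A (A g s) r (y + (2 * s : ℝ)) + 2 * s * BB g := by
  rw [A_A_eq hg]
  rw [← sub_le_iff_le_add]
  apply const_le_disc_avg (continuous_A_shift hg _ _ _)
  intro θ hθ
  have h1 := unit_drop hg hr hr' (t := 2 * s) (c := 1 / 2) (x := y) (ξ := θ) (by linarith)
    (by norm_num) (by norm_num) (mem_ball_zero_iff.mp hθ).le (by linarith)
  have h2 : y + ((2 * s : ℝ) : ℂ) * (1 + ((1 / 2 : ℝ) : ℂ) * θ) = y + (2 * s : ℝ) + s * θ := by
    push_cast
    ring
  rw [h2] at h1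
  linarith

theorem cmpA2 {g : ℂ → ℝ} (hg : Nice g) {r s : ℝ} {y : ℂ} (hr : 1 ≤ r) (hr' : r ≤ 8)
    (hs : 0 ≤ s) (hy : ‖y‖ + 5 * s ≤ 32) :
    A (A g s) r y ≤ A g r (y + (2 * s : ℝ)) + 2 * s * BB g := by
  rw [A_A_eq hg]
  apply disc_avg_le_const (continuous_A_shift hg _ _ _)
  intro θ hθ
  have hθ1 := (mem_ball_zero_iff.mp hθ).le
  have hn : ‖y + s * θ‖ ≤ ‖y‖ + s := by
    refine le_trans (norm_add_le _ _) ?_
    rw [norm_mul, Complex.norm_real, Real.norm_eq_abs, abs_of_nonneg hs]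
    nlinarith
  have h1 := unit_drop hg hr hr' (t := 2 * s) (c := 1 / 2) (x := y + s * θ) (ξ := -θ)
    (by linarith) (by norm_num) (by norm_num) (by rwa [norm_neg]) (by linarith)
  have h2 : y + s * θ + ((2 * s : ℝ) : ℂ) * (1 + ((1 / 2 : ℝ) : ℂ) * (-θ)) =
      y + (2 * s : ℝ) := by
    push_cast
    ring
  rw [h2] at h1
  exact h1

theorem cmpU1 {g : ℂ → ℝ} (hg : Nice g) {τ s : ℝ} {y : ℂ} (hτ : τ ∈ Icc (1 : ℝ) 2)
    (hs : 0 ≤ s) (hy : ‖y‖ + 4 * s ≤ 32) :
    U g τ y ≤ U (A g s) τ (y + (2 * s : ℝ)) + 2 * s * BB g := by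
  apply U_le
  intro u hu
  have h1 := cmpA1 hg (r := τ * u) (s := s) (y := y) (by nlinarith [hτ.1, hu.1])
    (by nlinarith [hτ.1, hτ.2, hu.1, hu.2]) hs hy
  have h2 := A_le_U (hg.A s) (τ := τ) hu (y + (2 * s : ℝ))
  linarith

theorem cmpU2 {g : ℂ → ℝ} (hg : Nice g) {τ s : ℝ} {y : ℂ} (hτ : τ ∈ Icc (1 : ℝ) 2)
    (hs : 0 ≤ s) (hy : ‖y‖ + 5 * s ≤ 32) :
    U (A g s) τ y ≤ U g τ (y + (2 * s : ℝ)) + 2 * s * BB g := by
  apply U_le
  intro u hu
  have h1 := cmpA2 hg (r := τ * u) (s := s) (y := y) (by nlinarith [hτ.1, hu.1])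
    (by nlinarith [hτ.1, hτ.2, hu.1, hu.2]) hs hy
  have h2 := A_le_U hg (τ := τ) hu (y + (2 * s : ℝ))
  linarith

/-- drop of `U` to the right -/
theorem unit_dropU {g : ℂ → ℝ} (hg : Nice g) {τ t : ℝ} {x : ℂ} (hτ : τ ∈ Icc (1 : ℝ) 2)
    (ht : 0 ≤ t) (hx : ‖x‖ + 2 * t ≤ 32) :
    U g τ x ≤ U g τ (x + t) + t * BB g := by
  apply U_le
  intro u hu
  have h1 := unit_drop hg (r := τ * u) (t := t) (c := 0) (x := x) (ξ := 0)
    (by nlinarith [hτ.1, hu.1]) (by nlinarith [hτ.1, hτ.2, hu.1, hu.2]) ht le_rfl (by norm_num)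
    (by simp) hx
  have h2 := A_le_U hg (τ := τ) hu (x + t)
  simp only [mul_zero, add_zero, mul_one] at h1
  linarith

/-! ### the chain -/

/-- step sizes -/
noncomputable def stp (N j : ℕ) : ℝ := (1 / 4 : ℝ) ^ (5 + N - j)

theorem stp_pos (N j : ℕ) : 0 < stp N j := by unfold stp; positivity

theorem chain_succ (f : ℂ → ℝ) {N j : ℕ} (hj : j < N) :
    chain f N (j + 1) = A (chain f N j) (stp N j) := by
  show A (chain f N j) ((4 : ℝ) ^ (-6 - ((N : ℤ) - 1 - (j : ℤ)))) = _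
  congr 1
  unfold stp
  rw [one_div, inv_pow, ← zpow_natCast, ← zpow_neg]
  congr 1
  have : 5 + N - j = 5 + (N - j) := by omega
  rw [this]
  push_cast [Nat.cast_sub hj.le]
  ring

theorem stp_succ {N j : ℕ} (hj : j < N) : stp N (j + 1) = 4 * stp N j := by
  unfold stp
  have : 5 + N - j = (5 + N - (j + 1)) + 1 := by omega
  rw [this, pow_succ]
  ring

theorem stp_le {N j : ℕ} (hj : j ≤ N) : stp N j ≤ 1 / 1024 := by
  unfold stp
  have h : 5 + N - j = 5 + (N - j) := by omega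
  rw [h, pow_add]
  have : (1 / 4 : ℝ) ^ (N - j) ≤ 1 := pow_le_one₀ (by norm_num) (by norm_num)
  nlinarith

theorem nice_chain {f : ℂ → ℝ} (hf : Nice f) (N : ℕ) : ∀ j, Nice (chain f N j)
  | 0 => hf
  | (j + 1) => (nice_chain hf N j).A _

/-- total shift `S_j` -/
noncomputable def shf (N : ℕ) : ℕ → ℝ
  | 0 => 0
  | (j + 1) => shf N j + 2 * stp N j

/-- total error `P_j` -/
noncomputable def prr (f : ℂ → ℝ) (N : ℕ) : ℕ → ℝ
  | 0 => 0
  | (j + 1) => prr f N j + 2 * stp N j * BB (chain f N j)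

theorem shf_nonneg (N : ℕ) : ∀ j, 0 ≤ shf N j
  | 0 => le_rfl
  | (j + 1) => by
    have h1 := shf_nonneg N j
    have h2 := (stp_pos N j).le
    show 0 ≤ shf N j + 2 * stp N j
    linarith

theorem prr_nonneg (f : ℂ → ℝ) (N : ℕ) : ∀ j, 0 ≤ prr f N j
  | 0 => le_rfl
  | (j + 1) => by
    have h1 := prr_nonneg f N j
    have h2 := (stp_pos N j).le
    have h3 := BB_nonneg (chain f N j)
    show 0 ≤ prr f N j + 2 * stp N j * BB (chain f N j)
    positivity

theorem shf_le (N : ℕ) : ∀ j, j ≤ N → shf N j ≤ 2 / 3 * stp N j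
  | 0, _ => by
    have := (stp_pos N 0).le
    show (0 : ℝ) ≤ _
    positivity
  | (j + 1), hj => by
    have h1 := shf_le N j (by omega)
    have h2 := stp_succ (N := N) (j := j) (by omega)
    show shf N j + 2 * stp N j ≤ _
    rw [h2]
    linarith

theorem shf_le' {N j : ℕ} (hj : j ≤ N) : shf N j ≤ 1 / 1536 := by
  have h1 := shf_le N j hj
  have h2 := stp_le hj
  linarith

/-- `W = ∑_j (3/4)^(N-j) B_j` -/
noncomputable def WW (f : ℂ → ℝ) (N : ℕ) : ℝ :=
  ∑ j ∈ Finset.range (N + 1), (3 / 4 : ℝ) ^ (N - j) * BB (chain f N j)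

theorem WW_nonneg (f : ℂ → ℝ) (N : ℕ) : 0 ≤ WW f N :=
  Finset.sum_nonneg fun _ _ => mul_nonneg (by positivity) (BB_nonneg _)

theorem BB_chain_le (f : ℂ → ℝ) {N j : ℕ} (hj : j ≤ N) :
    BB (chain f N j) ≤ (4 / 3 : ℝ) ^ (N - j) * WW f N := by
  have h1 : (3 / 4 : ℝ) ^ (N - j) * BB (chain f N j) ≤ WW f N := by
    unfold WW
    exact Finset.single_le_sum (f := fun j => (3 / 4 : ℝ) ^ (N - j) * BB (chain f N j))
      (fun _ _ => mul_nonneg (by positivity) (BB_nonneg _)) (Finset.mem_range.mpr (by omega))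
  have h2 : (4 / 3 : ℝ) ^ (N - j) * (3 / 4 : ℝ) ^ (N - j) = 1 := by
    rw [← mul_pow]; norm_num
  calc BB (chain f N j) = (4 / 3 : ℝ) ^ (N - j) * ((3 / 4 : ℝ) ^ (N - j) * BB (chain f N j)) := by
        rw [← mul_assoc, h2, one_mul]
    _ ≤ _ := mul_le_mul_of_nonneg_left h1 (by positivity)

theorem prr_le (f : ℂ → ℝ) (N : ℕ) : ∀ j, j ≤ N →
    prr f N j ≤ (1 / 4) ^ 5 * (1 / 3) ^ (N - j) * WW f N
  | 0, _ => by
    have := WW_nonneg f N
    show (0 : ℝ) ≤ _
    positivity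
  | (j + 1), hj => by
    have h1 := prr_le f N j (by omega)
    have h2 := BB_chain_le f (N := N) (j := j) (by omega)
    have h3 := WW_nonneg f N
    show prr f N j + 2 * stp N j * BB (chain f N j) ≤ _
    obtain ⟨k, hk⟩ : ∃ k, N = j + 1 + k := ⟨N - (j + 1), by omega⟩
    have e1 : N - j = k + 1 := by omega
    have e2 : N - (j + 1) = k := by omega
    rw [e1] at h1 h2
    rw [e2]
    have h4 : stp N j = (1 / 4) ^ 5 * (1 / 4) ^ (k + 1) := by
      unfold stp
      rw [← pow_add]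
      congr 1
      omega
    have h5 : 2 * stp N j * BB (chain f N j) ≤
        2 * stp N j * ((4 / 3 : ℝ) ^ (k + 1) * WW f N) := by
      have := (stp_pos N j).le
      gcongr
    have h6 : stp N j * (4 / 3 : ℝ) ^ (k + 1) = (1 / 4) ^ 5 * (1 / 3) ^ (k + 1) := by
      rw [h4, mul_assoc, ← mul_pow]
      norm_num
    have h7 : 2 * stp N j * ((4 / 3 : ℝ) ^ (k + 1) * WW f N) =
        2 * ((1 / 4) ^ 5 * (1 / 3) ^ (k + 1)) * WW f N := by
      rw [← h6]; ring
    rw [h7] at h5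
    have h8 : (1 / 4 : ℝ) ^ 5 * (1 / 3) ^ k * WW f N =
        3 * ((1 / 4) ^ 5 * (1 / 3) ^ (k + 1)) * WW f N := by
      rw [pow_succ]; ring
    rw [h8]
    linarith

theorem cmp_chain1 {f : ℂ → ℝ} (hf : Nice f) {N : ℕ} {τ : ℝ} (hτ : τ ∈ Icc (1 : ℝ) 2)
    {y : ℂ} (hy : ‖y‖ ≤ 30) : ∀ j, j ≤ N →
    U f τ y ≤ U (chain f N j) τ (y + (shf N j : ℝ)) + prr f N j
  | 0, _ => by
    show U f τ y ≤ U f τ (y + ((0 : ℝ) : ℂ)) + 0
    simp
  | (j + 1), hj => by
    have h1 := cmp_chain1 hf (N := N) hτ hy j (by omega)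
    have h2 := shf_le' (N := N) (j := j) (by omega)
    have h2' := shf_nonneg N j
    have h3 := stp_le (N := N) (j := j) (by omega)
    have h4 := cmpU1 (nice_chain hf N j) hτ (stp_pos N j).le (y := y + (shf N j : ℝ)) (by
      have : ‖y + (shf N j : ℝ)‖ ≤ ‖y‖ + shf N j := by
        refine le_trans (norm_add_le _ _) ?_
        rw [Complex.norm_real, Real.norm_eq_abs, abs_of_nonneg h2']
      linarith)
    rw [chain_succ f (by omega : j < N)]
    have h5 : y + ((shf N (j + 1) : ℝ) : ℂ) = y + (shf N j : ℝ) + (2 * stp N j : ℝ) := by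
      show y + ((shf N j + 2 * stp N j : ℝ) : ℂ) = _
      push_cast
      ring
    rw [h5]
    show _ ≤ _ + (prr f N j + 2 * stp N j * BB (chain f N j))
    linarith

theorem cmp_chain2 {f : ℂ → ℝ} (hf : Nice f) {N : ℕ} {τ : ℝ} (hτ : τ ∈ Icc (1 : ℝ) 2) :
    ∀ j, j ≤ N → ∀ y : ℂ, ‖y‖ + shf N j ≤ 30 →
    U (chain f N j) τ y ≤ U f τ (y + (shf N j : ℝ)) + prr f N j
  | 0, _ => fun y _ => by
    show U f τ y ≤ U f τ (y + ((0 : ℝ) : ℂ)) + 0
    simp
  | (j + 1), hj => fun y hy => by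
    have e1 : shf N (j + 1) = shf N j + 2 * stp N j := rfl
    have h0 := (stp_pos N j).le
    have h2' := shf_nonneg N j
    have h3 := stp_le (N := N) (j := j) (by omega)
    have h1 := cmp_chain2 hf (N := N) hτ j (by omega) (y + (2 * stp N j : ℝ)) (by
      have : ‖y + (2 * stp N j : ℝ)‖ ≤ ‖y‖ + 2 * stp N j := by
        refine le_trans (norm_add_le _ _) ?_
        rw [Complex.norm_real, Real.norm_eq_abs, abs_of_nonneg (by linarith)]
      linarith)
    have h4 := cmpU2 (nice_chain hf N j) hτ h0 (y := y) (by linarith)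
    rw [chain_succ f (by omega : j < N)]
    have h5 : y + ((shf N (j + 1) : ℝ) : ℂ) = y + (2 * stp N j : ℝ) + (shf N j : ℝ) := by
      rw [e1]
      push_cast
      ring
    rw [h5]
    show _ ≤ _ + (prr f N j + 2 * stp N j * BB (chain f N j))
    linarith

end Crest.Agent.R112
end

-- ▼ part R112/UnitPk

/-! R112, section 3: comparison of peaks, iterated integrals. -/

set_option autoImplicit false

namespace Crest.Agent.R112

open MeasureTheory Metric Set Filter Topology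

theorem continuous_cmk {X : Type*} [TopologicalSpace X] {a b : X → ℝ} (ha : Continuous a)
    (hb : Continuous b) : Continuous fun p => (⟨a p, b p⟩ : ℂ) :=
  Complex.equivRealProdCLM.symm.continuous.comp (ha.prodMk hb)

theorem mk_add_real (s y S : ℝ) : (⟨s, y⟩ : ℂ) + (S : ℂ) = ⟨s + S, y⟩ := by
  apply Complex.ext <;> simp

theorem norm_mk_le {s y a b : ℝ} (hs : |s| ≤ a) (hy : |y| ≤ b) : ‖(⟨s, y⟩ : ℂ)‖ ≤ a + b := by
  have := Complex.norm_le_abs_re_add_abs_im ⟨s, y⟩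
  simp only at this
  linarith

/-- joint continuity of the peak functional -/
theorem continuous_Pk_U {g : ℂ → ℝ} (hg : Nice g) (lo hi : ℝ) :
    Continuous (fun p : ℝ × ℝ × ℝ => Pk (fun s => U g p.1 ⟨s, p.2.1⟩) lo hi p.2.2) := by
  unfold Pk
  have h1 : Continuous (fun p : ℝ × ℝ × ℝ => U g p.1 ⟨p.2.2, p.2.1⟩) :=
    (continuous_U hg).comp (Continuous.prodMk (by fun_prop) (continuous_cmk (by fun_prop)
      (by fun_prop)))
  have h2 : Continuous (fun q : (ℝ × ℝ × ℝ) × ℝ => U g q.1.1 ⟨q.1.2.2 - q.2, q.1.2.1⟩) :=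
    (continuous_U hg).comp (Continuous.prodMk (by fun_prop) (continuous_cmk (by fun_prop)
      (by fun_prop)))
  have h3 : Continuous (fun q : (ℝ × ℝ × ℝ) × ℝ => U g q.1.1 ⟨q.1.2.2 + q.2, q.1.2.1⟩) :=
    (continuous_U hg).comp (Continuous.prodMk (by fun_prop) (continuous_cmk (by fun_prop)
      (by fun_prop)))
  refine continuous_const.max (h1.sub (Continuous.max ?_ ?_))
  · exact isCompact_Icc.continuous_sInf
      (f := fun (p : ℝ × ℝ × ℝ) (t : ℝ) => U g p.1 ⟨p.2.2 - t, p.2.1⟩) h2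
  · exact isCompact_Icc.continuous_sInf
      (f := fun (p : ℝ × ℝ × ℝ) (t : ℝ) => U g p.1 ⟨p.2.2 + t, p.2.1⟩) h3

theorem Pk_le_of_cmp {h h1 : ℝ → ℝ} (hh1 : Continuous h1) {lo hi lo' hi' S P s : ℝ}
    (hS : 0 ≤ S) (hlh : lo ≤ hi) (hlo : lo' + 2 * S ≤ lo) (hhi : hi + 2 * S ≤ hi')
    (hP : 0 ≤ P) (hlo0 : 0 ≤ lo)
    (c1 : h s ≤ h1 (s + S) + P)
    (c2 : ∀ t, |t - s| ≤ hi → h1 (t - S) ≤ h t + P) :
    Pk h lo hi s ≤ Pk h1 lo' hi' (s + S) + 2 * P := by
  have hne : (Icc lo hi).Nonempty := nonempty_Icc.mpr hlh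
  have bdd1 : BddBelow ((fun t => h1 (s + S - t)) '' Icc lo' hi') :=
    (isCompact_Icc.image (by fun_prop)).bddBelow
  have bdd2 : BddBelow ((fun t => h1 (s + S + t)) '' Icc lo' hi') :=
    (isCompact_Icc.image (by fun_prop)).bddBelow
  have e1 : sInf ((fun t => h1 (s + S - t)) '' Icc lo' hi') - P ≤
      sInf ((fun t => h (s - t)) '' Icc lo hi) := by
    apply le_csInf (hne.image _)
    rintro _ ⟨t, ht, rfl⟩
    have h2 := c2 (s - t) (by
      rw [sub_sub_cancel_left, abs_neg, abs_of_nonneg (le_trans hlo0 ht.1)]; exact ht.2)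
    have h3 : sInf ((fun t => h1 (s + S - t)) '' Icc lo' hi') ≤ h1 (s + S - (t + 2 * S)) :=
      csInf_le bdd1 ⟨t + 2 * S, ⟨by linarith [ht.1], by linarith [ht.2]⟩, rfl⟩
    have h4 : s + S - (t + 2 * S) = s - t - S := by ring
    rw [h4] at h3
    show _ ≤ h (s - t)
    linarith
  have e2 : sInf ((fun t => h1 (s + S + t)) '' Icc lo' hi') - P ≤
      sInf ((fun t => h (s + t)) '' Icc lo hi) := by
    apply le_csInf (hne.image _)
    rintro _ ⟨t, ht, rfl⟩
    have h2 := c2 (s + t) (by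
      rw [add_sub_cancel_left, abs_of_nonneg (le_trans hlo0 ht.1)]; exact ht.2)
    have h3 : sInf ((fun t => h1 (s + S + t)) '' Icc lo' hi') ≤ h1 (s + S + (t - 2 * S)) :=
      csInf_le bdd2 ⟨t - 2 * S, ⟨by linarith [ht.1], by linarith [ht.2]⟩, rfl⟩
    have h4 : s + S + (t - 2 * S) = s + t - S := by ring
    rw [h4] at h3
    show _ ≤ h (s + t)
    linarith
  unfold Pk
  apply max_le
  · have := le_max_left 0 (h1 (s + S) - max (sInf ((fun t => h1 (s + S - t)) '' Icc lo' hi'))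
      (sInf ((fun t => h1 (s + S + t)) '' Icc lo' hi')))
    linarith
  · have h5 := le_max_right 0 (h1 (s + S) - max (sInf ((fun t => h1 (s + S - t)) '' Icc lo' hi'))
      (sInf ((fun t => h1 (s + S + t)) '' Icc lo' hi')))
    have h6 : max (sInf ((fun t => h1 (s + S - t)) '' Icc lo' hi'))
      (sInf ((fun t => h1 (s + S + t)) '' Icc lo' hi')) - P ≤
      max (sInf ((fun t => h (s - t)) '' Icc lo hi)) (sInf ((fun t => h (s + t)) '' Icc lo hi)) := by
      rw [← max_sub_sub_right]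
      exact max_le_max e1 e2
    linarith

/-! ### iterated integrals of continuous functions -/

theorem lint_eq1 {F : ℝ → ℝ} (hF : Continuous F) (h0 : ∀ x, 0 ≤ F x) {a b : ℝ} (hab : a ≤ b) :
    ∫⁻ x in Icc a b, ENNReal.ofReal (F x) = ENNReal.ofReal (∫ x in a..b, F x) := by
  rw [intervalIntegral.integral_of_le hab, ← integral_Icc_eq_integral_Ioc,
    ofReal_integral_eq_lintegral_ofReal]
  · exact hF.continuousOn.integrableOn_compact isCompact_Icc
  · exact Eventually.of_forall h0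

theorem continuous_int1 {X : Type*} [TopologicalSpace X]
    {F : X × ℝ → ℝ} (hF : Continuous F) (a b : ℝ) :
    Continuous (fun x : X => ∫ t in a..b, F (x, t)) :=
  intervalIntegral.continuous_parametric_intervalIntegral_of_continuous'
    (f := fun x t => F (x, t)) hF a b

theorem int_nonneg {F : ℝ → ℝ} (h0 : ∀ x, 0 ≤ F x) {a b : ℝ} (hab : a ≤ b) :
    0 ≤ ∫ x in a..b, F x := intervalIntegral.integral_nonneg hab fun x _ => h0 x

theorem lint_eq3 {F : ℝ × ℝ × ℝ → ℝ} (hF : Continuous F) (h0 : ∀ x, 0 ≤ F x)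
    {a₁ b₁ a₂ b₂ a₃ b₃ : ℝ} (h1 : a₁ ≤ b₁) (h2 : a₂ ≤ b₂) (h3 : a₃ ≤ b₃) :
    ∫⁻ τ in Icc a₁ b₁, ∫⁻ y in Icc a₂ b₂, ∫⁻ s in Icc a₃ b₃, ENNReal.ofReal (F (τ, y, s)) =
    ENNReal.ofReal (∫ τ in a₁..b₁, ∫ y in a₂..b₂, ∫ s in a₃..b₃, F (τ, y, s)) := by
  have c1 : Continuous fun p : ℝ × ℝ => ∫ s in a₃..b₃, F (p.1, p.2, s) :=
    continuous_int1 (F := fun q : (ℝ × ℝ) × ℝ => F (q.1.1, q.1.2, q.2)) (by fun_prop) _ _
  have c2 : Continuous fun τ : ℝ => ∫ y in a₂..b₂, ∫ s in a₃..b₃, F (τ, y, s) :=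
    continuous_int1 (F := fun p : ℝ × ℝ => ∫ s in a₃..b₃, F (p.1, p.2, s)) c1 _ _
  have e1 : ∀ τ y, ∫⁻ s in Icc a₃ b₃, ENNReal.ofReal (F (τ, y, s)) =
      ENNReal.ofReal (∫ s in a₃..b₃, F (τ, y, s)) := fun τ y =>
    lint_eq1 (by fun_prop) (fun s => h0 _) h3
  have e2 : ∀ τ, ∫⁻ y in Icc a₂ b₂, ENNReal.ofReal (∫ s in a₃..b₃, F (τ, y, s)) =
      ENNReal.ofReal (∫ y in a₂..b₂, ∫ s in a₃..b₃, F (τ, y, s)) := fun τ =>
    lint_eq1 (by fun_prop) (fun y => int_nonneg (fun s => h0 _) h3) h2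
  simp only [e1, e2]
  exact lint_eq1 c2 (fun τ => int_nonneg (fun y => int_nonneg (fun s => h0 _) h3) h2) h1

theorem lint_shift_le (F : ℝ → ENNReal) {a b a' b' S : ℝ} (ha : a' ≤ a + S) (hb : b + S ≤ b') :
    ∫⁻ s in Icc a b, F (s + S) ≤ ∫⁻ s in Icc a' b', F s := by
  have h1 := (measurePreserving_add_right (volume : Measure ℝ) S).setLIntegral_comp_preimage_emb
    (measurableEmbedding_addRight S) F (Icc (a + S) (b + S))
  rw [preimage_add_const_Icc, add_sub_cancel_right, add_sub_cancel_right] at h1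
  rw [h1]
  exact lintegral_mono_set (Icc_subset_Icc ha hb)

end Crest.Agent.R112
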